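import Mathlib.Data.Finset.Sort
import Mathlib.Data.Finsupp.Lex
import Mathlib.Data.Sign.Defs
import Mathlib.Order.PartialSups
import Mathlib.Order.PiLex
import Mathlib.Order.Zorn
import Mathlib.SetTheory.Cardinal.Cofinality.Club
import Mathlib.SetTheory.Cardinal.Finsupp
import Mathlib.SetTheory.Cardinal.Regular
import Mathlib.ModelTheory.Encoding
import Mathlib.ModelTheory.Semantics
import Mathlib.ModelTheory.Substructures
import Mathlib.ModelTheory.Ultraproducts
import Mathlib.Order.Filter.AtTopBot.Basic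
import Mathlib.ModelTheory.LanguageMap
import Mathlib.Tactic.FinCases
import Mathlib.Combinatorics.SimpleGraph.Paths
import Vale.Agent.P307.Defs
import Vale.Agent.P307.Gr.Gaifman

set_option linter.all false

section

section

universe u

open Cardinal Set

namespace Vale.Agent.P307

/-- The well order of type `μ⁺`. -/
abbrev SuccTy (μ : Cardinal.{u}) : Type u := (Order.succ μ).ord.ToType

theorem exists_gt_of_small {μ : Cardinal.{u}} (hμ : ℵ₀ ≤ μ) (s : Set (SuccTy μ)) (hs : #s ≤ μ) :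
    ∃ x : SuccTy μ, ∀ y ∈ s, y < x := by
  rw [← not_isCofinal_iff]
  intro h
  have h1 := Order.cof_le h
  rw [Ordinal.cof_toType, (isRegular_succ hμ).cof_ord] at h1
  exact absurd (h1.trans hs) (not_le.2 (Order.lt_succ μ))

theorem mk_Iio_succTy {μ : Cardinal.{u}} (i : SuccTy μ) : #(Set.Iio i) ≤ μ := by
  have h : #(Set.Iio i) < Order.succ μ := by simpa only [Order.lt_succ_iff, mk_toType, card_ord, Ordinal.type_toType, forall_const] using mk_Iio_lt i
  exact Order.lt_succ_iff.1 h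

section closure

variable {Z : Type u} (μ : Cardinal.{u}) (Φ : Set Z → Set Z) (S₀ : Set Z)

/-- One step of the closing process. -/
def stepSet (W : Set Z) : Set Z := S₀ ∪ W ∪ ⋃ B : {B : Set Z // B ⊆ W ∧ #B ≤ μ}, Φ B.1

/-- The stages of the closing process. -/
noncomputable def stage : SuccTy μ → Set Z :=
  WellFounded.fix (r := (· < ·)) wellFounded_lt
    (fun i T => stepSet μ Φ S₀ (⋃ j : Set.Iio i, T j.1 j.2))

theorem stage_eq (i : SuccTy μ) :
    stage μ Φ S₀ i = stepSet μ Φ S₀ (⋃ j : Set.Iio i, stage μ Φ S₀ j.1) := by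
  unfold stage
  rw [WellFounded.fix_eq]

theorem mk_stage_le (κ : Cardinal.{u}) (hμ : ℵ₀ ≤ μ) (hκ : κ ^ μ = κ) (hκ2 : 2 ≤ κ)
    (hΦ : ∀ B : Set Z, #B ≤ μ → #(Φ B) ≤ κ) (hS₀ : #S₀ ≤ κ) (i : SuccTy μ) :
    #(stage μ Φ S₀ i) ≤ κ := by
  have hμκ : μ ≤ κ := by
    calc μ ≤ 2 ^ μ := (cantor μ).le
      _ ≤ κ ^ μ := power_le_power_right hκ2
      _ = κ := hκ
  have hκ0 : ℵ₀ ≤ κ := hμ.trans hμκ
  induction i using WellFoundedLT.induction with
  | _ i ih =>
    rw [stage_eq]
    have hW : #(⋃ j : Set.Iio i, stage μ Φ S₀ j.1 : Set Z) ≤ κ := by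
      refine (mk_iUnion_le _).trans ?_
      calc #(Set.Iio i) * ⨆ j : Set.Iio i, #(stage μ Φ S₀ j.1)
          ≤ κ * κ := by
            refine mul_le_mul' ((mk_Iio_succTy i).trans hμκ) ?_
            exact ciSup_le' fun j => ih j.1 j.2
        _ = κ := mul_eq_self hκ0
    unfold stepSet
    refine (mk_union_le _ _).trans ?_
    refine (add_le_add ((mk_union_le _ _).trans (add_le_add hS₀ hW)) ?_).trans
      (b := (κ + κ) + κ) ?_
    · refine (mk_iUnion_le _).trans ?_
      have h1 : #{B : Set Z // B ⊆ (⋃ j : Set.Iio i, stage μ Φ S₀ j.1) ∧ #B ≤ μ} ≤ κ := by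
        refine (mk_bounded_subset_le _ _).trans ?_
        calc max #(⋃ j : Set.Iio i, stage μ Φ S₀ j.1 : Set Z) ℵ₀ ^ μ ≤ κ ^ μ :=
              power_le_power_right (max_le hW hκ0)
          _ = κ := hκ
      calc _ ≤ κ * κ := by
            refine mul_le_mul' h1 ?_
            exact ciSup_le' fun B => hΦ B.1 B.2.2
        _ = κ := mul_eq_self hκ0
    · rw [add_eq_self hκ0, add_eq_self hκ0]

theorem exists_closed {Z : Type u} {μ κ : Cardinal.{u}} (hμ : ℵ₀ ≤ μ) (hκ : κ ^ μ = κ)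
    (hκ2 : 2 ≤ κ) (Φ : Set Z → Set Z) (hΦ : ∀ B : Set Z, #B ≤ μ → #(Φ B) ≤ κ)
    (S₀ : Set Z) (hS₀ : #S₀ ≤ κ) :
    ∃ S : Set Z, S₀ ⊆ S ∧ #S ≤ κ ∧ ∀ B : Set Z, B ⊆ S → #B ≤ μ → Φ B ⊆ S := by
  have hμκ' : μ < κ := by
    calc μ < 2 ^ μ := cantor μ
      _ ≤ κ ^ μ := power_le_power_right hκ2
      _ = κ := hκ
  have hκ0 : ℵ₀ ≤ κ := hμ.trans hμκ'.le
  refine ⟨⋃ i, stage μ Φ S₀ i, ?_, ?_, ?_⟩
  · obtain ⟨x, -⟩ := exists_gt_of_small hμ (∅ : Set (SuccTy μ)) (by simp only [mk_eq_zero, zero_le])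
    refine Set.Subset.trans ?_ (Set.subset_iUnion _ x)
    rw [stage_eq]
    exact Set.Subset.trans Set.subset_union_left Set.subset_union_left
  · refine (mk_iUnion_le _).trans ?_
    calc #(SuccTy μ) * ⨆ i, #(stage μ Φ S₀ i) ≤ κ * κ := by
          refine mul_le_mul' ?_ (ciSup_le' fun i => mk_stage_le μ Φ S₀ κ hμ hκ hκ2 hΦ hS₀ i)
          simpa only [mk_toType, card_ord, Order.succ_le_iff] using Order.succ_le_of_lt hμκ'
      _ = κ := mul_eq_self hκ0
  · intro B hB hBμ
    have h1 : ∀ b : B, ∃ i, b.1 ∈ stage μ Φ S₀ i := fun b => by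
      simpa only [mem_iUnion] using hB b.2
    choose idx hidx using h1
    obtain ⟨x, hx⟩ := exists_gt_of_small hμ (Set.range idx) (mk_range_le.trans hBμ)
    refine Set.Subset.trans ?_ (Set.subset_iUnion _ x)
    rw [stage_eq]
    refine Set.Subset.trans ?_ Set.subset_union_right
    refine Set.subset_iUnion_of_subset ⟨B, ?_, hBμ⟩ (Set.Subset.refl _)
    intro b hb
    rw [Set.mem_iUnion]
    exact ⟨⟨idx ⟨b, hb⟩, hx _ ⟨_, rfl⟩⟩, hidx ⟨b, hb⟩⟩

end closure

end Vale.Agent.P307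
end
end

section

section

universe u

open Cardinal Set

namespace Vale.Agent.P307

/-- `Arrow κ χ n T`: every colouring of the `n`-tuples of a well order of size at least `κ` with
colours in `T` has a homogeneous set of size at least `χ`. -/
def Arrow (κ χ : Cardinal.{u}) (n : ℕ) (T : Type u) : Prop :=
  ∀ (X : Type u) [LinearOrder X] [WellFoundedLT X], κ ≤ #X → ∀ f : (Fin n → X) → T,
    ∃ H : Set X, χ ≤ #H ∧ ∃ t, ∀ a : Fin n → X, StrictMono a → (∀ i, a i ∈ H) → f a = t

section step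

variable {X : Type u} [LinearOrder X] {n : ℕ} {T : Type u} (f : (Fin (n + 1) → X) → T)

/-- Candidates realizing a given type over `B`. -/
def RealT (B : Set X) (τ : (Fin n → B) → T) : Set X :=
  {y | (∀ b ∈ B, b < y) ∧ (fun a : Fin n → B => f (Fin.snoc (fun i => (a i : X)) y)) = τ}

/-- One chosen realization for each type over `B`. -/
def ChoiceSet (B : Set X) : Set X :=
  ⋃ τ : (Fin n → B) → T, {y | ∃ h : (RealT f B τ).Nonempty, y = h.choose}

theorem mk_choiceSet_le {χ : Cardinal.{u}} (hχ : ℵ₀ ≤ χ) (hT : #T ≤ χ) (B : Set X)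
    (hB : #B ≤ χ) : #(ChoiceSet f B) ≤ 2 ^ χ := by
  refine (mk_iUnion_le _).trans ?_
  have h1 : #((Fin n → B) → T) ≤ 2 ^ χ := by
    have h2 : #(Fin n → B) ≤ χ := by
      have h3 : #(Fin n → B) = #B ^ n := by simp only [mk_pi, prod_const, lift_uzero, mk_fintype, Fintype.card_fin, lift_natCast, power_natCast]
      rw [h3]
      refine le_trans ?_ (power_nat_le (n := n) hχ)
      exact_mod_cast power_le_power_right (c := (n : Cardinal.{u})) hB
    have h3 : #((Fin n → B) → T) = #T ^ #(Fin n → B) := (power_def _ _).symm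
    rw [h3]
    calc #T ^ #(Fin n → B) ≤ (2 ^ χ) ^ χ := by
          rcases eq_or_ne (#T) 0 with h0 | h0
          · rcases eq_or_ne (#(Fin n → B)) 0 with h00 | h00
            · rw [h00, power_zero]
              exact Cardinal.one_le_iff_pos.2 (Cardinal.power_pos _ (Cardinal.power_pos _ two_pos))
            · rw [h0, zero_power h00]; exact zero_le
          · exact (power_le_power_left h0 h2).trans (power_le_power_right (hT.trans (cantor χ).le))
      _ = 2 ^ χ := by rw [← power_mul, mul_eq_self hχ]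
  calc _ ≤ (2 : Cardinal.{u}) ^ χ * 1 := by
        refine mul_le_mul' h1 (ciSup_le' fun τ => ?_)
        rw [mk_le_one_iff_set_subsingleton]
        rintro x ⟨h, rfl⟩ y ⟨h', rfl⟩
        rfl
    _ = (2 : Cardinal.{u}) ^ χ := mul_one _

theorem exists_mem_choiceSet (B : Set X) (y : X) (hy : ∀ b ∈ B, b < y) :
    ∃ z ∈ ChoiceSet f B, (∀ b ∈ B, b < z) ∧
      ∀ a : Fin n → X, (∀ i, a i ∈ B) → f (Fin.snoc a z) = f (Fin.snoc a y) := by
  have h : (RealT f B (fun a : Fin n → B => f (Fin.snoc (fun i => (a i : X)) y))).Nonempty :=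
    ⟨y, hy, rfl⟩
  refine ⟨h.choose, ?_, h.choose_spec.1, ?_⟩
  · unfold ChoiceSet
    rw [Set.mem_iUnion]
    exact ⟨_, h, rfl⟩
  · intro a ha
    have := congrFun h.choose_spec.2 (fun i => ⟨a i, ha i⟩)
    exact this

end step

theorem arrow_zero (χ : Cardinal.{u}) (T : Type u) : Arrow χ χ 0 T := by
  intro X _ _ hX f
  refine ⟨Set.univ, by simpa only [mk_univ] using hX, f Fin.elim0, ?_⟩
  intro a _ _
  congr 1
  exact Subsingleton.elim _ _

theorem arrow_succ {χ χ' : Cardinal.{u}} {n : ℕ} {T : Type u} (hχ' : ℵ₀ ≤ χ') (hT : #T ≤ χ')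
    (ih : Arrow χ' χ n T) : Arrow (Order.succ (2 ^ χ')) χ (n + 1) T := by
  intro X _ _ hX f
  -- replace `X` by an initial segment of type `(2 ^ χ')⁺`
  have hord : (Order.succ ((2 : Cardinal.{u}) ^ χ')).ord ≤ Ordinal.type (α := X) (· < ·) := by
    rw [ord_le]
    simpa only [Ordinal.card_type, Order.succ_le_iff] using hX
  obtain ⟨e⟩ : Nonempty (SuccTy ((2 : Cardinal.{u}) ^ χ') ↪o X) := by
    have h1 : Ordinal.type (α := SuccTy ((2 : Cardinal.{u}) ^ χ')) (· < ·) ≤
        Ordinal.type (α := X) (· < ·) := by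
      simpa only [Ordinal.type_toType] using hord
    obtain ⟨e⟩ := Ordinal.type_le_iff.1 h1
    exact ⟨e.toOrderEmbedding⟩
  have h2χ : ℵ₀ ≤ (2 : Cardinal.{u}) ^ χ' := hχ'.trans (cantor χ').le
  -- the closed set
  have hpow : ((2 : Cardinal.{u}) ^ χ') ^ χ' = 2 ^ χ' := by rw [← power_mul, mul_eq_self hχ']
  let f' : (Fin (n + 1) → SuccTy ((2 : Cardinal.{u}) ^ χ')) → T := fun a => f (fun i => e (a i))
  obtain ⟨A, -, hAcard, hA⟩ := exists_closed hχ' hpow ((natCast_lt_aleph0 (n := 2)).le.trans h2χ)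
    (ChoiceSet f') (fun B hB => mk_choiceSet_le f' hχ' hT B hB) ∅ (by simp only [mk_eq_zero, zero_le])
  obtain ⟨y, hy⟩ := exists_gt_of_small h2χ A hAcard
  -- the end-homogeneous sequence
  have hstep : ∀ B : {B : Set (SuccTy ((2 : Cardinal.{u}) ^ χ')) // B ⊆ A ∧ #B ≤ χ'},
      ∃ z ∈ A, (∀ b ∈ B.1, b < z) ∧
        ∀ a : Fin n → SuccTy ((2 : Cardinal.{u}) ^ χ'), (∀ i, a i ∈ B.1) →
          f' (Fin.snoc a z) = f' (Fin.snoc a y) := by
    rintro ⟨B, hBA, hB⟩
    obtain ⟨z, hz, h1, h2⟩ := exists_mem_choiceSet f' B y (fun b hb => hy b (hBA hb))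
    exact ⟨z, hA B hBA hB hz, h1, h2⟩
  choose nxt hnxtA hnxt1 hnxt2 using hstep
  let x : χ'.ord.ToType → A := WellFounded.fix (r := (· < ·)) wellFounded_lt
    (fun i rec => ⟨nxt ⟨Set.range (fun j : Set.Iio i => (rec j.1 j.2 : SuccTy ((2 : Cardinal.{u}) ^ χ'))),
      by rintro _ ⟨j, rfl⟩; exact (rec j.1 j.2).2,
      mk_range_le.trans (by simpa only [mk_toType, card_ord] using (mk_Iio_lt i (by simp)).le)⟩, hnxtA _⟩)
  have hxB : ∀ i, Set.range (fun j : Set.Iio i => (x j.1 : SuccTy ((2 : Cardinal.{u}) ^ χ'))) ⊆ A ∧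
      #(Set.range (fun j : Set.Iio i => (x j.1 : SuccTy ((2 : Cardinal.{u}) ^ χ')))) ≤ χ' := fun i =>
    ⟨by rintro _ ⟨j, rfl⟩; exact (x j.1).2,
      mk_range_le.trans (by simpa only [mk_toType, card_ord] using (mk_Iio_lt i (by simp)).le)⟩
  have hx : ∀ i, (x i : SuccTy ((2 : Cardinal.{u}) ^ χ')) = nxt ⟨_, hxB i⟩ := by
    intro i
    have : x i = _ := WellFounded.fix_eq _ _ i
    rw [this]
  have hxmono : StrictMono (fun i => (x i : SuccTy ((2 : Cardinal.{u}) ^ χ'))) := by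
    intro j i hji
    show (x j : SuccTy ((2 : Cardinal.{u}) ^ χ')) < x i
    rw [hx i]
    exact hnxt1 _ _ ⟨⟨j, hji⟩, rfl⟩
  have hxend : ∀ i, ∀ a : Fin n → SuccTy ((2 : Cardinal.{u}) ^ χ'), (∀ k, ∃ j < i, a k = x j) →
      f' (Fin.snoc a (x i)) = f' (Fin.snoc a y) := by
    intro i a ha
    rw [hx i]
    refine hnxt2 _ a fun k => ?_
    obtain ⟨j, hj, hk⟩ := ha k
    exact ⟨⟨j, hj⟩, hk.symm⟩
  -- apply the induction hypothesis
  have hcard : χ' ≤ #(χ'.ord.ToType) := by simp only [mk_toType, card_ord, Std.le_refl]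
  obtain ⟨H, hH, t, ht⟩ := ih (χ'.ord.ToType) hcard
    (fun a => f' (Fin.snoc (fun k => (x (a k) : SuccTy ((2 : Cardinal.{u}) ^ χ'))) y))
  refine ⟨(fun i => e (x i)) '' H, ?_, t, ?_⟩
  · rw [mk_image_eq (f := fun i => e (x i)) (e.injective.comp hxmono.injective)]
    exact hH
  · intro a ha haH
    choose b hbH hb using haH
    have hbmono : StrictMono b := by
      intro i j hij
      have h1 := ha hij
      rw [← hb i, ← hb j] at h1
      exact hxmono.lt_iff_lt.1 (e.lt_iff_lt.1 h1)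
    have h1 : f a = f' (fun i => (x (b i) : SuccTy ((2 : Cardinal.{u}) ^ χ'))) := by
      show f a = f (fun i => e (x (b i)))
      congr 1
      funext i
      exact (hb i).symm
    have h2 : (fun i => (x (b i) : SuccTy ((2 : Cardinal.{u}) ^ χ'))) =
        Fin.snoc (fun k : Fin n => (x (b k.castSucc) : SuccTy ((2 : Cardinal.{u}) ^ χ')))
          (x (b (Fin.last n)) : SuccTy ((2 : Cardinal.{u}) ^ χ')) := by
      funext i
      refine Fin.lastCases ?_ (fun k => ?_) i
      · rw [Fin.snoc_last]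
      · rw [Fin.snoc_castSucc]
    rw [h1, h2, hxend _ _ (fun k => ⟨b k.castSucc, hbmono (Fin.castSucc_lt_last k), rfl⟩)]
    exact ht (fun k => b k.castSucc) (fun i j hij => hbmono (by simpa using hij))
      (fun k => hbH _)

theorem exists_arrow (n : ℕ) (T : Type u) (χ : Cardinal.{u}) : ∃ κ, Arrow κ χ n T := by
  induction n with
  | zero => exact ⟨χ, arrow_zero χ T⟩
  | succ n ih =>
    obtain ⟨κ, hκ⟩ := ih
    refine ⟨_, arrow_succ (χ' := max (max κ #T) ℵ₀) (le_max_right _ _)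
      ((le_max_right _ _).trans (le_max_left _ _)) ?_⟩
    intro X _ _ hX f
    exact hκ X (((le_max_left _ _).trans (le_max_left _ _)).trans hX) f

end Vale.Agent.P307
end
end

section

section

universe u

open Cardinal Set

namespace Vale.Agent.P307

/-- The arrow relation for all colour sets of size at most `c`. -/
theorem exists_arrow_card (n : ℕ) (c χ : Cardinal.{u}) : ∃ κ : Cardinal.{u}, ∀ T : Type u, #T ≤ c →
    ∀ (X : Type u) [LinearOrder X] [WellFoundedLT X], κ ≤ #X → ∀ f : (Fin n → X) → T,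
    ∃ H : Set X, χ ≤ #H ∧ ∀ a b : Fin n → X, StrictMono a → StrictMono b → (∀ i, a i ∈ H) →
      (∀ i, b i ∈ H) → f a = f b := by
  obtain ⟨κ, hκ⟩ := exists_arrow n c.out χ
  refine ⟨κ, fun T hT X _ _ hX f => ?_⟩
  rw [← mk_out c] at hT
  obtain ⟨j⟩ := Cardinal.le_def _ _ |>.1 hT
  obtain ⟨H, hH, t, ht⟩ := hκ X hX (fun a => j (f a))
  refine ⟨H, hH, fun a b ha hb haH hbH => j.injective ?_⟩
  rw [ht a ha haH, ht b hb hbH]

/-- A bound for the arrow relation. -/
noncomputable def arrowFn (n : ℕ) (c χ : Cardinal.{u}) : Cardinal.{u} :=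
  (exists_arrow_card n c χ).choose

theorem arrowFn_spec (n : ℕ) (c χ : Cardinal.{u}) : ∀ T : Type u, #T ≤ c →
    ∀ (X : Type u) [LinearOrder X] [WellFoundedLT X], arrowFn n c χ ≤ #X → ∀ f : (Fin n → X) → T,
    ∃ H : Set X, χ ≤ #H ∧ ∀ a b : Fin n → X, StrictMono a → StrictMono b → (∀ i, a i ∈ H) →
      (∀ i, b i ∈ H) → f a = f b :=
  (exists_arrow_card n c χ).choose_spec

/-- An increasing sequence of cardinals closed under the arrow function. -/
noncomputable def dSeq (ρ c : Cardinal.{u}) : SuccTy ρ → Cardinal.{u} :=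
  WellFounded.fix (r := (· < ·)) wellFounded_lt
    (fun i d => max (max ℵ₀ (⨆ j : Set.Iio i, d j.1 j.2))
      (⨆ p : Set.Iio i × ℕ, arrowFn p.2 c (d p.1.1 p.1.2)))

theorem dSeq_eq (ρ c : Cardinal.{u}) (i : SuccTy ρ) : dSeq ρ c i =
    max (max ℵ₀ (⨆ j : Set.Iio i, dSeq ρ c j.1))
      (⨆ p : Set.Iio i × ℕ, arrowFn p.2 c (dSeq ρ c p.1.1)) := by
  unfold dSeq
  rw [WellFounded.fix_eq]

theorem aleph0_le_dSeq (ρ c : Cardinal.{u}) (i : SuccTy ρ) : ℵ₀ ≤ dSeq ρ c i := by
  rw [dSeq_eq]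
  exact (le_max_left _ _).trans (le_max_left _ _)

theorem dSeq_mono (ρ c : Cardinal.{u}) {i j : SuccTy ρ} (hij : j < i) :
    dSeq ρ c j ≤ dSeq ρ c i := by
  rw [dSeq_eq ρ c i]
  refine le_trans (le_trans ?_ (le_max_right _ _)) (le_max_left _ _)
  exact le_ciSup (f := fun j : Set.Iio i => dSeq ρ c j.1) (bddAbove_of_small) ⟨j, hij⟩

theorem arrowFn_le_dSeq (ρ c : Cardinal.{u}) {i j : SuccTy ρ} (hij : j < i) (n : ℕ) :
    arrowFn n c (dSeq ρ c j) ≤ dSeq ρ c i := by
  rw [dSeq_eq ρ c i]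
  refine le_trans ?_ (le_max_right _ _)
  exact le_ciSup (f := fun p : Set.Iio i × ℕ => arrowFn p.2 c (dSeq ρ c p.1.1))
    (bddAbove_of_small) (⟨j, hij⟩, n)

/-- Pigeonhole principle on `ρ⁺`. -/
theorem exists_unbounded_color {ρ : Cardinal.{u}} (hρ : ℵ₀ ≤ ρ) {T : Type u} (hT : #T ≤ ρ)
    (f : SuccTy ρ → T) : ∃ t, ∀ x, ∃ i, x < i ∧ f i = t := by
  by_contra hcon
  push Not at hcon
  choose b hb using hcon
  obtain ⟨x, hx⟩ := exists_gt_of_small hρ (Set.range b) (mk_range_le.trans hT)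
  exact hb (f x) x (hx _ ⟨_, rfl⟩) rfl

/-- The Hanf number for colour sets of size at most `c`. -/
noncomputable def hanf (c : Cardinal.{u}) : Cardinal.{u} :=
  ⨆ i : SuccTy (max c ℵ₀), dSeq (max c ℵ₀) c i

section template

variable {c : Cardinal.{u}} {T : ℕ → Type u} {X : Type u} [LinearOrder X]
  (f : ∀ n, (Fin n → X) → T n)

/-- The colours `p k`, `k < n`, are realized homogeneously on large sets. -/
def Large (c : Cardinal.{u}) (f : ∀ n, (Fin n → X) → T n) (n : ℕ) (p : ∀ n, T n) : Prop :=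
  ∀ i : SuccTy (max c ℵ₀), ∃ H : Set X, dSeq (max c ℵ₀) c i ≤ #H ∧
    ∀ k < n, ∀ a : Fin k → X, StrictMono a → (∀ j, a j ∈ H) → f k a = p k

theorem Large.step [WellFoundedLT X] (hT : ∀ n, #(T n) ≤ c) {n : ℕ} {p : ∀ n, T n}
    (h : Large c f n p) : ∃ p', (∀ k < n, p' k = p k) ∧ Large c f (n + 1) p' := by
  classical
  -- homogeneous sets for all indices
  have hstep : ∀ i : SuccTy (max c ℵ₀), ∃ H : Set X, dSeq (max c ℵ₀) c i ≤ #H ∧
      (∀ k < n, ∀ a : Fin k → X, StrictMono a → (∀ j, a j ∈ H) → f k a = p k) ∧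
      ∃ t : T n, ∀ a : Fin n → X, StrictMono a → (∀ j, a j ∈ H) → f n a = t := by
    intro i
    obtain ⟨i', hi'⟩ := exists_gt_of_small (le_max_right c ℵ₀) {i}
      (by rw [mk_singleton]; exact one_le_aleph0.trans (le_max_right _ _))
    obtain ⟨H', hH', hp⟩ := h i'
    have h1 := (arrowFn_le_dSeq (max c ℵ₀) c (hi' i rfl) n).trans hH'
    obtain ⟨H, hH, hhom⟩ := arrowFn_spec n c _ (T n) (hT n) H' h1 (fun a => f n (fun j => a j))
    have h3 : ∀ x : ↥((Subtype.val : H' → X) '' H), x.1 ∈ H' := by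
      rintro ⟨_, x, hx, rfl⟩
      exact x.2
    refine ⟨Subtype.val '' H, ?_, ?_, ?_⟩
    · rw [mk_image_eq Subtype.val_injective]
      exact hH
    · intro k hk a ha haH
      exact hp k hk a ha (fun j => by obtain ⟨x, hx, hxa⟩ := haH j; rw [← hxa]; exact x.2)
    · by_cases hne : ∃ a : Fin n → H', StrictMono a ∧ ∀ j, a j ∈ H
      · obtain ⟨a₀, ha₀, ha₀H⟩ := hne
        refine ⟨f n (fun j => a₀ j), fun a ha haH => ?_⟩
        choose b hb hba using haH
        have hb' : StrictMono b := by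
          intro i j hij
          have := ha hij
          rw [← hba i, ← hba j] at this
          exact this
        have := hhom b a₀ hb' ha₀ hb ha₀H
        rw [← this]
        congr 1
        funext j
        exact (hba j).symm
      · have hT' : Nonempty (T n) := by
          have hne : Nonempty H' := by
            have : (0 : Cardinal.{u}) < #H' :=
              aleph0_pos.trans_le ((aleph0_le_dSeq _ _ _).trans hH')
            exact mk_ne_zero_iff.1 this.ne'
          exact ⟨f n (fun _ => (Classical.arbitrary H' : X))⟩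
        refine ⟨Classical.arbitrary _, fun a ha haH => ?_⟩
        exfalso
        choose b hb hba using haH
        refine hne ⟨b, ?_, hb⟩
        intro i j hij
        have := ha hij
        rw [← hba i, ← hba j] at this
        exact this
  choose H hH1 hH2 t ht using hstep
  obtain ⟨t₀, ht₀⟩ := exists_unbounded_color (le_max_right c ℵ₀) ((hT n).trans (le_max_left _ _)) t
  refine ⟨Function.update p n t₀, fun k hk => Function.update_of_ne hk.ne _ _, fun i => ?_⟩
  obtain ⟨i', hi', hti'⟩ := ht₀ i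
  refine ⟨H i', ?_, ?_⟩
  · exact (dSeq_mono _ _ hi').trans (hH1 i')
  · intro k hk a ha haH
    rcases Nat.lt_succ_iff_lt_or_eq.1 hk with hk' | rfl
    · rw [Function.update_of_ne hk'.ne]
      exact hH2 i' k hk' a ha haH
    · rw [Function.update_self, ht i' a ha haH, hti']

/-- Extraction of a coherent sequence of homogeneous tuples. -/
theorem exists_coherent [WellFoundedLT X] (hT : ∀ n, #(T n) ≤ c) (hX : hanf c ≤ #X) :
    ∃ a : ∀ n, Fin n → X, (∀ n, StrictMono (a n)) ∧
      ∀ (k n : ℕ) (g : Fin k → Fin n), StrictMono g → f k (a n ∘ g) = f k (a k) := by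
  classical
  have hXinf : ℵ₀ ≤ #X := by
    obtain ⟨x, -⟩ := exists_gt_of_small (le_max_right c ℵ₀) (∅ : Set (SuccTy (max c ℵ₀)))
      (by simp only [mk_eq_zero, le_sup_iff, zero_le, or_self])
    refine (aleph0_le_dSeq (max c ℵ₀) c x).trans (le_trans ?_ hX)
    exact le_ciSup (f := fun i => dSeq (max c ℵ₀) c i) bddAbove_of_small x
  have hne : Nonempty X := mk_ne_zero_iff.1 (aleph0_pos.trans_le hXinf).ne'
  have hbase : Large c f 0 (fun n => f n (fun _ => Classical.arbitrary X)) := by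
    intro i
    refine ⟨Set.univ, ?_, fun k hk => absurd hk (Nat.not_lt_zero k)⟩
    rw [mk_univ]
    exact (le_ciSup (f := fun i => dSeq (max c ℵ₀) c i) bddAbove_of_small i).trans hX
  have hstep : ∀ (n : ℕ) (p : {p : ∀ n, T n // Large c f n p}),
      ∃ p' : {p : ∀ n, T n // Large c f (n + 1) p}, ∀ k < n, p'.1 k = p.1 k := by
    rintro n ⟨p, hp⟩
    obtain ⟨p', h1, h2⟩ := Large.step f hT hp
    exact ⟨⟨p', h2⟩, h1⟩
  choose nxt hnxt using hstep
  let s : ∀ n, {p : ∀ n, T n // Large c f n p} := fun n => Nat.rec ⟨_, hbase⟩ nxt n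
  have hs : ∀ k n, k < n → (s n).1 k = (s (k + 1)).1 k := by
    intro k n hkn
    induction n with
    | zero => exact absurd hkn (Nat.not_lt_zero k)
    | succ n ih =>
      rcases Nat.lt_succ_iff_lt_or_eq.1 hkn with h | rfl
      · rw [← ih h]
        exact hnxt n (s n) k h
      · rfl
  have hreal : ∀ n, ∃ a : Fin n → X, StrictMono a ∧
      ∀ (k : ℕ) (g : Fin k → Fin n), StrictMono g → f k (a ∘ g) = (s (k + 1)).1 k := by
    intro n
    obtain ⟨x, -⟩ := exists_gt_of_small (le_max_right c ℵ₀) (∅ : Set (SuccTy (max c ℵ₀)))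
      (by simp only [mk_eq_zero, le_sup_iff, zero_le, or_self])
    obtain ⟨H, hH, hp⟩ := (s (n + 1)).2 x
    have hHinf : ℵ₀ ≤ #H := (aleph0_le_dSeq _ _ _).trans hH
    have : Infinite H := infinite_iff.2 hHinf
    obtain ⟨F, hF⟩ := Infinite.exists_subset_card_eq H n
    refine ⟨fun i => ((F.orderEmbOfFin hF) i : H), ?_, ?_⟩
    · intro i j hij
      exact (F.orderEmbOfFin hF).strictMono hij
    · intro k g hg
      have hk : k ≤ n := by
        simpa only [Fintype.card_fin] using Fintype.card_le_of_injective g hg.injective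
      rw [hp k (Nat.lt_succ_of_le hk)]
      · exact hs k (n + 1) (Nat.lt_succ_of_le hk)
      · intro i j hij
        exact (F.orderEmbOfFin hF).strictMono (hg hij)
      · intro j
        exact ((F.orderEmbOfFin hF) (g j)).2
  choose a ha hag using hreal
  refine ⟨a, ha, fun k n g hg => ?_⟩
  rw [hag n k g hg]
  have := hag k k id strictMono_id
  simpa only [CompTriple.comp_eq] using this.symm

end template

end Vale.Agent.P307
end
end

section

section

universe u

open Cardinal Set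

namespace Vale.Agent.P307

/-- `I` is an `η`-order for `μ`: cuts of size at most `μ` are filled. -/
def Nice (μ : Cardinal.{u}) (I : Type u) [LinearOrder I] : Prop :=
  ∀ A B : Set I, #A ≤ μ → #B ≤ μ → (∀ a ∈ A, ∀ b ∈ B, a < b) →
    ∃ x, (∀ a ∈ A, a < x) ∧ (∀ b ∈ B, x < b)

theorem Nice.mono {μ μ' : Cardinal.{u}} (h : μ ≤ μ') {I : Type u} [LinearOrder I]
    (hI : Nice μ' I) : Nice μ I := fun A B hA hB hAB => hI A B (hA.trans h) (hB.trans h) hAB

section existence

variable (ρ : Cardinal.{u})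

/-- The set of lexicographically ordered sign sequences of length `ρ⁺` with bounded support. -/
abbrev SignSeq : Type u :=
  {f : Lex (SuccTy ρ → SignType) // ∃ β, ∀ γ, β ≤ γ → (ofLex f) γ = 0}

variable {ρ}

theorem signSeq_lt_iff (f g : SignSeq ρ) : f < g ↔
    ∃ i, (∀ j < i, (ofLex f.1) j = (ofLex g.1) j) ∧ (ofLex f.1) i < (ofLex g.1) i := Iff.rfl

/-- Elements of `A` following `h` below `γ`. -/
def follow (A : Set (SignSeq ρ)) (γ : SuccTy ρ) (h : ∀ δ, δ < γ → SignType) : Set (SignSeq ρ) :=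
  {f | f ∈ A ∧ ∀ δ (hδ : δ < γ), (ofLex f.1) δ = h δ hδ}

theorem exists_max_follow (S : Set (SignSeq ρ)) (γ : SuccTy ρ) (hS : S.Nonempty) :
    ∃ m, (∃ f ∈ S, (ofLex f.1) γ = m) ∧ ∀ f ∈ S, (ofLex f.1) γ ≤ m := by
  obtain ⟨m, hm⟩ := ((Set.toFinite ((fun f : SignSeq ρ => (ofLex f.1) γ) '' S)).exists_maximal
    (hS.image _))
  obtain ⟨f, hf, hfm⟩ := hm.1
  refine ⟨m, ⟨f, hf, hfm⟩, fun g hg => ?_⟩
  rcases le_total ((ofLex g.1) γ) m with h | h
  · exact h
  · exact hm.2 ⟨g, hg, rfl⟩ h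

theorem exists_min_follow (S : Set (SignSeq ρ)) (γ : SuccTy ρ) (hS : S.Nonempty) :
    ∃ m, (∃ f ∈ S, (ofLex f.1) γ = m) ∧ ∀ f ∈ S, m ≤ (ofLex f.1) γ := by
  obtain ⟨m, hm⟩ := ((Set.toFinite ((fun f : SignSeq ρ => (ofLex f.1) γ) '' S)).exists_minimal
    (hS.image _))
  obtain ⟨f, hf, hfm⟩ := hm.1
  refine ⟨m, ⟨f, hf, hfm⟩, fun g hg => ?_⟩
  rcases le_total ((ofLex g.1) γ) m with h | h
  · exact hm.2 ⟨g, hg, rfl⟩ h
  · exact h

open Classical in
/-- The cut function. -/
noncomputable def cutFn (A B : Set (SignSeq ρ)) : SuccTy ρ → SignType :=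
  WellFounded.fix (r := (· < ·)) wellFounded_lt
    (fun γ h => if hA : (follow A γ h).Nonempty then (exists_max_follow _ γ hA).choose
      else if hB : (follow B γ h).Nonempty then (exists_min_follow _ γ hB).choose else 0)

/-- Elements of `A` following the cut function below `γ`. -/
def fol (A B C : Set (SignSeq ρ)) (γ : SuccTy ρ) : Set (SignSeq ρ) :=
  {f | f ∈ C ∧ ∀ δ < γ, (ofLex f.1) δ = cutFn A B δ}

open Classical in
theorem cutFn_eq (A B : Set (SignSeq ρ)) (γ : SuccTy ρ) : cutFn A B γ =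
    if hA : (fol A B A γ).Nonempty then (exists_max_follow _ γ hA).choose
      else if hB : (fol A B B γ).Nonempty then (exists_min_follow _ γ hB).choose else 0 :=
  WellFounded.fix_eq _ _ γ

theorem cutFn_spec_left (A B : Set (SignSeq ρ)) (γ : SuccTy ρ) (h : (fol A B A γ).Nonempty) :
    (∃ f ∈ fol A B A γ, (ofLex f.1) γ = cutFn A B γ) ∧
      ∀ f ∈ fol A B A γ, (ofLex f.1) γ ≤ cutFn A B γ := by
  rw [cutFn_eq, dif_pos h]
  exact (exists_max_follow (fol A B A γ) γ h).choose_spec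

theorem cutFn_spec_right (A B : Set (SignSeq ρ)) (γ : SuccTy ρ) (h' : ¬ (fol A B A γ).Nonempty) :
    ∀ f ∈ fol A B B γ, cutFn A B γ ≤ (ofLex f.1) γ := by
  intro f hf
  have h : (fol A B B γ).Nonempty := ⟨f, hf⟩
  rw [cutFn_eq, dif_neg h', dif_pos h]
  exact (exists_min_follow (fol A B B γ) γ h).choose_spec.2 f hf

theorem exists_first_diff (f g : SuccTy ρ → SignType) (h : f ≠ g) :
    ∃ γ, (∀ δ < γ, f δ = g δ) ∧ f γ ≠ g γ := by
  have hne : {γ | f γ ≠ g γ}.Nonempty := Function.ne_iff.1 h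
  refine ⟨wellFounded_lt.min _ hne, fun δ hδ => ?_, wellFounded_lt.min_mem _ hne⟩
  by_contra hcon
  exact wellFounded_lt.not_lt_min _ hcon hδ

theorem nice_signSeq (hρ : ℵ₀ ≤ ρ) : Nice ρ (SignSeq ρ) := by
  classical
  intro A B hA hB hAB
  -- a common bound for the supports
  obtain ⟨β, hβ⟩ : ∃ β : SuccTy ρ, ∀ f ∈ A ∪ B, ∀ γ, β ≤ γ → (ofLex f.1) γ = 0 := by
    obtain ⟨β, hβ⟩ := exists_gt_of_small hρ ((fun f : SignSeq ρ => f.2.choose) '' (A ∪ B))
      (mk_image_le.trans ((mk_union_le _ _).trans ((add_le_add hA hB).trans_eq (add_eq_self hρ))))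
    refine ⟨β, fun f hf γ hγ => f.2.choose_spec γ ?_⟩
    exact (hβ _ ⟨f, hf, rfl⟩).le.trans hγ
  obtain ⟨β', hβ'⟩ := exists_gt_of_small hρ {β} (by rw [mk_singleton]; exact one_le_aleph0.trans hρ)
  have hββ' : β < β' := hβ' β rfl
  let x₀ : SuccTy ρ → SignType := fun γ => if γ < β then cutFn A B γ else
    if γ = β then (if (fol A B A β).Nonempty then 1 else if (fol A B B β).Nonempty then -1 else 0)
    else 0
  have hx₀ : ∀ γ, β' ≤ γ → x₀ γ = 0 := by
    intro γ hγ
    have h1 : ¬ γ < β := not_lt.2 (hββ'.le.trans hγ)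
    have h2 : γ ≠ β := (hββ'.trans_le hγ).ne'
    simp only [x₀, if_neg h1, if_neg h2]
  have hx₀lt : ∀ γ, γ < β → x₀ γ = cutFn A B γ := fun γ hγ => by
    simp only [x₀, if_pos hγ]
  let x : SignSeq ρ := ⟨toLex x₀, β', hx₀⟩
  refine ⟨x, fun f hf => ?_, fun g hg => ?_⟩
  · -- `f < x` for `f ∈ A`
    have hfol : ∀ γ, γ ≤ β → (∀ δ < γ, (ofLex f.1) δ = x₀ δ) → f ∈ fol A B A γ := by
      intro γ hγ h
      exact ⟨hf, fun δ hδ => by rw [h δ hδ, hx₀lt δ (hδ.trans_le hγ)]⟩
    have hxβ : (∀ δ < β, (ofLex f.1) δ = x₀ δ) → x₀ β = 1 := by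
      intro h
      have h1 : (fol A B A β).Nonempty := ⟨f, hfol β le_rfl h⟩
      simp only [x₀, lt_irrefl, if_false, if_true, if_pos h1]
    have hfβ : (ofLex f.1) β = 0 := hβ f (Or.inl hf) β le_rfl
    have hne : ofLex f.1 ≠ x₀ := by
      intro h
      have h1 := hxβ (fun δ _ => by rw [h])
      rw [← h, hfβ] at h1
      exact absurd h1 (by decide)
    obtain ⟨γ, h1, h2⟩ := exists_first_diff _ _ hne
    refine ⟨γ, h1, ?_⟩
    rcases lt_trichotomy γ β with h3 | h3 | h3
    · refine lt_of_le_of_ne ?_ h2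
      have h4 := hfol γ h3.le h1
      have h5 := (cutFn_spec_left A B γ ⟨f, h4⟩).2 f h4
      rw [← hx₀lt γ h3] at h5
      exact h5
    · subst h3
      show (ofLex f.1) γ < x₀ γ
      rw [hxβ h1, hfβ]
      decide
    · exfalso
      have h4 := h1 β h3
      rw [hxβ (fun δ hδ => h1 δ (hδ.trans h3)), hfβ] at h4
      exact absurd h4 (by decide)
  · -- `x < g` for `g ∈ B`
    have hfol : ∀ γ, γ ≤ β → (∀ δ < γ, x₀ δ = (ofLex g.1) δ) → g ∈ fol A B B γ := by
      intro γ hγ h
      exact ⟨hg, fun δ hδ => by rw [← h δ hδ, hx₀lt δ (hδ.trans_le hγ)]⟩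
    have hgβ : (ofLex g.1) β = 0 := hβ g (Or.inr hg) β le_rfl
    have hxβ : (∀ δ < β, x₀ δ = (ofLex g.1) δ) → x₀ β = -1 := by
      intro h
      have h0 := hfol β le_rfl h
      have h1 : ¬ (fol A B A β).Nonempty := by
        rintro ⟨f, hf, hf2⟩
        have h2 : f = g := by
          apply Subtype.ext
          show ofLex f.1 = ofLex g.1
          funext δ
          rcases lt_or_ge δ β with h3 | h3
          · rw [hf2 δ h3, h0.2 δ h3]
          · rw [hβ f (Or.inl hf) δ h3, hβ g (Or.inr hg) δ h3]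
        exact (hAB f hf g hg).ne h2
      have h2 : (fol A B B β).Nonempty := ⟨g, h0⟩
      simp only [x₀, lt_irrefl, if_false, if_true, if_neg h1, if_pos h2]
    have hne : x₀ ≠ ofLex g.1 := by
      intro h
      have h1 := hxβ (fun δ _ => by rw [h])
      rw [h, hgβ] at h1
      exact absurd h1 (by decide)
    obtain ⟨γ, h1, h2⟩ := exists_first_diff _ _ hne
    refine ⟨γ, h1, ?_⟩
    rcases lt_trichotomy γ β with h3 | h3 | h3
    · refine lt_of_le_of_ne ?_ h2
      show x₀ γ ≤ (ofLex g.1) γ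
      rw [hx₀lt γ h3]
      have h4 := hfol γ h3.le h1
      by_cases h5 : (fol A B A γ).Nonempty
      · obtain ⟨f, hf, hfγ⟩ := (cutFn_spec_left A B γ h5).1
        rw [← hfγ]
        obtain ⟨i, hi1, hi2⟩ := (signSeq_lt_iff f g).1 (hAB f hf.1 g hg)
        rcases lt_trichotomy γ i with h6 | h6 | h6
        · exact (hi1 γ h6).le
        · subst h6; exact hi2.le
        · exfalso
          rw [hf.2 i h6, h4.2 i h6] at hi2
          exact lt_irrefl _ hi2
      · exact cutFn_spec_right A B γ h5 g h4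
    · subst h3
      show x₀ γ < (ofLex g.1) γ
      rw [hxβ h1, hgβ]
      decide
    · exfalso
      have h4 := h1 β h3
      rw [hxβ (fun δ hδ => h1 δ (hδ.trans h3)), hgβ] at h4
      exact absurd h4 (by decide)

theorem le_mk_signSeq (hρ : ℵ₀ ≤ ρ) : ρ ≤ #(SignSeq ρ) := by
  classical
  have h1 : ρ ≤ #(SuccTy ρ) := by
    rw [mk_ord_toType]
    exact (Order.lt_succ ρ).le
  refine h1.trans (mk_le_of_injective (f := fun α : SuccTy ρ =>
    (⟨toLex (fun γ => if γ = α then 1 else 0), ?_⟩ : SignSeq ρ)) ?_)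
  · obtain ⟨β, hβ⟩ := exists_gt_of_small hρ {α} (by rw [mk_singleton]; exact one_le_aleph0.trans hρ)
    refine ⟨β, fun γ hγ => ?_⟩
    show (if γ = α then (1 : SignType) else 0) = 0
    rw [if_neg]
    exact ((hβ α rfl).trans_le hγ).ne'
  · intro α α' h
    have h2 := congrFun (congrArg Subtype.val h) α
    change (if α = α then (1 : SignType) else 0) = (if α = α' then (1 : SignType) else 0) at h2
    by_contra hne
    rw [if_pos rfl, if_neg hne] at h2
    exact absurd h2 (by decide)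

end existence

/-- Nice orders of arbitrarily large size exist. -/
theorem exists_nice (μ χ : Cardinal.{u}) :
    ∃ (I : Type u) (_ : LinearOrder I), Nice μ I ∧ χ ≤ #I := by
  have hρ : ℵ₀ ≤ max (max μ χ) ℵ₀ := le_max_right _ _
  exact ⟨SignSeq (max (max μ χ) ℵ₀), inferInstance,
    (nice_signSeq hρ).mono ((le_max_left _ _).trans (le_max_left _ _)),
    ((le_max_right _ _).trans (le_max_left _ _)).trans (le_mk_signSeq hρ)⟩

section extend

variable {I I' : Type u} [LinearOrder I] [LinearOrder I']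

/-- A relation which is (the graph of) a partial order isomorphism. -/
def OrdPat (W : Set (I × I')) : Prop := ∀ p ∈ W, ∀ q ∈ W, (p.1 ≤ q.1 ↔ p.2 ≤ q.2)

theorem OrdPat.swap {W : Set (I × I')} (h : OrdPat W) :
    OrdPat (Prod.swap ⁻¹' W : Set (I' × I)) := fun p hp q hq => (h _ hp _ hq).symm

theorem OrdPat.lt_iff {W : Set (I × I')} (h : OrdPat W) {p q : I × I'} (hp : p ∈ W) (hq : q ∈ W) :
    p.1 < q.1 ↔ p.2 < q.2 := by
  rw [← not_le, ← not_le, h q hq p hp]

theorem OrdPat.exists_extend {μ : Cardinal.{u}} (hμ : ℵ₀ ≤ μ) (hI' : Nice μ I')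
    {W : Set (I × I')} (hW : OrdPat W) (hWμ : #W ≤ μ) (V : Set I) (hV : #V ≤ μ) :
    ∃ W' : Set (I × I'), W ⊆ W' ∧ OrdPat W' ∧ #W' ≤ μ ∧ ∀ v ∈ V, ∃ y, (v, y) ∈ W' := by
  let D : Set I := Prod.fst '' W ∪ V
  have hD : #D ≤ μ := (mk_union_le _ _).trans
    ((add_le_add (mk_image_le.trans hWμ) hV).trans_eq (add_eq_self hμ))
  have hcard : ∀ W' : Set (I × I'), OrdPat W' → (∀ p ∈ W', p.1 ∈ D) → #W' ≤ μ := by
    intro W' hW' hD'
    refine le_trans (mk_le_of_injective (f := fun p : W' => (⟨p.1.1, hD' _ p.2⟩ : D)) ?_) hD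
    intro p q hpq
    have h1 : p.1.1 = q.1.1 := congrArg Subtype.val hpq
    refine Subtype.ext (Prod.ext h1 ?_)
    exact le_antisymm ((hW' _ p.2 _ q.2).1 h1.le) ((hW' _ q.2 _ p.2).1 h1.ge)
  obtain ⟨W', hWW', hmax⟩ := zorn_subset_nonempty {W' : Set (I × I') | OrdPat W' ∧ ∀ p ∈ W', p.1 ∈ D}
    (by
      intro c hc hchain _
      refine ⟨⋃₀ c, ⟨?_, ?_⟩, fun s hs => subset_sUnion_of_mem hs⟩
      · rintro p ⟨s, hs, hp⟩ q ⟨t, ht, hq⟩
        rcases hchain.total hs ht with h | h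
        · exact (hc ht).1 p (h hp) q hq
        · exact (hc hs).1 p hp q (h hq)
      · rintro p ⟨s, hs, hp⟩
        exact (hc hs).2 p hp) W
    ⟨hW, fun p hp => Or.inl ⟨p, hp, rfl⟩⟩
  refine ⟨W', hWW', hmax.1.1, hcard W' hmax.1.1 hmax.1.2, fun v hv => ?_⟩
  by_contra hcon
  push Not at hcon
  have hWμ' := hcard W' hmax.1.1 hmax.1.2
  obtain ⟨x, hx1, hx2⟩ := hI' (Prod.snd '' {p | p ∈ W' ∧ p.1 < v}) (Prod.snd '' {p | p ∈ W' ∧ v < p.1})
    (mk_image_le.trans ((mk_le_mk_of_subset (fun p hp => hp.1)).trans hWμ'))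
    (mk_image_le.trans ((mk_le_mk_of_subset (fun p hp => hp.1)).trans hWμ'))
    (by
      rintro _ ⟨p, ⟨hp, hpv⟩, rfl⟩ _ ⟨q, ⟨hq, hqv⟩, rfl⟩
      exact (hmax.1.1.lt_iff hp hq).1 (hpv.trans hqv))
  have hcomp : ∀ p ∈ W', (p.1 ≤ v ↔ p.2 ≤ x) ∧ (v ≤ p.1 ↔ x ≤ p.2) := by
    intro p hp
    have hne : p.1 ≠ v := by
      intro h
      exact hcon p.2 (by rw [← h]; exact hp)
    rcases lt_or_gt_of_ne hne with h | h
    · have h1 := hx1 _ ⟨p, ⟨hp, h⟩, rfl⟩
      exact ⟨⟨fun _ => h1.le, fun _ => h.le⟩, ⟨fun h2 => absurd h2 (not_le.2 h),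
        fun h2 => absurd h2 (not_le.2 h1)⟩⟩
    · have h1 := hx2 _ ⟨p, ⟨hp, h⟩, rfl⟩
      exact ⟨⟨fun h2 => absurd h2 (not_le.2 h), fun h2 => absurd h2 (not_le.2 h1)⟩,
        ⟨fun _ => h1.le, fun _ => h.le⟩⟩
  have hnew : insert (v, x) W' ∈ {W' : Set (I × I') | OrdPat W' ∧ ∀ p ∈ W', p.1 ∈ D} := by
    constructor
    · rintro p (rfl | hp) q (rfl | hq)
      · exact ⟨fun _ => le_rfl, fun _ => le_rfl⟩
      · exact (hcomp q hq).2
      · exact (hcomp p hp).1
      · exact hmax.1.1 p hp q hq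
    · rintro p (rfl | hp)
      · exact Or.inr hv
      · exact hmax.1.2 p hp
  have := hmax.2 hnew (subset_insert _ _) (mem_insert _ _)
  exact hcon x this

end extend

end Vale.Agent.P307
end
end

section

section

universe u

open Cardinal Set

namespace Vale.Agent.P307

theorem exists_closure_point (g : Cardinal.{u} → Cardinal.{u}) (χ : Cardinal.{u}) :
    ∃ θ, χ < θ ∧ ∀ ρ < θ, g ρ < θ := by
  let h : Cardinal.{u} → Cardinal.{u} := fun x =>
    Order.succ (max x (⨆ ρ : Set.Iic x, g ρ.1))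
  have h1 : ∀ x, x < h x := fun x => Order.lt_succ_of_le (le_max_left _ _)
  have h2 : ∀ x, ∀ ρ ≤ x, g ρ < h x := fun x ρ hρ => by
    refine Order.lt_succ_of_le (le_trans ?_ (le_max_right _ _))
    exact le_ciSup (f := fun ρ : Set.Iic x => g ρ.1) bddAbove_of_small ⟨ρ, hρ⟩
  let f : ℕ → Cardinal.{u} := fun n => Nat.rec (max χ ℵ₀) (fun _ x => h x) n
  have hf0 : f 0 = max χ ℵ₀ := rfl
  have hfs : ∀ n, f (n + 1) = h (f n) := fun n => rfl
  have hbdd : BddAbove (Set.range f) := bddAbove_of_small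
  refine ⟨⨆ n, f n, ?_, ?_⟩
  · refine lt_of_lt_of_le ?_ (le_ciSup hbdd 1)
    exact (le_max_left χ ℵ₀).trans_lt (h1 (f 0))
  · intro ρ hρ
    obtain ⟨n, hn⟩ := (lt_ciSup_iff hbdd).1 hρ
    refine lt_of_lt_of_le ?_ (le_ciSup hbdd (n + 1))
    rw [hfs]
    exact h2 _ _ hn.le

theorem isClub_closure (g : Cardinal.{u} → Cardinal.{u}) (ℓ : Cardinal.{u}) :
    IsClub {θ : Cardinal.{u} | ℓ < θ ∧ ∀ ρ < θ, g ρ < θ} := by
  constructor
  · rintro d hd ⟨x, hx⟩ - a ha
    refine ⟨(hd hx).1.trans_le (ha.1 hx), fun ρ hρ => ?_⟩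
    obtain ⟨y, hy, hρy⟩ := (lt_isLUB_iff ha).1 hρ
    exact ((hd hy).2 ρ hρy).trans_le (ha.1 hy)
  · intro χ
    obtain ⟨θ, h1, h2⟩ := exists_closure_point g (max χ ℓ)
    exact ⟨θ, ⟨(le_max_right _ _).trans_lt h1, h2⟩, ((le_max_left _ _).trans_lt h1).le⟩

theorem exists_filtration {M : Type u} {θ : Cardinal.{u}} (hM : #M = θ) (h0 : ℵ₀ ≤ θ)
    (hθ : θ.ord.cof = ℵ₀) :
    ∃ A : ℕ → Set M, Monotone A ∧ (∀ n, #(A n) < θ) ∧ ∀ x, ∃ n, x ∈ A n := by
  obtain ⟨s, hs, hsc⟩ := Order.exists_cof_eq θ.ord.ToType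
  rw [Ordinal.cof_toType, hθ] at hsc
  have hs0 : s.Nonempty := by
    rw [nonempty_iff_ne_empty]
    rintro rfl
    rw [mk_eq_zero] at hsc
    exact aleph0_ne_zero hsc.symm
  have hscount : s.Countable := by
    rw [← le_aleph0_iff_set_countable, hsc]
  obtain ⟨f, hf⟩ := hscount.exists_eq_range hs0
  have hMθ : #M = #θ.ord.ToType := by rw [hM, mk_ord_toType]
  obtain ⟨e⟩ := Cardinal.eq.1 hMθ
  refine ⟨fun n => e ⁻¹' Set.Iic (partialSups f n), ?_, ?_, ?_⟩
  · intro m n hmn
    exact preimage_mono (Set.Iic_subset_Iic.2 ((partialSups f).monotone hmn))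
  · intro n
    rw [mk_preimage_equiv]
    have h1 : #(Set.Iio (partialSups f n)) < θ := by
      have h2 := mk_Iio_lt (partialSups f n) (by simp only [mk_toType, card_ord, Ordinal.type_toType])
      rwa [mk_ord_toType] at h2
    rw [← Set.Iio_insert]
    refine (mk_insert_le).trans_lt ?_
    exact add_lt_of_lt h0 h1 (one_lt_aleph0.trans_le h0)
  · intro x
    obtain ⟨y, hy, hxy⟩ := hs (e x)
    rw [hf] at hy
    obtain ⟨n, rfl⟩ := hy
    exact ⟨n, hxy.trans (le_partialSups f n)⟩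

end Vale.Agent.P307
end
end

section

section

universe u

namespace Vale.Agent.P307.Gr

open Cardinal Set

section order

variable {Θ : Type u} [LinearOrder Θ]

/-- adding `e` at place `α` on the convex subgroup of elements vanishing below `α` -/
noncomputable def shiftFn (α : Θ) (e : ℤ) (g : Lex (Θ →₀ ℤ)) : Lex (Θ →₀ ℤ) :=
  open Classical in
  if ∀ j < α, (ofLex g) j = 0 then toLex (ofLex g + Finsupp.single α e) else g

theorem shiftFn_of_pos {α : Θ} {e : ℤ} {g : Lex (Θ →₀ ℤ)} (h : ∀ j < α, (ofLex g) j = 0) :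
    shiftFn α e g = toLex (ofLex g + Finsupp.single α e) := if_pos h

theorem shiftFn_of_neg {α : Θ} {e : ℤ} {g : Lex (Θ →₀ ℤ)} (h : ¬ ∀ j < α, (ofLex g) j = 0) :
    shiftFn α e g = g := if_neg h

theorem shiftFn_apply_of_ne {α : Θ} {e : ℤ} {g : Lex (Θ →₀ ℤ)} {j : Θ} (hj : j ≠ α) :
    (ofLex (shiftFn α e g)) j = (ofLex g) j := by
  by_cases h : ∀ j < α, (ofLex g) j = 0
  · rw [shiftFn_of_pos h]
    simp only [toLex_add, toLex_ofLex, ofLex_add, ofLex_toLex, Finsupp.coe_add, Pi.add_apply, ne_eq, hj.symm, not_false_eq_true, Finsupp.single_eq_of_ne', add_zero]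
  · rw [shiftFn_of_neg h]

theorem shiftFn_vanish {α : Θ} {e : ℤ} {g : Lex (Θ →₀ ℤ)} :
    (∀ j < α, (ofLex (shiftFn α e g)) j = 0) ↔ ∀ j < α, (ofLex g) j = 0 := by
  constructor
  · intro h j hj
    rw [← h j hj, shiftFn_apply_of_ne hj.ne]
  · intro h j hj
    rw [← h j hj, shiftFn_apply_of_ne hj.ne]

theorem shiftFn_shiftFn {α : Θ} {e e' : ℤ} (h : e + e' = 0) (g : Lex (Θ →₀ ℤ)) :
    shiftFn α e' (shiftFn α e g) = g := by
  by_cases hg : ∀ j < α, (ofLex g) j = 0
  · have h1 := shiftFn_vanish (α := α) (e := e) (g := g) |>.2 hg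
    rw [shiftFn_of_pos h1, shiftFn_of_pos hg]
    change toLex (ofLex g + Finsupp.single α e + Finsupp.single α e') = g
    rw [add_assoc, ← Finsupp.single_add, h, Finsupp.single_zero, add_zero]
    rfl
  · rw [shiftFn_of_neg hg, shiftFn_of_neg hg]

theorem lex_lt_iff (f g : Lex (Θ →₀ ℤ)) : f < g ↔
    ∃ i, (∀ j < i, (ofLex f) j = (ofLex g) j) ∧ (ofLex f) i < (ofLex g) i := Iff.rfl

theorem shiftFn_strictMono (α : Θ) (e : ℤ) : StrictMono (shiftFn α e) := by
  intro f g hfg
  rw [lex_lt_iff] at hfg ⊢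
  obtain ⟨i, hi1, hi2⟩ := hfg
  refine ⟨i, ?_⟩
  rcases lt_or_ge i α with hiα | hiα
  · refine ⟨fun j hj => ?_, ?_⟩
    · rw [shiftFn_apply_of_ne (hj.trans hiα).ne, shiftFn_apply_of_ne (hj.trans hiα).ne, hi1 j hj]
    · rwa [shiftFn_apply_of_ne hiα.ne, shiftFn_apply_of_ne hiα.ne]
  · have hiff : (∀ j < α, (ofLex f) j = 0) ↔ ∀ j < α, (ofLex g) j = 0 := by
      constructor
      · intro h j hj
        rw [← hi1 j (hj.trans_le hiα)]
        exact h j hj
      · intro h j hj
        rw [hi1 j (hj.trans_le hiα)]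
        exact h j hj
    by_cases hf : ∀ j < α, (ofLex f) j = 0
    · rw [shiftFn_of_pos hf, shiftFn_of_pos (hiff.1 hf)]
      refine ⟨fun j hj => ?_, ?_⟩
      · change (ofLex f) j + _ = (ofLex g) j + _
        rw [hi1 j hj]
      · change (ofLex f) i + _ < (ofLex g) i + _
        exact add_lt_add_left hi2 _
    · rw [shiftFn_of_neg hf, shiftFn_of_neg (fun h => hf (hiff.2 h))]
      exact ⟨hi1, hi2⟩

/-- the shift automorphism -/
noncomputable def shift (α : Θ) : Lex (Θ →₀ ℤ) ≃o Lex (Θ →₀ ℤ) where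
  toFun := shiftFn α 1
  invFun := shiftFn α (-1)
  left_inv g := shiftFn_shiftFn (e := 1) (e' := -1) (by decide) g
  right_inv g := shiftFn_shiftFn (e := -1) (e' := 1) (by decide) g
  map_rel_iff' := (shiftFn_strictMono α 1).le_iff_le

end order

theorem exists_order {l : Cardinal.{u}} (hl : ℵ₀ ≤ l) :
    ∃ (G : Type u) (_ : LinearOrder G) (o : G) (σ : SuccTy l → (G ≃o G)),
      #G ≤ Order.succ l ∧ (∀ g, g ≠ o → ∃ α₀, ∀ α, α₀ ≤ α → σ α g = g) ∧
      (∀ α, σ α o ≠ o) ∧ ∀ α β, σ α o = σ β o → α = β := by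
  have hsl : ℵ₀ ≤ Order.succ l := hl.trans (Order.le_succ l)
  have hSc : #(SuccTy l) = Order.succ l := by simp only [SuccTy, mk_toType, card_ord]
  have hinf : Infinite (SuccTy l) := by
    rw [infinite_iff, hSc]
    exact hsl
  have h0 : ∀ α : SuccTy l, shift α (toLex 0) = toLex (Finsupp.single α 1) := by
    intro α
    change shiftFn α 1 (toLex 0) = _
    rw [shiftFn_of_pos (by intro j _; rfl)]
    change toLex (0 + Finsupp.single α 1) = _
    rw [zero_add]
  refine ⟨Lex (SuccTy l →₀ ℤ), inferInstance, toLex 0, shift, ?_, ?_, ?_, ?_⟩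
  · have : #(Lex (SuccTy l →₀ ℤ)) = #(SuccTy l →₀ ℤ) := rfl
    rw [this, mk_finsupp_lift_of_infinite, hSc]
    simp only [lift_uzero, mk_eq_aleph0, lift_aleph0, hsl, sup_of_le_left, Std.le_refl]
  · intro g hg
    have h1 : ∃ j, (ofLex g) j ≠ 0 := by
      by_contra hcon
      push Not at hcon
      apply hg
      have : ofLex g = 0 := Finsupp.ext hcon
      rw [← this]
      rfl
    obtain ⟨j, hj⟩ := h1
    obtain ⟨α₀, hα₀⟩ := exists_gt_of_small hl {j} (by
      rw [mk_singleton]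
      exact one_le_aleph0.trans hl)
    refine ⟨α₀, fun α hα => ?_⟩
    exact shiftFn_of_neg fun h => hj (h j ((hα₀ j rfl).trans_le hα))
  · intro α h
    rw [h0] at h
    have h1 := congrArg (fun f => (ofLex f) α) h
    simp only [ofLex_toLex, Finsupp.single_eq_same, toLex_zero, ofLex_zero, Finsupp.coe_zero, Pi.zero_apply, one_ne_zero] at h1
  · intro α β h
    rw [h0, h0] at h
    have h1 : Finsupp.single α (1 : ℤ) = Finsupp.single β 1 := congrArg ofLex h
    by_contra hne
    have h2 := congrArg (fun f => f α) h1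
    simp only [Finsupp.single_eq_same] at h2
    rw [Finsupp.single_apply, if_neg (fun h => hne h.symm)] at h2
    exact one_ne_zero h2

end Vale.Agent.P307.Gr
end
end

section

section

universe u

open FirstOrder Cardinal Set

namespace Vale.Agent.P307

variable {L : Language.{u, u}}

/-- `R` is a partial isomorphism from `M` to `N` (for unnested atomic formulas). -/
structure IsPI (L : Language.{u, u}) {M N : Type u} [L.Structure M] [L.Structure N]
    (R : Set (M × N)) : Prop where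
  eq_iff : ∀ p ∈ R, ∀ q ∈ R, (p.1 = q.1 ↔ p.2 = q.2)
  fun_iff : ∀ {n : ℕ} (f : L.Functions n) (x : Fin n → M × N), (∀ i, x i ∈ R) → ∀ q ∈ R,
    (Language.Structure.funMap f (fun i => (x i).1) = q.1 ↔
      Language.Structure.funMap f (fun i => (x i).2) = q.2)
  rel_iff : ∀ {n : ℕ} (r : L.Relations n) (x : Fin n → M × N), (∀ i, x i ∈ R) →
    (Language.Structure.RelMap r (fun i => (x i).1) ↔
      Language.Structure.RelMap r (fun i => (x i).2))

variable {M N P : Type u} [L.Structure M] [L.Structure N] [L.Structure P]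

theorem IsPI.mono {R R' : Set (M × N)} (h : IsPI L R') (hR : R ⊆ R') : IsPI L R where
  eq_iff p hp q hq := h.eq_iff p (hR hp) q (hR hq)
  fun_iff f x hx q hq := h.fun_iff f x (fun i => hR (hx i)) q (hR hq)
  rel_iff r x hx := h.rel_iff r x (fun i => hR (hx i))

theorem IsPI.swap {R : Set (M × N)} (h : IsPI L R) : IsPI L (Prod.swap ⁻¹' R : Set (N × M)) where
  eq_iff p hp q hq := (h.eq_iff _ hp _ hq).symm
  fun_iff f x hx q hq := (h.fun_iff f (fun i => (x i).swap) (fun i => hx i) q.swap hq).symm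
  rel_iff r x hx := (h.rel_iff r (fun i => (x i).swap) (fun i => hx i)).symm

/-- The composition of two relations. -/
def relComp (R : Set (M × N)) (R' : Set (N × P)) : Set (M × P) :=
  {p | ∃ y, (p.1, y) ∈ R ∧ (y, p.2) ∈ R'}

theorem IsPI.comp {R : Set (M × N)} {R' : Set (N × P)} (h : IsPI L R) (h' : IsPI L R') :
    IsPI L (relComp R R') where
  eq_iff := by
    rintro p ⟨y, hy, hy'⟩ q ⟨z, hz, hz'⟩
    exact (h.eq_iff _ hy _ hz).trans (h'.eq_iff _ hy' _ hz')
  fun_iff := by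
    rintro n f x hx q ⟨z, hz, hz'⟩
    choose y hy hy' using hx
    exact (h.fun_iff f (fun i => ((x i).1, y i)) hy _ hz).trans
      (h'.fun_iff f (fun i => (y i, (x i).2)) hy' _ hz')
  rel_iff := by
    rintro n r x hx
    choose y hy hy' using hx
    exact (h.rel_iff r (fun i => ((x i).1, y i)) hy).trans
      (h'.rel_iff r (fun i => (y i, (x i).2)) hy')

theorem IsPI.mk_comp_le {R : Set (M × N)} {R' : Set (N × P)} (h' : IsPI L R') :
    #(relComp R R') ≤ #R := by
  have hex : ∀ p : relComp R R', ∃ y, (p.1.1, y) ∈ R ∧ (y, p.1.2) ∈ R' := fun p => p.2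
  choose y hy hy' using hex
  refine mk_le_of_injective (f := fun p : relComp R R' => (⟨(p.1.1, y p), hy p⟩ : R)) ?_
  intro p q hpq
  simp only [Subtype.mk.injEq, Prod.mk.injEq] at hpq
  have h2 := (h'.eq_iff _ (hy' p) _ (hy' q)).1 hpq.2
  exact Subtype.ext (Prod.ext hpq.1 h2)

/-- Positions from which the spoiler wins the back-and-forth game of length `ω` with moves of
size at most `μ`. -/
inductive Bad (L : Language.{u, u}) {M N : Type u} [L.Structure M] [L.Structure N]
    (μ : Cardinal.{u}) : Set (M × N) → Prop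
  | left (R : Set (M × N)) (A : Set M) (hA : #A ≤ μ)
      (h : ∀ R', R ⊆ R' → IsPI L R' → #R' ≤ μ → (∀ a ∈ A, ∃ b, (a, b) ∈ R') → Bad L μ R') :
      Bad L μ R
  | right (R : Set (M × N)) (B : Set N) (hB : #B ≤ μ)
      (h : ∀ R', R ⊆ R' → IsPI L R' → #R' ≤ μ → (∀ b ∈ B, ∃ a, (a, b) ∈ R') → Bad L μ R') :
      Bad L μ R

/-- Winning positions of the duplicator. -/
def Good (L : Language.{u, u}) {M N : Type u} [L.Structure M] [L.Structure N]
    (μ : Cardinal.{u}) (R : Set (M × N)) : Prop :=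
  IsPI L R ∧ #R ≤ μ ∧ ¬ Bad L μ R

theorem Good.exists_left {μ : Cardinal.{u}} {R : Set (M × N)} (h : Good L μ R) (A : Set M)
    (hA : #A ≤ μ) : ∃ R', R ⊆ R' ∧ Good L μ R' ∧ ∀ a ∈ A, ∃ b, (a, b) ∈ R' := by
  by_contra hcon
  refine h.2.2 (Bad.left R A hA fun R' h1 h2 h3 h4 => ?_)
  by_contra h5
  exact hcon ⟨R', h1, ⟨h2, h3, h5⟩, h4⟩

theorem Good.exists_right {μ : Cardinal.{u}} {R : Set (M × N)} (h : Good L μ R) (B : Set N)
    (hB : #B ≤ μ) : ∃ R', R ⊆ R' ∧ Good L μ R' ∧ ∀ b ∈ B, ∃ a, (a, b) ∈ R' := by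
  by_contra hcon
  refine h.2.2 (Bad.right R B hB fun R' h1 h2 h3 h4 => ?_)
  by_contra h5
  exact hcon ⟨R', h1, ⟨h2, h3, h5⟩, h4⟩

/-- A back-and-forth system consists of good positions. -/
theorem good_of_system {μ : Cardinal.{u}} (F : Set (Set (M × N)))
    (hF : ∀ R ∈ F, IsPI L R ∧ #R ≤ μ)
    (hl : ∀ R ∈ F, ∀ A : Set M, #A ≤ μ → ∃ R' ∈ F, R ⊆ R' ∧ ∀ a ∈ A, ∃ b, (a, b) ∈ R')
    (hr : ∀ R ∈ F, ∀ B : Set N, #B ≤ μ → ∃ R' ∈ F, R ⊆ R' ∧ ∀ b ∈ B, ∃ a, (a, b) ∈ R')
    {R : Set (M × N)} (hR : R ∈ F) : Good L μ R := by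
  refine ⟨(hF R hR).1, (hF R hR).2, fun hbad => ?_⟩
  induction hbad with
  | left R A hA h ih =>
    obtain ⟨R', hR', h1, h2⟩ := hl R hR A hA
    exact ih R' h1 (hF R' hR').1 (hF R' hR').2 h2 hR'
  | right R B hB h ih =>
    obtain ⟨R', hR', h1, h2⟩ := hr R hR B hB
    exact ih R' h1 (hF R' hR').1 (hF R' hR').2 h2 hR'

theorem Good.subset {μ : Cardinal.{u}} {R R' : Set (M × N)} (h : Good L μ R') (hR : R ⊆ R') :
    Good L μ R := by
  refine good_of_system {R | ∃ R', R ⊆ R' ∧ Good L μ R'} ?_ ?_ ?_ ⟨R', hR, h⟩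
  · rintro R ⟨R', h1, h2⟩
    exact ⟨h2.1.mono h1, (mk_le_mk_of_subset h1).trans h2.2.1⟩
  · rintro R ⟨R', h1, h2⟩ A hA
    obtain ⟨R'', h3, h4, h5⟩ := h2.exists_left A hA
    exact ⟨R'', ⟨R'', Subset.rfl, h4⟩, h1.trans h3, h5⟩
  · rintro R ⟨R', h1, h2⟩ A hA
    obtain ⟨R'', h3, h4, h5⟩ := h2.exists_right A hA
    exact ⟨R'', ⟨R'', Subset.rfl, h4⟩, h1.trans h3, h5⟩

theorem Good.swap {μ : Cardinal.{u}} {R : Set (M × N)} (h : Good L μ R) :
    Good L μ (Prod.swap ⁻¹' R : Set (N × M)) := by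
  have hcard : ∀ R : Set (M × N), #(Prod.swap ⁻¹' R : Set (N × M)) = #R := fun R =>
    mk_congr ((Equiv.prodComm N M).subtypeEquiv (fun _ => Iff.rfl))
  refine good_of_system {R | ∃ R' : Set (M × N), R = Prod.swap ⁻¹' R' ∧ Good L μ R'} ?_ ?_ ?_
    ⟨R, rfl, h⟩
  · rintro _ ⟨R', rfl, h2⟩
    exact ⟨h2.1.swap, (hcard R').trans_le h2.2.1⟩
  · rintro _ ⟨R', rfl, h2⟩ A hA
    obtain ⟨R'', h3, h4, h5⟩ := h2.exists_right A hA
    exact ⟨_, ⟨R'', rfl, h4⟩, preimage_mono h3, h5⟩
  · rintro _ ⟨R', rfl, h2⟩ A hA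
    obtain ⟨R'', h3, h4, h5⟩ := h2.exists_left A hA
    exact ⟨_, ⟨R'', rfl, h4⟩, preimage_mono h3, h5⟩

theorem Good.comp {μ : Cardinal.{u}} {R : Set (M × N)} {R' : Set (N × P)} (h : Good L μ R)
    (h' : Good L μ R') : Good L μ (relComp R R') := by
  refine good_of_system {Q | ∃ (R : Set (M × N)) (R' : Set (N × P)), Q ⊆ relComp R R' ∧
    Good L μ R ∧ Good L μ R'} ?_ ?_ ?_ ⟨R, R', Subset.rfl, h, h'⟩
  · rintro Q ⟨R, R', h1, h2, h3⟩
    exact ⟨(h2.1.comp h3.1).mono h1, (mk_le_mk_of_subset h1).trans ((h3.1.mk_comp_le).trans h2.2.1)⟩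
  · rintro Q ⟨R, R', h1, h2, h3⟩ A hA
    obtain ⟨R₁, h4, h5, h6⟩ := h2.exists_left A hA
    obtain ⟨R₂, h7, h8, h9⟩ := h3.exists_left (Prod.snd '' R₁) (mk_image_le.trans h5.2.1)
    refine ⟨relComp R₁ R₂, ⟨R₁, R₂, Subset.rfl, h5, h8⟩, ?_, ?_⟩
    · rintro p hp
      obtain ⟨y, hy, hy'⟩ := h1 hp
      exact ⟨y, h4 hy, h7 hy'⟩
    · intro a ha
      obtain ⟨b, hb⟩ := h6 a ha
      obtain ⟨c, hc⟩ := h9 b ⟨_, hb, rfl⟩
      exact ⟨c, b, hb, hc⟩
  · rintro Q ⟨R, R', h1, h2, h3⟩ A hA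
    obtain ⟨R₂, h4, h5, h6⟩ := h3.exists_right A hA
    obtain ⟨R₁, h7, h8, h9⟩ := h2.exists_right (Prod.fst '' R₂) (mk_image_le.trans h5.2.1)
    refine ⟨relComp R₁ R₂, ⟨R₁, R₂, Subset.rfl, h8, h5⟩, ?_, ?_⟩
    · rintro p hp
      obtain ⟨y, hy, hy'⟩ := h1 hp
      exact ⟨y, h7 hy, h4 hy'⟩
    · intro a ha
      obtain ⟨b, hb⟩ := h6 a ha
      obtain ⟨c, hc⟩ := h9 b ⟨_, hb, rfl⟩
      exact ⟨c, b, hc, hb⟩

/-- Trimming: a set `A` covered by `R'` is covered by a small subset of `R'`. -/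
theorem exists_trim {μ : Cardinal.{u}} (hμ : ℵ₀ ≤ μ) {R R' : Set (M × N)} (hR : R ⊆ R')
    (hRμ : #R ≤ μ) (A : Set M) (hA : #A ≤ μ) (hc : ∀ a ∈ A, ∃ b, (a, b) ∈ R') :
    ∃ R'', R ⊆ R'' ∧ R'' ⊆ R' ∧ #R'' ≤ μ ∧ ∀ a ∈ A, ∃ b, (a, b) ∈ R'' := by
  have hc' : ∀ a : A, ∃ b, (a.1, b) ∈ R' := fun a => hc a.1 a.2
  choose b hb using hc'
  refine ⟨R ∪ Set.range (fun a : A => (a.1, b a)), subset_union_left, ?_, ?_, ?_⟩
  · refine union_subset hR ?_
    rintro _ ⟨a, rfl⟩
    exact hb a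
  · refine (mk_union_le _ _).trans ((add_le_add hRμ (mk_range_le.trans hA)).trans ?_)
    rw [add_eq_self hμ]
  · intro a ha
    exact ⟨b ⟨a, ha⟩, Or.inr ⟨⟨a, ha⟩, rfl⟩⟩

theorem Good.mono {μ μ' : Cardinal.{u}} (hμ : ℵ₀ ≤ μ) (hμμ' : μ ≤ μ') {R : Set (M × N)}
    (h : Good L μ' R) (hR : #R ≤ μ) : Good L μ R := by
  refine good_of_system {R | #R ≤ μ ∧ Good L μ' R} ?_ ?_ ?_ ⟨hR, h⟩
  · rintro R ⟨h1, h2⟩
    exact ⟨h2.1, h1⟩
  · rintro R ⟨h1, h2⟩ A hA
    obtain ⟨R', h3, h4, h5⟩ := h2.exists_left A (hA.trans hμμ')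
    obtain ⟨R'', h6, h7, h8, h9⟩ := exists_trim hμ h3 h1 A hA h5
    exact ⟨R'', ⟨h8, h4.subset h7⟩, h6, h9⟩
  · rintro R ⟨h1, h2⟩ A hA
    obtain ⟨R', h3, h4, h5⟩ := h2.exists_right A (hA.trans hμμ')
    have hsw : #(Prod.swap ⁻¹' R : Set (N × M)) ≤ μ :=
      (mk_congr ((Equiv.prodComm N M).subtypeEquiv (fun _ => Iff.rfl))).trans_le h1
    obtain ⟨R'', h6, h7, h8, h9⟩ := exists_trim (M := N) (N := M) hμ
      (R := Prod.swap ⁻¹' R) (R' := Prod.swap ⁻¹' R') (preimage_mono h3) hsw A hA h5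
    refine ⟨Prod.swap ⁻¹' R'', ⟨?_, ?_⟩, ?_, h9⟩
    · exact (mk_congr ((Equiv.prodComm M N).subtypeEquiv (fun _ => Iff.rfl))).trans_le h8
    · refine h4.subset ?_
      intro p hp
      exact h7 hp
    · intro p hp
      exact h6 (a := p.swap) hp

/-- Two sequences have the same `L_{∞,μ⁺}`-type. -/
def EqS (L : Language.{u, u}) {M N : Type u} [L.Structure M] [L.Structure N] (μ : Cardinal.{u})
    {ι : Type u} (a : ι → M) (b : ι → N) : Prop :=
  Good L μ (Set.range fun i => (a i, b i))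

theorem EqS.symm {μ : Cardinal.{u}} {ι : Type u} {a : ι → M} {b : ι → N} (h : EqS L μ a b) :
    EqS L μ b a := by
  refine (Good.swap h).subset ?_
  rintro _ ⟨i, rfl⟩
  exact ⟨i, rfl⟩

theorem EqS.trans {μ : Cardinal.{u}} {ι : Type u} {a : ι → M} {b : ι → N} {c : ι → P}
    (h : EqS L μ a b) (h' : EqS L μ b c) : EqS L μ a c := by
  refine (Good.comp h h').subset ?_
  rintro _ ⟨i, rfl⟩
  exact ⟨b i, ⟨i, rfl⟩, ⟨i, rfl⟩⟩

theorem EqS.mono {μ μ' : Cardinal.{u}} (hμ : ℵ₀ ≤ μ) (hμμ' : μ ≤ μ') {ι : Type u} {a : ι → M}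
    {b : ι → N} (h : EqS L μ' a b) (hι : #ι ≤ μ) : EqS L μ a b :=
  Good.mono hμ hμμ' h (mk_range_le.trans hι)

theorem EqS.exists_of_empty {μ : Cardinal.{u}} (h : Good L μ (∅ : Set (M × N))) {ζ : Type u}
    (hζ : #ζ ≤ μ) (c : ζ → M) : ∃ d : ζ → N, EqS L μ c d := by
  obtain ⟨R', h1, h2, h3⟩ := Good.exists_left h (Set.range c) (mk_range_le.trans hζ)
  have h4 : ∀ z, ∃ b, (c z, b) ∈ R' := fun z => h3 _ ⟨z, rfl⟩
  choose d hd using h4
  refine ⟨d, h2.subset ?_⟩
  rintro _ ⟨i, rfl⟩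
  exact hd i

end Vale.Agent.P307
end
end

section

section

universe u v w

open FirstOrder Cardinal Set

namespace Vale.Agent.P307

open Language.Structure

section

variable {L : Language.{u, u}} {M N P : Type u} [L.Structure M] [L.Structure N] [L.Structure P]

/-- The tuples `v` and `v'` satisfy the same atomic formulas. -/
def AtEq (L : Language.{u, u}) {M N : Type u} [L.Structure M] [L.Structure N] {Q : Type w}
    (v : Q → M) (v' : Q → N) : Prop :=
  (∀ s t : L.Term Q, s.realize v = t.realize v ↔ s.realize v' = t.realize v') ∧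
  (∀ (n : ℕ) (r : L.Relations n) (ts : Fin n → L.Term Q),
    RelMap r (fun k => (ts k).realize v) ↔ RelMap r (fun k => (ts k).realize v'))

theorem AtEq.symm {Q : Type w} {v : Q → M} {v' : Q → N} (h : AtEq L v v') : AtEq L v' v :=
  ⟨fun s t => (h.1 s t).symm, fun n r ts => (h.2 n r ts).symm⟩

theorem AtEq.trans {Q : Type w} {v : Q → M} {v' : Q → N} {v'' : Q → P} (h : AtEq L v v')
    (h' : AtEq L v' v'') : AtEq L v v'' :=
  ⟨fun s t => (h.1 s t).trans (h'.1 s t), fun n r ts => (h.2 n r ts).trans (h'.2 n r ts)⟩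

theorem AtEq.comp {Q : Type w} {Q' : Type v} {v : Q → M} {v' : Q → N} (h : AtEq L v v')
    (g : Q' → Q) : AtEq L (v ∘ g) (v' ∘ g) := by
  constructor
  · intro s t
    have := h.1 (s.relabel g) (t.relabel g)
    simpa [Language.Term.realize_relabel] using this
  · intro n r ts
    have := h.2 n r (fun k => (ts k).relabel g)
    simpa [Language.Term.realize_relabel] using this

theorem AtEq.of_finite {Q : Type w} {v : Q → M} {v' : Q → N}
    (h : ∀ s : Finset Q, AtEq L (fun q : s => v q.1) (fun q : s => v' q.1)) : AtEq L v v' := by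
  classical
  constructor
  · intro s t
    have h1 := (h (s.varFinset ∪ t.varFinset)).1
      (s.restrictVar (fun q => ⟨q.1, Finset.mem_union_left _ q.2⟩))
      (t.restrictVar (fun q => ⟨q.1, Finset.mem_union_right _ q.2⟩))
    rw [Language.Term.realize_restrictVar (v := fun q : (s.varFinset ∪ t.varFinset : Finset Q) => v q.1) v (by simp),
      Language.Term.realize_restrictVar (v := fun q : (s.varFinset ∪ t.varFinset : Finset Q) => v' q.1) v' (by simp),
      Language.Term.realize_restrictVar (v := fun q : (s.varFinset ∪ t.varFinset : Finset Q) => v q.1) v (by simp),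
      Language.Term.realize_restrictVar (v := fun q : (s.varFinset ∪ t.varFinset : Finset Q) => v' q.1) v' (by simp)] at h1
    exact h1
  · intro n r ts
    have h1 := (h (Finset.univ.biUnion fun k => (ts k).varFinset)).2 n r
      (fun k => (ts k).restrictVar (fun q => ⟨q.1, Finset.mem_biUnion.2 ⟨k, Finset.mem_univ _, q.2⟩⟩))
    have h2 : ∀ k, ((ts k).restrictVar (fun q => (⟨q.1, Finset.mem_biUnion.2 ⟨k, Finset.mem_univ _, q.2⟩⟩ :
        (Finset.univ.biUnion fun k => (ts k).varFinset : Finset Q)))).realize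
        (fun q : (Finset.univ.biUnion fun k => (ts k).varFinset : Finset Q) => v q.1) =
        (ts k).realize v := fun k => Language.Term.realize_restrictVar v (by simp)
    have h3 : ∀ k, ((ts k).restrictVar (fun q => (⟨q.1, Finset.mem_biUnion.2 ⟨k, Finset.mem_univ _, q.2⟩⟩ :
        (Finset.univ.biUnion fun k => (ts k).varFinset : Finset Q)))).realize
        (fun q : (Finset.univ.biUnion fun k => (ts k).varFinset : Finset Q) => v' q.1) =
        (ts k).realize v' := fun k => Language.Term.realize_restrictVar v' (by simp)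
    simp only [h2, h3] at h1
    exact h1

/-- The graph of the partial isomorphism induced by `AtEq`. -/
def termGraph (L : Language.{u, u}) {M N : Type u} [L.Structure M] [L.Structure N] {Q : Type w}
    (v : Q → M) (v' : Q → N) : Set (M × N) :=
  Set.range fun t : L.Term Q => (t.realize v, t.realize v')

theorem AtEq.isPI {Q : Type w} {v : Q → M} {v' : Q → N} (h : AtEq L v v') :
    IsPI L (termGraph L v v') where
  eq_iff := by
    rintro _ ⟨s, rfl⟩ _ ⟨t, rfl⟩
    exact h.1 s t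
  fun_iff := by
    rintro n f x hx _ ⟨t, rfl⟩
    choose s hs using hx
    have := h.1 (Language.Term.func f s) t
    simp only [Language.Term.realize_func] at this
    simp only [← hs]
    exact this
  rel_iff := by
    rintro n r x hx
    choose s hs using hx
    simp only [← hs]
    exact h.2 n r s

/-- A total and surjective partial isomorphism is an isomorphism. -/
theorem IsPI.exists_equiv {R : Set (M × N)} (h : IsPI L R) (hl : ∀ a, ∃ b, (a, b) ∈ R)
    (hr : ∀ b, ∃ a, (a, b) ∈ R) : ∃ e : M ≃[L] N, ∀ a, (a, e a) ∈ R := by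
  choose f hf using hl
  choose g hg using hr
  have hfg : ∀ b, f (g b) = b := fun b => (h.eq_iff _ (hf (g b)) _ (hg b)).1 rfl
  have hgf : ∀ a, g (f a) = a := fun a => (h.eq_iff _ (hg (f a)) _ (hf a)).2 rfl
  refine ⟨{ toFun := f, invFun := g, left_inv := hgf, right_inv := hfg, map_fun' := ?_,
            map_rel' := ?_ }, hf⟩
  · intro n F x
    have := (h.fun_iff F (fun i => (x i, f (x i))) (fun i => hf _) _ (hf (funMap F x))).1 rfl
    exact this.symm
  · intro n r x
    exact (h.rel_iff r (fun i => (x i, f (x i))) (fun i => hf _)).symm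

/-- Restriction of a partial isomorphism to substructures. -/
theorem IsPI.restrict {R : Set (M × N)} (h : IsPI L R) (S : L.Substructure M)
    (T : L.Substructure N) :
    IsPI L {p : S × T | ((p.1 : M), (p.2 : N)) ∈ R} where
  eq_iff := by
    rintro ⟨p1, p2⟩ hp ⟨q1, q2⟩ hq
    exact Subtype.ext_iff.trans ((h.eq_iff _ hp _ hq).trans Subtype.ext_iff.symm)
  fun_iff := by
    rintro n f x hx ⟨q1, q2⟩ hq
    have h1 : (funMap f (fun i => (x i).1) = q1) ↔
        (funMap f (fun i => (((x i).1 : S) : M)) = (q1 : M)) := Subtype.ext_iff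
    have h2 : (funMap f (fun i => (x i).2) = q2) ↔
        (funMap f (fun i => (((x i).2 : T) : N)) = (q2 : N)) := Subtype.ext_iff
    exact h1.trans ((h.fun_iff f (fun i => (((x i).1 : M), ((x i).2 : N))) hx _ hq).trans h2.symm)
  rel_iff := by
    rintro n r x hx
    exact h.rel_iff r (fun i => (((x i).1 : M), ((x i).2 : N))) hx

theorem IsPI.exists_equiv_sub {R : Set (M × N)} (h : IsPI L R) (S : L.Substructure M)
    (T : L.Substructure N) (hl : ∀ a ∈ S, ∃ b ∈ T, (a, b) ∈ R) (hr : ∀ b ∈ T, ∃ a ∈ S, (a, b) ∈ R) :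
    ∃ e : S ≃[L] T, ∀ a : S, ((a : M), (e a : N)) ∈ R := by
  refine (h.restrict S T).exists_equiv ?_ ?_
  · intro a
    obtain ⟨b, hb, hab⟩ := hl a.1 a.2
    exact ⟨⟨b, hb⟩, hab⟩
  · intro b
    obtain ⟨a, ha, hab⟩ := hr b.1 b.2
    exact ⟨⟨a, ha⟩, hab⟩

/-- The graph of an isomorphism between substructures is a partial isomorphism. -/
theorem isPI_of_equiv_sub {S : L.Substructure M} {T : L.Substructure N} (e : S ≃[L] T) :
    IsPI L {p : M × N | ∃ a : S, (a : M) = p.1 ∧ (e a : N) = p.2} where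
  eq_iff := by
    rintro _ ⟨a, ha1, ha2⟩ _ ⟨b, hb1, hb2⟩
    rw [← ha1, ← hb1, ← ha2, ← hb2]
    constructor
    · intro h
      rw [Subtype.ext h]
    · intro h
      rw [e.injective (Subtype.ext h)]
  fun_iff := by
    rintro n f x hx q ⟨b, hb1, hb2⟩
    choose a ha1 ha2 using hx
    rw [← hb1, ← hb2]
    simp only [← ha1, ← ha2]
    have h1 : (funMap f (fun i => ((a i : S) : M)) : M) = ((funMap f a : S) : M) := rfl
    have h2 : (funMap f (fun i => ((e (a i) : T) : N)) : N) = ((e (funMap f a) : T) : N) := by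
      rw [e.map_fun]
      rfl
    rw [h1, h2]
    constructor
    · intro h
      rw [Subtype.ext h]
    · intro h
      rw [e.injective (Subtype.ext h)]
  rel_iff := by
    rintro n r x hx
    choose a ha1 ha2 using hx
    simp only [← ha1, ← ha2]
    have h1 : RelMap r (fun i => ((a i : S) : M)) ↔ RelMap r a := Iff.rfl
    have h2 : RelMap r (fun i => ((e (a i) : T) : N)) ↔ RelMap r (fun i => e (a i)) := Iff.rfl
    rw [h1, h2]
    exact (e.map_rel r a).symm

end

end Vale.Agent.P307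
end
end

section

section

universe u v w

open FirstOrder Cardinal Set

namespace Vale.Agent.P307

open Language.Structure

variable {L : Language.{u, u}} {M N : Type u} [L.Structure M] [L.Structure N]

/-- The atomic type of a tuple. -/
def atTp (L : Language.{u, u}) {M : Type u} [L.Structure M] {Q : Type w} (b : Q → M) :
    Set ((L.Term Q × L.Term Q) ⊕ (Σ m : ℕ, L.Relations m × (Fin m → L.Term Q))) :=
  {x | match x with
    | Sum.inl p => p.1.realize b = p.2.realize b
    | Sum.inr p => RelMap p.2.1 (fun k => (p.2.2 k).realize b)}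

theorem atTp_eq_iff {Q : Type w} {b : Q → M} {b' : Q → N} :
    atTp L b = atTp L b' ↔ AtEq L b b' := by
  constructor
  · intro h
    constructor
    · intro s t
      have := Set.ext_iff.1 h (Sum.inl (s, t))
      exact this
    · intro n r ts
      have := Set.ext_iff.1 h (Sum.inr ⟨n, r, ts⟩)
      exact this
  · intro h
    ext x
    rcases x with ⟨s, t⟩ | ⟨n, r, ts⟩
    · exact h.1 s t
    · exact h.2 n r ts

theorem mk_functions_le {ℓ : Cardinal.{u}} (hL : L.card ≤ ℓ) : #(Σ i, L.Functions i) ≤ ℓ :=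
  (mk_le_of_injective (f := (Sum.inl : (Σ i, L.Functions i) → L.Symbols)) Sum.inl_injective).trans hL

theorem mk_relations_le {ℓ : Cardinal.{u}} (hL : L.card ≤ ℓ) : #(Σ i, L.Relations i) ≤ ℓ :=
  (mk_le_of_injective (f := (Sum.inr : (Σ i, L.Relations i) → L.Symbols)) Sum.inr_injective).trans hL

theorem mk_term_le {ℓ : Cardinal.{u}} (hℓ : ℵ₀ ≤ ℓ) (hL : L.card ≤ ℓ) (Q : Type u)
    (hQ : #Q ≤ ℓ) : #(L.Term Q) ≤ ℓ := by
  refine Language.Term.card_le.trans (max_le hℓ ?_)
  rw [mk_sum, lift_id, lift_id]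
  exact (add_le_add hQ (mk_functions_le hL)).trans_eq (add_eq_self hℓ)

theorem mk_term_fin_le {ℓ : Cardinal.{u}} (hℓ : ℵ₀ ≤ ℓ) (hL : L.card ≤ ℓ) (n : ℕ) :
    #(L.Term (Fin n)) ≤ ℓ := by
  refine Language.Term.card_le.trans (max_le hℓ ?_)
  rw [mk_sum, lift_uzero]
  refine (add_le_add ?_ (mk_functions_le hL)).trans_eq (add_eq_self hℓ)
  simpa using (natCast_lt_aleph0 (n := n)).le.trans hℓ

theorem mk_atTp_fin_le {ℓ : Cardinal.{u}} (hℓ : ℵ₀ ≤ ℓ) (hL : L.card ≤ ℓ) (n : ℕ) :
    #(Set ((L.Term (Fin n) × L.Term (Fin n)) ⊕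
      (Σ m : ℕ, L.Relations m × (Fin m → L.Term (Fin n))))) ≤ 2 ^ ℓ := by
  rw [mk_set]
  refine power_le_power_left two_ne_zero ?_
  have hT := mk_term_fin_le hℓ hL n
  rw [mk_sum, lift_id, lift_id]
  refine (add_le_add ?_ ?_).trans_eq (add_eq_self hℓ)
  · rw [mk_prod, lift_id]
    exact (mul_le_mul' hT hT).trans_eq (mul_eq_self hℓ)
  · rw [mk_sigma]
    refine (sum_le_lift_mk_mul_iSup _).trans ?_
    have h1 : ∀ m : ℕ, #(L.Relations m × (Fin m → L.Term (Fin n))) ≤ ℓ := by
      intro m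
      rw [mk_prod, lift_id, lift_id]
      refine (mul_le_mul' ?_ ?_).trans_eq (mul_eq_self hℓ)
      · exact (mk_le_of_injective (f := fun r : L.Relations m => (⟨m, r⟩ : Σ i, L.Relations i))
          (fun a b h => by simpa using h)).trans (mk_relations_le hL)
      · have h3 : #(Fin m → L.Term (Fin n)) = #(L.Term (Fin n)) ^ m := by simp
        rw [h3]
        refine le_trans ?_ (power_nat_le (n := m) hℓ)
        exact_mod_cast power_le_power_right (c := (m : Cardinal.{u})) hT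
    calc _ ≤ ℓ * ℓ := by
          refine mul_le_mul' ?_ (ciSup_le' h1)
          simpa using hℓ
      _ = ℓ := mul_eq_self hℓ

/-- Morley's extraction: a coherent template from a long sequence. -/
theorem exists_template {ℓ : Cardinal.{u}} (hℓ : ℵ₀ ≤ ℓ) (hL : L.card ≤ ℓ) {X : Type u}
    [LinearOrder X] [WellFoundedLT X] (x : X → M) (hX : hanf (2 ^ ℓ) ≤ #X) :
    ∃ a : ∀ n, Fin n → X, (∀ n, StrictMono (a n)) ∧
      ∀ (k n : ℕ) (g : Fin k → Fin n), StrictMono g →
        AtEq L (fun i => x (a n (g i))) (fun i => x (a k i)) := by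
  obtain ⟨a, ha, h⟩ := exists_coherent (c := 2 ^ ℓ)
    (T := fun n => Set ((L.Term (Fin n) × L.Term (Fin n)) ⊕
      (Σ m : ℕ, L.Relations m × (Fin m → L.Term (Fin n)))))
    (fun n b => atTp L (fun i => x (b i))) (fun n => mk_atTp_fin_le hℓ hL n) hX
  exact ⟨a, ha, fun k n g hg => atTp_eq_iff.1 (h k n g hg)⟩

section EM

variable (a : ∀ n : ℕ, Fin n → M)

/-- `a` is a template: a coherent sequence of tuples. -/
def IsTemplate (L : Language.{u, u}) {M : Type u} [L.Structure M] (a : ∀ n : ℕ, Fin n → M) :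
    Prop :=
  ∀ (k n : ℕ) (g : Fin k → Fin n), StrictMono g → AtEq L (fun i => a n (g i)) (a k)

/-- `c : I → N` is an Ehrenfeucht-Mostowski sequence with template `a`. -/
def IsEM (L : Language.{u, u}) {M N : Type u} [L.Structure M] [L.Structure N]
    (a : ∀ n : ℕ, Fin n → M) {I : Type u} [LinearOrder I] (c : I → N) : Prop :=
  ∀ (n : ℕ) (i : Fin n → I), StrictMono i → AtEq L (fun k => c (i k)) (a n)

theorem exists_isEM_aux [Nonempty M] {a : ∀ n : ℕ, Fin n → M} (ha : IsTemplate L a) (I : Type u)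
    [LinearOrder I] : ∃ (N : Type u) (_ : L.Structure N) (c : I → N), IsEM L a c := by
  classical
  let U : Ultrafilter (Finset I) := Ultrafilter.of Filter.atTop
  have hU : (U : Filter (Finset I)) ≤ Filter.atTop := Ultrafilter.of_le _
  let c₀ : I → Finset I → M := fun i b =>
    if h : i ∈ b then a b.card ((b.orderIsoOfFin rfl).symm ⟨i, h⟩) else Classical.arbitrary M
  refine ⟨(U : Filter (Finset I)).Product (fun _ => M), inferInstance,
    fun i => (c₀ i : (U : Filter (Finset I)).Product (fun _ => M)), ?_⟩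
  intro n i hi
  -- the value of `c₀` on large finite sets
  have hlarge : ∀ᶠ b : Finset I in (U : Filter (Finset I)), AtEq L (fun k => c₀ (i k) b) (a n) := by
    refine hU ?_
    filter_upwards [Filter.eventually_ge_atTop (Finset.univ.image i)] with b hb
    have hmem : ∀ k, i k ∈ b := fun k => hb (Finset.mem_image_of_mem _ (Finset.mem_univ k))
    have h1 : (fun k => c₀ (i k) b) = fun k => a b.card ((b.orderIsoOfFin rfl).symm ⟨i k, hmem k⟩) := by
      funext k
      simp only [c₀, dif_pos (hmem k)]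
    rw [h1]
    refine ha n b.card (fun k => (b.orderIsoOfFin rfl).symm ⟨i k, hmem k⟩) ?_
    intro k l hkl
    exact (b.orderIsoOfFin rfl).symm.strictMono (hi hkl)
  constructor
  · intro s t
    have h1 := Language.Ultraproduct.realize_formula_cast (M := fun _ : Finset I => M) (u := U)
      (Language.Term.equal s t) (fun k => c₀ (i k))
    simp only [Language.Formula.realize_equal] at h1
    refine Iff.trans h1 ⟨?_, ?_⟩
    · intro h
      obtain ⟨b, hb1, hb2⟩ := (h.and hlarge).exists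
      exact (hb2.1 s t).1 hb1
    · intro h
      filter_upwards [hlarge] with b hb
      exact (hb.1 s t).2 h
  · intro m r ts
    have h1 := Language.Ultraproduct.realize_formula_cast (M := fun _ : Finset I => M) (u := U)
      (r.formula ts) (fun k => c₀ (i k))
    simp only [Language.Formula.realize_rel] at h1
    refine Iff.trans h1 ⟨?_, ?_⟩
    · intro h
      obtain ⟨b, hb1, hb2⟩ := (h.and hlarge).exists
      exact (hb2.2 m r ts).1 hb1
    · intro h
      filter_upwards [hlarge] with b hb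
      exact (hb.2 m r ts).2 h

theorem AtEq.of_embedding {A B : Type u} [L.Structure A] [L.Structure B] (f : A ↪[L] B)
    {Q : Type w} (v : Q → A) : AtEq L v (fun q => f (v q)) := by
  constructor
  · intro s t
    have h1 : ∀ s : L.Term Q, s.realize (fun q => f (v q)) = f (s.realize v) := fun s =>
      Language.HomClass.realize_term f (t := s) (v := v)
    rw [h1, h1]
    exact f.injective.eq_iff.symm
  · intro n r ts
    have h1 : ∀ s : L.Term Q, s.realize (fun q => f (v q)) = f (s.realize v) := fun s =>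
      Language.HomClass.realize_term f (t := s) (v := v)
    simp only [h1]
    exact (f.map_rel r (fun k => (ts k).realize v)).symm

theorem AtEq.of_sub {A : Type u} [L.Structure A] {S : L.Substructure A}
    {Q : Type w} (v : Q → S) : AtEq L v (fun q => (v q : A)) :=
  AtEq.of_embedding S.subtype v

theorem exists_isEM [Nonempty M] {a : ∀ n : ℕ, Fin n → M} (ha : IsTemplate L a) (I : Type u)
    [LinearOrder I] : ∃ (N : Type u) (_ : L.Structure N) (c : I → N), IsEM L a c ∧
      Language.Substructure.closure L (Set.range c) = ⊤ := by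
  obtain ⟨N, hN, c, hc⟩ := exists_isEM_aux ha I
  refine ⟨Language.Substructure.closure L (Set.range c), inferInstance,
    fun i => ⟨c i, Language.Substructure.subset_closure ⟨i, rfl⟩⟩, ?_, ?_⟩
  · intro n i hi
    exact (AtEq.of_sub _).trans (hc n i hi)
  · refine Language.Substructure.map_injective_of_injective
      (f := (Language.Substructure.closure L (Set.range c)).subtype.toHom)
      (Language.Substructure.subtype_injective _) ?_
    rw [Language.Substructure.map_closure, ← Language.Hom.range_eq_map,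
      Language.Substructure.range_subtype]
    congr 1
    ext x
    simp

/-- The order pattern lemma. -/
theorem IsEM.pattern {a : ∀ n : ℕ, Fin n → M} {I I' : Type u} [LinearOrder I] [LinearOrder I']
    {N' : Type u} [L.Structure N'] {c : I → N} {c' : I' → N'} (hc : IsEM L a c)
    (hc' : IsEM L a c') {Q : Type w} (w : Q → I) (w' : Q → I')
    (hw : ∀ p q, w p ≤ w q ↔ w' p ≤ w' q) : AtEq L (fun q => c (w q)) (fun q => c' (w' q)) := by
  classical
  refine AtEq.of_finite fun s => ?_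
  let F : Finset I := s.image w
  let e : Fin F.card ↪o I := F.orderEmbOfFin rfl
  have he : ∀ k, ∃ q ∈ s, w q = e k := fun k => by
    have := Finset.mem_image.1 (F.orderEmbOfFin_mem rfl k)
    obtain ⟨q, h1, h2⟩ := this
    exact ⟨q, h1, h2⟩
  choose q hqs hq using he
  have hlt : ∀ p q, w p < w q ↔ w' p < w' q := fun p q => by
    rw [← not_le, ← not_le, hw]
  have heq : ∀ p q, w p = w q ↔ w' p = w' q := fun p q => by
    rw [le_antisymm_iff, le_antisymm_iff, hw, hw]
  have hσ : ∀ p : s, ∃ k, e k = w p.1 := fun p => by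
    have : w p.1 ∈ (F : Set I) := by simpa [F] using ⟨p.1, p.2, rfl⟩
    rw [← F.range_orderEmbOfFin rfl] at this
    exact this
  choose σ hσ using hσ
  have h1 : AtEq L (fun k => c (e k)) (a F.card) := hc _ e e.strictMono
  have h2 : AtEq L (fun k => c' (w' (q k))) (a F.card) := by
    refine hc' _ (fun k => w' (q k)) ?_
    intro k l hkl
    rw [← hlt, hq, hq]
    exact e.strictMono hkl
  have h3 := (h1.trans h2.symm).comp σ
  have h4 : (fun k => c (e k)) ∘ σ = fun p : s => c (w p.1) := by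
    funext p
    simp only [Function.comp, hσ]
  have h5 : (fun k => c' (w' (q k))) ∘ σ = fun p : s => c' (w' p.1) := by
    funext p
    simp only [Function.comp]
    congr 1
    rw [← heq, hq, hσ]
  rw [h4, h5] at h3
  exact h3

end EM

end Vale.Agent.P307
end
end

section

section

universe u v w

open FirstOrder Cardinal Set

namespace Vale.Agent.P307

open Language.Structure

section reduct

variable {L L₁ : Language.{u, u}} (φ : L →ᴸ L₁) {M N : Type u} [L.Structure M] [L.Structure N]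
  [L₁.Structure M] [L₁.Structure N] [φ.IsExpansionOn M] [φ.IsExpansionOn N]

include φ in
theorem IsPI.reduct {R : Set (M × N)} (h : IsPI L₁ R) : IsPI L R where
  eq_iff := h.eq_iff
  fun_iff := by
    intro n f x hx q hq
    have := h.fun_iff (φ.onFunction f) x hx q hq
    rwa [φ.map_onFunction, φ.map_onFunction] at this
  rel_iff := by
    intro n r x hx
    have := h.rel_iff (φ.onRelation r) x hx
    rwa [φ.map_onRelation, φ.map_onRelation] at this

include φ in
theorem Good.reduct {μ : Cardinal.{u}} {R : Set (M × N)} (h : Good L₁ μ R) : Good L μ R := by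
  refine good_of_system {R | Good L₁ μ R} ?_ ?_ ?_ h
  · intro R hR
    exact ⟨hR.1.reduct φ, hR.2.1⟩
  · intro R hR A hA
    obtain ⟨R', h1, h2, h3⟩ := hR.exists_left A hA
    exact ⟨R', h2, h1, h3⟩
  · intro R hR A hA
    obtain ⟨R', h1, h2, h3⟩ := hR.exists_right A hA
    exact ⟨R', h2, h1, h3⟩

end reduct

section pattern

variable {L : Language.{u, u}} {M : Type u} [L.Structure M] {a : ∀ n : ℕ, Fin n → M}
  {I I' N N' : Type u} [LinearOrder I] [LinearOrder I'] [L.Structure N] [L.Structure N']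
  {c : I → N} {c' : I' → N'}

/-- The partial isomorphism induced by a partial order isomorphism. -/
def patGraph (L : Language.{u, u}) {I I' N N' : Type u} [L.Structure N] [L.Structure N']
    (c : I → N) (c' : I' → N') (W : Set (I × I')) : Set (N × N') :=
  termGraph L (fun p : W => c p.1.1) (fun p : W => c' p.1.2)

theorem patGraph_mono {W W' : Set (I × I')} (h : W ⊆ W') :
    patGraph L c c' W ⊆ patGraph L c c' W' := by
  rintro _ ⟨t, rfl⟩
  refine ⟨t.relabel (Set.inclusion h), ?_⟩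
  simp only [Language.Term.realize_relabel]
  rfl

theorem isPI_patGraph (hc : IsEM L a c) (hc' : IsEM L a c') {W : Set (I × I')} (hW : OrdPat W) :
    IsPI L (patGraph L c c' W) :=
  AtEq.isPI (IsEM.pattern hc hc' (fun p : W => p.1.1) (fun p : W => p.1.2)
    (fun p q => hW _ p.2 _ q.2))

theorem mk_patGraph_le {μ : Cardinal.{u}} (hμ : ℵ₀ ≤ μ) (hL : L.card ≤ μ) {W : Set (I × I')}
    (hW : #W ≤ μ) : #(patGraph L c c' W) ≤ μ :=
  mk_range_le.trans (mk_term_le hμ hL W hW)

theorem exists_term_of_top (hc : Language.Substructure.closure L (Set.range c) = ⊤) (x : N) :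
    ∃ t : L.Term I, t.realize c = x := by
  have hx : x ∈ Language.Substructure.closure L (Set.range c) := by rw [hc]; trivial
  obtain ⟨t, ht⟩ := Language.Substructure.mem_closure_iff_exists_term.1 hx
  refine ⟨t.relabel (fun y => y.2.choose), ?_⟩
  rw [Language.Term.realize_relabel, ← ht]
  congr 1
  funext y
  exact y.2.choose_spec

theorem exists_cover {μ : Cardinal.{u}} (hμ : ℵ₀ ≤ μ)
    (hctop : Language.Substructure.closure L (Set.range c) = ⊤) (A : Set N) (hA : #A ≤ μ) :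
    ∃ V : Set I, #V ≤ μ ∧ ∀ x ∈ A, ∃ t : L.Term I, t.realize c = x ∧
      ∀ v, (by classical exact v ∈ t.varFinset) → v ∈ V := by
  classical
  choose t ht using exists_term_of_top (c := c) hctop
  refine ⟨⋃ x : A, ((t x.1).varFinset : Set I), ?_, fun x hx => ⟨t x, ht x, fun v hv => ?_⟩⟩
  · refine (mk_iUnion_le _).trans ?_
    calc _ ≤ μ * μ := by
          refine mul_le_mul' hA (ciSup_le' fun x => ?_)
          exact ((lt_aleph0_of_finite _).le).trans hμ
      _ = μ := mul_eq_self hμ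
  · exact Set.mem_iUnion.2 ⟨⟨x, hx⟩, by simpa using hv⟩

theorem patGraph_left {μ : Cardinal.{u}} (hμ : ℵ₀ ≤ μ) (hI' : Nice μ I')
    (hctop : Language.Substructure.closure L (Set.range c) = ⊤) {W : Set (I × I')} (hW : OrdPat W)
    (hWμ : #W ≤ μ) (A : Set N) (hA : #A ≤ μ) :
    ∃ W' : Set (I × I'), W ⊆ W' ∧ OrdPat W' ∧ #W' ≤ μ ∧
      ∀ x ∈ A, ∃ y, (x, y) ∈ patGraph L c c' W' := by
  classical
  obtain ⟨V, hV, hVA⟩ := exists_cover hμ hctop A hA
  obtain ⟨W', h1, h2, h3, h4⟩ := hW.exists_extend hμ hI' hWμ V hV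
  refine ⟨W', h1, h2, h3, fun x hx => ?_⟩
  obtain ⟨t, ht, htV⟩ := hVA x hx
  have h5 : ∀ v : t.varFinset, ∃ y, (v.1, y) ∈ W' := fun v => h4 v.1 (htV v.1 (by simpa using v.2))
  choose y hy using h5
  refine ⟨_, t.restrictVar (fun v => ⟨(v.1, y v), hy v⟩), Prod.ext ?_ rfl⟩
  show (t.restrictVar (fun v => (⟨(v.1, y v), hy v⟩ : W'))).realize (fun p : W' => c p.1.1) = x
  refine (Language.Term.realize_restrictVar (v := fun p : W' => c p.1.1) c ?_).trans ht
  intro v
  rfl

theorem patGraph_swap (W : Set (I × I')) :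
    patGraph L c' c (Prod.swap ⁻¹' W) = Prod.swap ⁻¹' (patGraph L c c' W) := by
  ext ⟨x, y⟩
  constructor
  · rintro ⟨t, ht⟩
    refine ⟨t.relabel (fun p => ⟨p.1.swap, p.2⟩), ?_⟩
    simp only [Language.Term.realize_relabel, Prod.swap_prod_mk]
    simp only [Prod.mk.injEq] at ht
    exact Prod.ext ht.2 ht.1
  · rintro ⟨t, ht⟩
    refine ⟨t.relabel (fun p => ⟨p.1.swap, by simpa using p.2⟩), ?_⟩
    simp only [Language.Term.realize_relabel]
    simp only [Prod.swap_prod_mk, Prod.mk.injEq] at ht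
    exact Prod.ext ht.2 ht.1

theorem patGraph_right {μ : Cardinal.{u}} (hμ : ℵ₀ ≤ μ) (hI : Nice μ I)
    (hctop' : Language.Substructure.closure L (Set.range c') = ⊤) {W : Set (I × I')}
    (hW : OrdPat W) (hWμ : #W ≤ μ) (B : Set N') (hB : #B ≤ μ) :
    ∃ W' : Set (I × I'), W ⊆ W' ∧ OrdPat W' ∧ #W' ≤ μ ∧
      ∀ y ∈ B, ∃ x, (x, y) ∈ patGraph L c c' W' := by
  have hsw : ∀ {J J' : Type u} (W : Set (J × J')), #(Prod.swap ⁻¹' W : Set (J' × J)) = #W :=
    fun W => mk_congr ((Equiv.prodComm _ _).subtypeEquiv (fun _ => Iff.rfl))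
  obtain ⟨W', h1, h2, h3, h4⟩ := patGraph_left (c := c') (c' := c) hμ hI hctop' hW.swap
    ((hsw W).trans_le hWμ) B hB
  refine ⟨Prod.swap ⁻¹' W', fun p hp => h1 (a := p.swap) hp, h2.swap, (hsw W').trans_le h3,
    fun y hy => ?_⟩
  obtain ⟨x, hx⟩ := h4 y hy
  refine ⟨x, ?_⟩
  rw [patGraph_swap]
  exact hx

/-- In nice EM models the `L_{∞,μ⁺}`-type is determined by the terms and the order pattern. -/
theorem eqS_of_pattern {μ : Cardinal.{u}} (hμ : ℵ₀ ≤ μ) (hL : L.card ≤ μ) (hc : IsEM L a c)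
    (hc' : IsEM L a c') (hctop : Language.Substructure.closure L (Set.range c) = ⊤)
    (hctop' : Language.Substructure.closure L (Set.range c') = ⊤) (hI : Nice μ I) (hI' : Nice μ I')
    {Q : Type u} (hQ : #Q ≤ μ) (w : Q → I) (w' : Q → I') (hw : ∀ p q, w p ≤ w q ↔ w' p ≤ w' q)
    {ι : Type u} (s : ι → L.Term Q) :
    EqS L μ (fun i => (s i).realize (fun q => c (w q))) (fun i => (s i).realize (fun q => c' (w' q))) := by
  refine good_of_system {R | ∃ W : Set (I × I'), OrdPat W ∧ #W ≤ μ ∧ R ⊆ patGraph L c c' W}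
    ?_ ?_ ?_ ?_
  · rintro R ⟨W, h1, h2, h3⟩
    exact ⟨(isPI_patGraph hc hc' h1).mono h3, (mk_le_mk_of_subset h3).trans (mk_patGraph_le hμ hL h2)⟩
  · rintro R ⟨W, h1, h2, h3⟩ A hA
    obtain ⟨W', h4, h5, h6, h7⟩ := patGraph_left (L := L) (c := c) (c' := c') hμ hI' hctop h1 h2 A hA
    exact ⟨_, ⟨W', h5, h6, Subset.rfl⟩, h3.trans (patGraph_mono h4), h7⟩
  · rintro R ⟨W, h1, h2, h3⟩ A hA
    obtain ⟨W', h4, h5, h6, h7⟩ := patGraph_right (L := L) (c := c) (c' := c') hμ hI hctop' h1 h2 A hA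
    exact ⟨_, ⟨W', h5, h6, Subset.rfl⟩, h3.trans (patGraph_mono h4), h7⟩
  · refine ⟨Set.range (fun q => (w q, w' q)), ?_, mk_range_le.trans hQ, ?_⟩
    · rintro _ ⟨p, rfl⟩ _ ⟨q, rfl⟩
      exact hw p q
    · rintro _ ⟨i, rfl⟩
      refine ⟨(s i).relabel (fun q => ⟨(w q, w' q), ⟨q, rfl⟩⟩), ?_⟩
      simp only [Language.Term.realize_relabel]
      rfl

end pattern

end Vale.Agent.P307
end
end

section

section

universe u v w

open FirstOrder Cardinal Set

namespace Vale.Agent.P307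

open Language.Structure

/-- A nice EM model with template `a`, with its `L`-reduct. -/
structure EMM {L L₁ : Language.{u, u}} (φ : L →ᴸ L₁) {M₀ : Type u} [L₁.Structure M₀]
    (a : ∀ n : ℕ, Fin n → M₀) (ν : Cardinal.{u}) where
  I : Type u
  [ord : LinearOrder I]
  ne : Nonempty I
  N : Type u
  [str : L.Structure N]
  [str₁ : L₁.Structure N]
  exp : φ.IsExpansionOn N
  c : I → N
  isEM : IsEM L₁ a c
  top : Language.Substructure.closure L₁ (Set.range c) = ⊤
  nice : Nice ν I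

attribute [instance] EMM.ord EMM.str EMM.str₁

section

variable {L L₁ : Language.{u, u}} {φ : L →ᴸ L₁} {M₀ : Type u} [L₁.Structure M₀]
  {a : ∀ n : ℕ, Fin n → M₀}

/-- The sequence coded by terms `s` and indices `w`. -/
def EMM.seq {ν : Cardinal.{u}} (E : EMM φ a ν) {ι Q : Type u} (s : ι → L₁.Term Q) (w : Q → E.I) :
    ι → E.N := fun i => (s i).realize (fun q => E.c (w q))

/-- The order pattern of `w`. -/
def pat {Q J : Type u} [LE J] (w : Q → J) : Set (Q × Q) := {p | w p.1 ≤ w p.2}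

theorem EMM.eqS {ν μ : Cardinal.{u}} (hμ : ℵ₀ ≤ μ) (hL : L₁.card ≤ μ) {ν' : Cardinal.{u}}
    (E : EMM φ a ν) (E' : EMM φ a ν') (hν : μ ≤ ν) (hν' : μ ≤ ν') {Q : Type u} (hQ : #Q ≤ μ)
    (w : Q → E.I) (w' : Q → E'.I) (h : pat w = pat w') {ι : Type u} (s : ι → L₁.Term Q) :
    EqS L μ (E.seq s w) (E'.seq s w') := by
  have h1 : EqS L₁ μ (E.seq s w) (E'.seq s w') :=
    eqS_of_pattern hμ hL E.isEM E'.isEM E.top E'.top (E.nice.mono hν) (E'.nice.mono hν') hQ w w'
      (fun p q => Set.ext_iff.1 h (p, q)) s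
  haveI := E.exp
  haveI := E'.exp
  exact Good.reduct φ h1

theorem EMM.exists_seq {ν μ : Cardinal.{u}} (hμ : ℵ₀ ≤ μ) (E : EMM φ a ν) {ι Q : Type u}
    (hι : #ι ≤ μ) (hQ : #Q = μ) (d : ι → E.N) :
    ∃ (s : ι → L₁.Term Q) (w : Q → E.I), d = E.seq s w := by
  classical
  obtain ⟨V, hV, hVd⟩ := exists_cover hμ E.top (Set.range d) (mk_range_le.trans hι)
  rw [← hQ] at hV
  obtain ⟨e⟩ := (Cardinal.le_def _ _).1 hV
  have hterm : ∀ i, ∃ t : L₁.Term E.I, t.realize E.c = d i ∧ ∀ v ∈ t.varFinset, v ∈ V := by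
    intro i
    obtain ⟨t, h1, h2⟩ := hVd (d i) ⟨i, rfl⟩
    exact ⟨t, h1, fun v hv => h2 v (by simpa using hv)⟩
  choose t ht htV using hterm
  haveI := E.ne
  let w : Q → E.I := fun q => if h : ∃ v, e v = q then (h.choose : V).1 else Classical.arbitrary E.I
  have hw : ∀ v : V, w (e v) = v.1 := by
    intro v
    have h : ∃ v', e v' = e v := ⟨v, rfl⟩
    simp only [w, dif_pos h]
    rw [e.injective h.choose_spec]
  refine ⟨fun i => (t i).restrictVar (fun v => e ⟨v.1, htV i v.1 v.2⟩), w, ?_⟩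
  funext i
  rw [← ht i]
  refine (Language.Term.realize_restrictVar (v := fun q => E.c (w q)) E.c ?_).symm
  intro v
  rw [hw]

/-- Codes of `ι`-sequences. -/
abbrev Code (L₁ : Language.{u, u}) (ι Q : Type u) : Type u := (ι → L₁.Term Q) × Set (Q × Q)

/-- Two codes are `ν`-equivalent. -/
def Rel (φ : L →ᴸ L₁) (a : ∀ n : ℕ, Fin n → M₀) (ν : Cardinal.{u}) {ι Q : Type u}
    (x y : Code L₁ ι Q) : Prop :=
  ∃ (E E' : EMM φ a ν) (w : Q → E.I) (w' : Q → E'.I), pat w = x.2 ∧ pat w' = y.2 ∧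
    EqS L ν (E.seq x.1 w) (E'.seq y.1 w')

theorem Rel.mono {ν ν' : Cardinal.{u}} (hν : ℵ₀ ≤ ν) (h : ν ≤ ν') {ι Q : Type u} (hι : #ι ≤ ν)
    {x y : Code L₁ ι Q} (hxy : Rel φ a ν' x y) : Rel φ a ν x y := by
  obtain ⟨E, E', w, w', h1, h2, h3⟩ := hxy
  let F : EMM φ a ν := { E with nice := E.nice.mono h }
  let F' : EMM φ a ν := { E' with nice := E'.nice.mono h }
  exact ⟨F, F', w, w', h1, h2, EqS.mono hν h h3 hι⟩

theorem Rel.eqS {ν : Cardinal.{u}} (hν : ℵ₀ ≤ ν) (hL : L₁.card ≤ ν) {ι Q : Type u} (hQ : #Q ≤ ν)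
    {x y : Code L₁ ι Q} (hxy : Rel φ a ν x y) (E E' : EMM φ a ν) (w : Q → E.I) (w' : Q → E'.I)
    (hw : pat w = x.2) (hw' : pat w' = y.2) : EqS L ν (E.seq x.1 w) (E'.seq y.1 w') := by
  obtain ⟨F, F', v, v', h1, h2, h3⟩ := hxy
  have h4 := EMM.eqS hν hL E F le_rfl le_rfl hQ w v (hw.trans h1.symm) x.1
  have h5 := EMM.eqS hν hL F' E' le_rfl le_rfl hQ v' w' (h2.trans hw'.symm) y.1
  exact (h4.trans h3).trans h5

/-- The relations `Rel ν` are eventually constant. -/
theorem exists_stab (φ : L →ᴸ L₁) (a : ∀ n : ℕ, Fin n → M₀) (ι Q : Type u) (ν₀ : Cardinal.{u})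
    (hν₀ : ℵ₀ ≤ ν₀) (hι : #ι ≤ ν₀) :
    ∃ α, ν₀ ≤ α ∧ ∀ x y : Code L₁ ι Q, Rel φ a α x y → ∀ ν, α ≤ ν → Rel φ a ν x y := by
  classical
  let f : Code L₁ ι Q × Code L₁ ι Q → Cardinal.{u} := fun p =>
    if h : ∃ ν, ν₀ ≤ ν ∧ ¬ Rel φ a ν p.1 p.2 then h.choose else ν₀
  refine ⟨max ν₀ (⨆ p, f p), le_max_left _ _, fun x y hxy ν hν => ?_⟩
  by_contra hcon
  have h : ∃ ν, ν₀ ≤ ν ∧ ¬ Rel φ a ν x y := ⟨ν, (le_max_left _ _).trans hν, hcon⟩
  have hf : f (x, y) = h.choose := dif_pos h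
  have h1 : h.choose ≤ max ν₀ (⨆ p, f p) := by
    rw [← hf]
    exact (le_ciSup (f := f) bddAbove_of_small (x, y)).trans (le_max_right _ _)
  exact h.choose_spec.2 (hxy.mono (hν₀.trans h.choose_spec.1) h1 (hι.trans h.choose_spec.1))

/-- `M` is `L_{∞,ν⁺}`-equivalent to a nice EM model. -/
def Std (φ : L →ᴸ L₁) (a : ∀ n : ℕ, Fin n → M₀) (ν : Cardinal.{u}) (M : Type u)
    [L.Structure M] : Prop :=
  ∃ E : EMM φ a ν, Good L ν (∅ : Set (M × E.N))

theorem Std.good_empty {ν : Cardinal.{u}} (hν : ℵ₀ ≤ ν) (hL : L₁.card ≤ ν) {M M' : Type u}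
    [L.Structure M] [L.Structure M'] (h : Std φ a ν M) (h' : Std φ a ν M') :
    Good L ν (∅ : Set (M × M')) := by
  obtain ⟨E, hE⟩ := h
  obtain ⟨E', hE'⟩ := h'
  have h1 : Good L ν (∅ : Set (E.N × E'.N)) := by
    refine Good.subset (EMM.eqS (Q := PEmpty) (ι := PEmpty) hν hL E E' le_rfl le_rfl (by simp)
      PEmpty.elim PEmpty.elim ?_ PEmpty.elim) (empty_subset _)
    ext ⟨p, q⟩
    exact p.elim
  have h2 := (hE.comp h1).comp (Good.swap hE')
  exact h2.subset (empty_subset _)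

/-- Stabilization for models. -/
theorem Std.stab {ι Q : Type u} {α : Cardinal.{u}} (hα : ℵ₀ ≤ α) (hL : L₁.card ≤ α) (hQ : #Q ≤ α)
    (hQ0 : ℵ₀ ≤ #Q) (hι : #ι ≤ #Q)
    (hst : ∀ x y : Code L₁ ι Q, Rel φ a α x y → ∀ ν, α ≤ ν → Rel φ a ν x y)
    {ν : Cardinal.{u}} (hν : α ≤ ν) {M M' : Type u} [L.Structure M] [L.Structure M']
    (h : Std φ a ν M) (h' : Std φ a ν M') {b : ι → M} {b' : ι → M'} (hb : EqS L α b b') :
    EqS L ν b b' := by
  obtain ⟨E, hE⟩ := h
  obtain ⟨E', hE'⟩ := h'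
  have hιν : #ι ≤ ν := (hι.trans hQ).trans hν
  obtain ⟨d, hd⟩ := EqS.exists_of_empty hE hιν b
  obtain ⟨d', hd'⟩ := EqS.exists_of_empty hE' hιν b'
  obtain ⟨s, w, rfl⟩ := E.exists_seq hQ0 hι rfl d
  obtain ⟨s', w', rfl⟩ := E'.exists_seq hQ0 hι rfl d'
  have h1 : EqS L α (E.seq s w) (E'.seq s' w') :=
    ((hd.symm.mono hα hν (hι.trans hQ)).trans hb).trans (hd'.mono hα hν (hι.trans hQ))
  have h2 : Rel φ a α (s, pat w) (s', pat w') := by
    let F : EMM φ a α := { E with nice := E.nice.mono hν }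
    let F' : EMM φ a α := { E' with nice := E'.nice.mono hν }
    exact ⟨F, F', w, w', rfl, rfl, h1⟩
  have h3 := (hst _ _ h2 ν hν).eqS (hα.trans hν) (hL.trans hν) (hQ.trans hν) E E' w w' rfl rfl
  exact (hd.trans h3).trans hd'.symm

end

end Vale.Agent.P307
end
end

section

section

universe u

namespace Vale.Agent.P307

open FirstOrder Language Cardinal

variable {L : Language.{u, u}}

namespace AEC

variable (K : AEC L)

section emb

variable {M N P : Type u} [L.Structure M] [L.Structure N] [L.Structure P]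

/-- strong embeddings -/
def Emb (f : M ↪[L] N) : Prop := K.le f.toHom.range

variable {K}

theorem Emb.mem_left {f : M ↪[L] N} (h : K.Emb f) : K.mem M :=
  K.mem_iso f.equivRange.symm (K.mem_of_le _ h).1

theorem Emb.mem_right {f : M ↪[L] N} (h : K.Emb f) : K.mem N := (K.mem_of_le _ h).2

theorem Emb.of_equiv (e : M ≃[L] N) (h : K.mem M) : K.Emb e.toEmbedding := by
  have := K.le_refl (K.mem_iso e h)
  unfold Emb
  rw [Equiv.toEmbedding_toHom, Equiv.toHom_range]
  exact this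

theorem Emb.comp {f : M ↪[L] N} {g : N ↪[L] P} (hg : K.Emb g) (hf : K.Emb f) :
    K.Emb (g.comp f) := by
  have h1 := K.le_iso g.equivRange f.toHom.range hf
  have h2 := K.le_trans _ _ h1 hg
  unfold Emb
  convert h2 using 1
  ext x
  constructor
  · rintro ⟨y, hy⟩
    exact ⟨g.equivRange (f y), ⟨f y, ⟨y, rfl⟩, rfl⟩, hy⟩
  · rintro ⟨y, ⟨z, ⟨w, hw⟩, hz⟩, hy⟩
    refine ⟨w, ?_⟩
    rw [← hy, ← hz, ← hw]
    rfl

theorem Emb.of_comp {f : M ↪[L] N} {g : N ↪[L] P} (hg : K.Emb g) (hgf : K.Emb (g.comp f)) :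
    K.Emb f := by
  have h1 : (g.comp f).toHom.range ≤ g.toHom.range := by
    rintro x ⟨y, hy⟩
    exact ⟨f y, hy⟩
  have h2 := K.coherence _ _ h1 hgf hg
  have h3 := K.le_iso g.equivRange.symm _ h2
  unfold Emb
  convert h3 using 1
  ext x
  constructor
  · rintro ⟨y, hy⟩
    refine ⟨g.equivRange x, ⟨y, ?_⟩, ?_⟩
    · rw [← hy]; rfl
    · exact g.equivRange.symm_apply_apply x
  · rintro ⟨y, ⟨z, hz⟩, hy⟩
    refine ⟨z, ?_⟩
    have h4 : y = g.equivRange (f z) := by
      apply Subtype.ext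
      rw [Embedding.equivRange_apply]
      exact hz.symm
    have h5 : g.equivRange.symm y = x := hy
    rw [h4, g.equivRange.symm_apply_apply] at h5
    exact h5

end emb

section sle

variable {M N P : Type u} [L.Structure M] [L.Structure N] [L.Structure P]

/-- `S` is a strong submodel of `T`, both being substructures of a common structure. -/
def sle (S T : L.Substructure N) : Prop := ∃ h : S ≤ T, K.Emb (Substructure.inclusion h)

variable {K}

theorem emb_subtype {S : L.Substructure N} : K.Emb S.subtype ↔ K.le S := by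
  unfold Emb
  rw [Substructure.range_subtype]

theorem comap_subtype_eq {S T : L.Substructure N} (h : S ≤ T) :
    S.comap T.subtype.toHom = (Substructure.inclusion h).toHom.range := by
  ext x
  constructor
  · intro hx
    exact ⟨⟨x, hx⟩, rfl⟩
  · rintro ⟨y, hy⟩
    rw [← hy]
    exact y.2

theorem sle_iff {S T : L.Substructure N} (h : S ≤ T) :
    K.sle S T ↔ K.le (S.comap T.subtype.toHom) := by
  rw [comap_subtype_eq h]
  exact ⟨fun ⟨_, h2⟩ => h2, fun h2 => ⟨h, h2⟩⟩

theorem sle.mem_right {S T : L.Substructure N} (h : K.sle S T) : K.mem T := h.2.mem_right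

theorem sle.trans {S T U : L.Substructure N} (h1 : K.sle S T) (h2 : K.sle T U) : K.sle S U :=
  ⟨h1.1.trans h2.1, Emb.comp h2.2 h1.2⟩

theorem sle.coh {S T U : L.Substructure N} (h : S ≤ T) (h1 : K.sle S U) (h2 : K.sle T U) :
    K.sle S T := by
  refine ⟨h, Emb.of_comp (g := Substructure.inclusion h2.1) h2.2 ?_⟩
  exact h1.2

theorem sle_top {S : L.Substructure N} (hN : K.mem N) : K.sle S ⊤ ↔ K.le S := by
  have ht : K.mem (⊤ : L.Substructure N) := K.mem_iso Substructure.topEquiv.symm hN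
  have h1 : K.Emb (Substructure.topEquiv (L := L) (M := N)).toEmbedding := Emb.of_equiv _ ht
  rw [← emb_subtype]
  constructor
  · rintro ⟨h, h2⟩
    exact Emb.comp h1 h2
  · intro h
    refine ⟨le_top, Emb.of_comp h1 h⟩

theorem sle_of_le_le {S T : L.Substructure N} (h : S ≤ T) (hS : K.le S) (hT : K.le T) :
    K.sle S T := by
  have hN := (K.mem_of_le _ hS).2
  exact sle.coh h ((sle_top hN).2 hS) ((sle_top hN).2 hT)

theorem sle.le_of_le {S T : L.Substructure N} (h : K.sle S T) (hT : K.le T) : K.le S := by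
  have hN := (K.mem_of_le _ hT).2
  exact (sle_top hN).1 (h.trans ((sle_top hN).2 hT))

/-- transport of `sle` along an embedding of the ambient structures -/
theorem sle_map (f : M ↪[L] N) {S T : L.Substructure M} :
    K.sle (S.map f.toHom) (T.map f.toHom) ↔ K.sle S T := by
  have hle : S.map f.toHom ≤ T.map f.toHom ↔ S ≤ T :=
    Substructure.map_le_map_iff_of_injective (f := f.toHom) f.injective
  constructor
  · rintro ⟨h, h2⟩
    refine ⟨hle.1 h, ?_⟩
    have hT : K.mem T := K.mem_iso (f.substructureEquivMap T).symm h2.mem_right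
    have hS : K.mem S := K.mem_iso (f.substructureEquivMap S).symm h2.mem_left
    have h3 : K.Emb (f.substructureEquivMap T).toEmbedding := Emb.of_equiv _ hT
    have h4 : K.Emb (f.substructureEquivMap S).toEmbedding := Emb.of_equiv _ hS
    have h5 : K.Emb ((Substructure.inclusion h).comp (f.substructureEquivMap S).toEmbedding) :=
      Emb.comp h2 h4
    have h6 : (Substructure.inclusion h).comp (f.substructureEquivMap S).toEmbedding =
        (f.substructureEquivMap T).toEmbedding.comp (Substructure.inclusion (hle.1 h)) := by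
      apply Embedding.ext
      intro x
      apply Subtype.ext
      rfl
    rw [h6] at h5
    exact Emb.of_comp h3 h5
  · rintro ⟨h, h2⟩
    refine ⟨hle.2 h, ?_⟩
    have hT : K.Emb (f.substructureEquivMap T).toEmbedding := Emb.of_equiv _ h2.mem_right
    have h3 : K.mem (S.map f.toHom) := K.mem_iso (f.substructureEquivMap S) h2.mem_left
    have hS : K.Emb (f.substructureEquivMap S).symm.toEmbedding := Emb.of_equiv _ h3
    have h4 := Emb.comp (Emb.comp hT h2) hS
    convert h4 using 1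
    apply Embedding.ext
    intro x
    apply Subtype.ext
    have hz : f.substructureEquivMap S ((f.substructureEquivMap S).symm x) = x :=
      Equiv.apply_symm_apply _ x
    have hz2 := congrArg Subtype.val hz
    exact hz2.symm

theorem sle_comap_subtype {U S T : L.Substructure N} (hS : S ≤ U) (hT : T ≤ U) :
    K.sle (S.comap U.subtype.toHom) (T.comap U.subtype.toHom) ↔ K.sle S T := by
  have key : ∀ {S : L.Substructure N}, S ≤ U →
      (S.comap U.subtype.toHom).map U.subtype.toHom = S := by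
    intro S hS
    ext x
    constructor
    · rintro ⟨y, hy, rfl⟩
      exact hy
    · intro hx
      exact ⟨⟨x, hS hx⟩, hx, rfl⟩
  rw [← sle_map U.subtype, key hS, key hT]

/-- chains: unions -/
theorem sle_chain {ι : Type u} [LinearOrder ι] [WellFoundedLT ι] [Nonempty ι]
    (F : ι → L.Substructure N) (h : ∀ i j, i ≤ j → K.sle (F i) (F j)) (i : ι) :
    K.sle (F i) (⨆ k, F k) := by
  have hm : Monotone F := fun i j hij => (h i j hij).1
  have key := K.chain_union (U := (⨆ k, F k : L.Substructure N))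
    (fun i => (F i).comap (⨆ k, F k).subtype.toHom)
    (fun i j hij => Substructure.monotone_comap (hm hij)) ?_ ?_
  · rw [sle_iff (le_iSup F i)]
    exact key.2 i
  · intro i j hij
    rw [← sle_iff (Substructure.monotone_comap (hm hij))]
    exact (sle_comap_subtype (le_iSup F i) (le_iSup F j)).2 (h i j hij)
  · rintro ⟨x, hx⟩
    rw [Substructure.mem_iSup_of_directed (directed_of_isDirected_le hm)] at hx
    obtain ⟨i, hi⟩ := hx
    exact ⟨i, hi⟩

theorem sle_chain_le {ι : Type u} [LinearOrder ι] [WellFoundedLT ι] [Nonempty ι]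
    (F : ι → L.Substructure N) (hm : Monotone F) (T : L.Substructure N)
    (h : ∀ i, K.sle (F i) T) : K.sle (⨆ k, F k) T := by
  have hle : (⨆ k, F k) ≤ T := iSup_le fun i => (h i).1
  rw [sle_iff hle]
  have h1 : ∀ i, K.le ((F i).comap T.subtype.toHom) := fun i => (sle_iff (h i).1).1 (h i)
  have h2 := K.chain_smooth (fun i => (F i).comap T.subtype.toHom)
    (fun i j hij => Substructure.monotone_comap (hm hij)) h1
  convert h2 using 1
  apply le_antisymm
  · intro x hx
    have hx' : (x : N) ∈ ⨆ k, F k := hx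
    rw [Substructure.mem_iSup_of_directed (directed_of_isDirected_le hm)] at hx'
    obtain ⟨i, hi⟩ := hx'
    exact (le_iSup (fun i => (F i).comap T.subtype.toHom) i) hi
  · exact iSup_le fun i => Substructure.monotone_comap (le_iSup F i)

end sle

end AEC

end Vale.Agent.P307
end
end

section

section

universe u

namespace Vale.Agent.P307

open FirstOrder Language Cardinal

variable {L : Language.{u, u}}

namespace AEC

variable {K : AEC L}

section directed

variable {N : Type u} [L.Structure N] {A : Type u}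

/-- union of the members of a family indexed by the finite subsets of `X` -/
def U (F : Finset A → L.Substructure N) (X : Set A) : L.Substructure N :=
  ⨆ t : {t : Finset A // (t : Set A) ⊆ X}, F t.1

theorem le_U {F : Finset A → L.Substructure N} {X : Set A} {t : Finset A}
    (ht : (t : Set A) ⊆ X) : F t ≤ U F X :=
  le_iSup (fun t : {t : Finset A // (t : Set A) ⊆ X} => F t.1) ⟨t, ht⟩

theorem U_mono {F : Finset A → L.Substructure N} {X Y : Set A} (h : X ⊆ Y) : U F X ≤ U F Y :=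
  iSup_le fun t => le_U (t.2.trans h)

theorem directed_aux (F : Finset A → L.Substructure N)
    (hF : ∀ s t, s ⊆ t → K.sle (F s) (F t)) :
    ∀ (c : Cardinal.{u}) (X : Set A), #X = c →
      (∀ s : Finset A, (s : Set A) ⊆ X → K.sle (F s) (U F X)) ∧
      (∀ T : L.Substructure N, (∀ s : Finset A, (s : Set A) ⊆ X → K.sle (F s) T) →
        K.sle (U F X) T) := by
  classical
  have hm : Monotone F := fun s t h => (hF s t h).1
  intro c
  induction c using WellFoundedLT.induction with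
  | ind c ih =>
  intro X hX
  rcases lt_or_ge c ℵ₀ with hc | hc
  · -- finite case
    have hfin : X.Finite := by
      rw [← hX] at hc
      exact Cardinal.lt_aleph0_iff_set_finite.1 hc
    obtain ⟨t, rfl⟩ := hfin.exists_finset_coe
    have hU : U F (t : Set A) = F t := by
      apply le_antisymm
      · exact iSup_le fun s => hm (by exact_mod_cast s.2)
      · exact le_U (_root_.le_refl _)
    rw [hU]
    refine ⟨fun s hs => hF s t (by exact_mod_cast hs), fun T hT => hT t (_root_.le_refl _)⟩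
  · have e : Nonempty (c.ord.ToType ≃ X) := by
      rw [← Cardinal.eq]
      simp [hX]
    obtain ⟨e⟩ := e
    have : NoMaxOrder c.ord.ToType := Cardinal.noMaxOrder hc
    have : Nonempty c.ord.ToType := by
      rw [← Cardinal.mk_ne_zero_iff]
      simp only [Cardinal.mk_toType, Cardinal.card_ord]
      exact (lt_of_lt_of_le Cardinal.aleph0_pos hc).ne'
    let Xa : c.ord.ToType → Set A := fun a => (fun b => (e b : A)) '' Set.Iio a
    have hXa : ∀ a, #(Xa a) < c := by
      intro a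
      refine lt_of_le_of_lt Cardinal.mk_image_le ?_
      have := Cardinal.mk_Iio_lt a (by simp)
      simpa using this
    have hXsub : ∀ a, Xa a ⊆ X := by
      rintro a _ ⟨b, _, rfl⟩
      exact (e b).2
    have hXmono : ∀ a b, a ≤ b → Xa a ⊆ Xa b := by
      intro a b hab
      exact Set.image_mono (Set.Iio_subset_Iio hab)
    have hcov : ∀ s : Finset A, (s : Set A) ⊆ X → ∃ a, (s : Set A) ⊆ Xa a := by
      intro s hs
      let s' : Finset c.ord.ToType := s.attach.image fun x => e.symm ⟨x.1, hs x.2⟩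
      obtain ⟨m, hm'⟩ := Finset.exists_le s'
      obtain ⟨a, ha⟩ := exists_gt m
      refine ⟨a, ?_⟩
      intro x hx
      refine ⟨e.symm ⟨x, hs hx⟩, ?_, by simp⟩
      refine lt_of_le_of_lt (hm' _ ?_) ha
      exact Finset.mem_image.2 ⟨⟨x, hx⟩, Finset.mem_attach _ _, rfl⟩
    have hG : ∀ a b, a ≤ b → K.sle (U F (Xa a)) (U F (Xa b)) := by
      intro a b hab
      refine (ih _ (hXa a) (Xa a) rfl).2 _ ?_
      intro s hs
      exact (ih _ (hXa b) (Xa b) rfl).1 s (hs.trans (hXmono a b hab))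
    have hsup : (⨆ a, U F (Xa a)) = U F X := by
      apply le_antisymm
      · exact iSup_le fun a => U_mono (hXsub a)
      · refine iSup_le fun t => ?_
        obtain ⟨a, ha⟩ := hcov t.1 t.2
        exact (le_U ha).trans (le_iSup (fun a => U F (Xa a)) a)
    constructor
    · intro s hs
      obtain ⟨a, ha⟩ := hcov s hs
      have h1 := (ih _ (hXa a) (Xa a) rfl).1 s ha
      have h2 := sle_chain (fun a => U F (Xa a)) hG a
      rw [hsup] at h2
      exact h1.trans h2
    · intro T hT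
      have h1 : ∀ a, K.sle (U F (Xa a)) T := by
        intro a
        refine (ih _ (hXa a) (Xa a) rfl).2 T ?_
        intro s hs
        exact hT s (hs.trans (hXsub a))
      have h2 := sle_chain_le (fun a => U F (Xa a)) (fun a b hab => (hG a b hab).1) T h1
      rw [hsup] at h2
      exact h2

theorem sle_U (F : Finset A → L.Substructure N)
    (hF : ∀ s t, s ⊆ t → K.sle (F s) (F t)) (X : Set A) {s : Finset A} (hs : (s : Set A) ⊆ X) :
    K.sle (F s) (U F X) :=
  (directed_aux F hF _ X rfl).1 s hs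

theorem U_sle (F : Finset A → L.Substructure N)
    (hF : ∀ s t, s ⊆ t → K.sle (F s) (F t)) (X : Set A) {T : L.Substructure N}
    (hT : ∀ s : Finset A, (s : Set A) ⊆ X → K.sle (F s) T) : K.sle (U F X) T :=
  (directed_aux F hF _ X rfl).2 T hT

end directed

end AEC

end Vale.Agent.P307
end
end

section

section

universe u

namespace Vale.Agent.P307

open FirstOrder Language Cardinal

variable {L : Language.{u, u}}

namespace AEC

variable {K : AEC L}

section dir

variable {N : Type u} [L.Structure N]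

theorem le_iSup_finset {X : Type u} (F : Finset X → L.Substructure N) (hm : Monotone F)
    (hF : ∀ a, K.le (F a)) : K.le (⨆ a, F a) := by
  have hN : K.mem N := (K.mem_of_le _ (hF ∅)).2
  have h1 : ∀ s t : Finset X, s ⊆ t → K.sle (F s) (F t) := fun s t h =>
    sle_of_le_le (hm h) (hF s) (hF t)
  have h2 := U_sle F h1 Set.univ (T := ⊤) (fun s _ => (sle_top hN).2 (hF s))
  rw [sle_top hN] at h2
  convert h2 using 1
  apply le_antisymm
  · exact iSup_le fun a => le_U (Set.subset_univ _)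
  · exact iSup_le fun a => le_iSup F a.1

theorem mem_of_finset_union {X : Type u} (F : Finset X → L.Substructure N) (hm : Monotone F)
    (hF : ∀ a b, a ≤ b → K.le ((F a).comap (F b).subtype.toHom)) (hu : ∀ x : N, ∃ a, x ∈ F a) :
    K.mem N ∧ ∀ a, K.le (F a) := by
  have h1 : ∀ s t : Finset X, s ⊆ t → K.sle (F s) (F t) := fun s t h =>
    (sle_iff (hm h)).2 (hF s t h)
  have h3 : U F Set.univ = ⊤ := by
    rw [eq_top_iff]
    intro x _
    obtain ⟨a, ha⟩ := hu x
    exact le_U (Set.subset_univ _) ha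
  have h2 : ∀ s : Finset X, K.sle (F s) ⊤ := fun s => by
    have := sle_U F h1 Set.univ (s := s) (Set.subset_univ (s : Set X))
    rwa [h3] at this
  have hN : K.mem N := K.mem_iso Substructure.topEquiv (h2 ∅).mem_right
  exact ⟨hN, fun a => (sle_top hN).1 (h2 a)⟩

/-- general directed families -/
theorem exists_mono_bound {ι : Type u} [Preorder ι] [IsDirectedOrder ι] [Nonempty ι] :
    ∃ g : Finset ι → ι, Monotone g ∧ ∀ s : Finset ι, ∀ i ∈ s, i ≤ g s := by
  classical
  have hb : ∀ s : Finset ι, ∃ m, ∀ i ∈ s, i ≤ m := fun s => Finset.exists_le s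
  choose b hb using hb
  let step : ∀ s : Finset ι, (∀ t : Finset ι, t < s → ι) → ι := fun s ih =>
    b (s ∪ s.powerset.attach.image fun t =>
      if h : t.1 < s then ih t.1 h else Classical.arbitrary ι)
  let g : Finset ι → ι := WellFounded.fix (wellFounded_lt (α := Finset ι)) step
  have hg : ∀ s, g s = step s (fun t _ => g t) := fun s => WellFounded.fix_eq _ _ _
  refine ⟨g, ?_, ?_⟩
  · intro s t hst
    rcases eq_or_lt_of_le hst with h | h
    · rw [h]
    · rw [hg t]
      apply hb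
      apply Finset.mem_union_right
      rw [Finset.mem_image]
      refine ⟨⟨s, Finset.mem_powerset.2 hst⟩, Finset.mem_attach _ _, ?_⟩
      simp [h]
  · intro s i hi
    rw [hg s]
    apply hb
    exact Finset.mem_union_left _ hi

theorem le_iSup_directed {ι : Type u} [Preorder ι] [IsDirectedOrder ι] [Nonempty ι]
    (F : ι → L.Substructure N) (hm : Monotone F) (hF : ∀ a, K.le (F a)) : K.le (⨆ a, F a) := by
  obtain ⟨g, hg, hg2⟩ := exists_mono_bound (ι := ι)
  have h := le_iSup_finset (fun s => F (g s)) (hm.comp hg) (fun s => hF _)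
  convert h using 1
  apply le_antisymm
  · refine iSup_le fun a => ?_
    exact (hm (hg2 {a} a (by simp))).trans (le_iSup (fun s => F (g s)) {a})
  · exact iSup_le fun s => le_iSup F (g s)

theorem mem_of_directed_union {ι : Type u} [Preorder ι] [IsDirectedOrder ι] [Nonempty ι]
    (F : ι → L.Substructure N) (hm : Monotone F)
    (hF : ∀ a b, a ≤ b → K.sle (F a) (F b)) (hu : ∀ x : N, ∃ a, x ∈ F a) :
    K.mem N ∧ ∀ a, K.le (F a) := by
  obtain ⟨g, hg, hg2⟩ := exists_mono_bound (ι := ι)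
  have h := mem_of_finset_union (K := K) (fun s => F (g s)) (hm.comp hg)
    (fun s t h => (sle_iff ((hm.comp hg) h)).1 (hF _ _ (hg h))) (by
      intro x
      obtain ⟨a, ha⟩ := hu x
      exact ⟨{a}, hm (hg2 {a} a (by simp)) ha⟩)
  refine ⟨h.1, fun a => ?_⟩
  exact (hF _ _ (hg2 {a} a (by simp))).le_of_le (h.2 {a})

end dir

theorem IsLS.mono {l l' : Cardinal.{u}} (h : K.IsLS l) (hl : l ≤ l') : K.IsLS l' := by
  refine ⟨h.1.trans hl, h.2.1.trans hl, fun N _ hN A => ?_⟩
  obtain ⟨S, h1, h2, h3⟩ := h.2.2 N hN A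
  exact ⟨S, h1, h2, h3.trans (add_le_add (_root_.le_refl _) hl)⟩

theorem isLS_LS (K : AEC L) : K.IsLS K.LS := by
  obtain ⟨l, h1, h2, h3⟩ := K.exists_ls
  have : K.LS ∈ {l | K.IsLS l} := csInf_mem ⟨l, h1, h2, fun N _ hN A => h3 hN A⟩
  exact this

theorem isLS_of_LS_le {l : Cardinal.{u}} (h : K.LS ≤ l) : K.IsLS l := (isLS_LS K).mono h

theorem mk_finset_le (α : Type u) {l : Cardinal.{u}} (hl : ℵ₀ ≤ l) (h : #α ≤ l) :
    #(Finset α) ≤ l := by
  rcases finite_or_infinite α with hf | hi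
  · have := Fintype.ofFinite α
    exact (Cardinal.lt_aleph0_of_finite _).le.trans hl
  · rw [Cardinal.mk_finset_of_infinite]
    exact h

section hull

variable {M : Type u} [L.Structure M] {l : Cardinal.{u}}

theorem exists_cl (hl : ℵ₀ ≤ l) (c : Finset M → Set M) (hc : ∀ F, #(c F) ≤ l) :
    ∃ cl : Set M → Set M, (∀ B : Set M, #B ≤ l → #(cl B) ≤ l) ∧
      ∀ B : Set M, ∀ F : Finset M, (F : Set M) ⊆ B → c F ⊆ cl B := by
  classical
  refine ⟨fun B => ⋃ F : Finset B, c (F.image Subtype.val), fun B hB => ?_, ?_⟩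
  · refine (Cardinal.mk_iUnion_le _).trans ?_
    refine (mul_le_mul' (mk_finset_le _ hl hB) (ciSup_le' fun F => hc _)).trans ?_
    exact (Cardinal.mul_eq_self hl).le
  · intro B F hF x hx
    refine Set.mem_iUnion.2 ⟨F.subtype (fun x => x ∈ B), ?_⟩
    have : (F.subtype (fun x => x ∈ B)).image Subtype.val = F := by
      ext y
      simp only [Finset.mem_image, Finset.mem_subtype]
      constructor
      · rintro ⟨z, hz, rfl⟩
        exact hz
      · intro hy
        exact ⟨⟨y, hF hy⟩, hy, rfl⟩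
    rw [this]
    exact hx

theorem exists_closed_le (hK : K.IsLS l) (hM : K.mem M) (c : Finset M → Set M)
    (hc : ∀ F, #(c F) ≤ l) (A : Set M) (hA : #A ≤ l) :
    ∃ S : L.Substructure M, K.le S ∧ A ⊆ S ∧ #S ≤ l ∧
      ∀ F : Finset M, (F : Set M) ⊆ S → c F ⊆ S := by
  classical
  have hl := hK.1
  have hg : ∀ B : Set M, ∃ S : L.Substructure M, K.le S ∧ B ⊆ S ∧
      (#B ≤ l → #(S : Set M) ≤ l) := by
    intro B
    obtain ⟨S, h1, h2, h3⟩ := hK.2.2 M hM B
    refine ⟨S, h1, h2, fun hB => h3.trans ?_⟩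
    exact Cardinal.add_le_of_le hl hB (_root_.le_refl _)
  choose g hg1 hg2 hg3 using hg
  obtain ⟨cl, hcl1, hcl2⟩ := exists_cl hl c hc
  obtain ⟨Y, hY0, hYs⟩ : ∃ Y : ℕ → L.Substructure M, Y 0 = g A ∧
      ∀ n, Y (n + 1) = g ((Y n : Set M) ∪ cl (Y n)) :=
    ⟨fun n => Nat.rec (g A) (fun _ S => g ((S : Set M) ∪ cl S)) n, rfl, fun n => rfl⟩
  have hYle : ∀ n, K.le (Y n) := by
    intro n
    cases n with
    | zero => rw [hY0]; exact hg1 _
    | succ n => rw [hYs]; exact hg1 _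
  have hYsub : ∀ n, Y n ≤ Y (n + 1) := by
    intro n x hx
    rw [hYs]
    exact hg2 _ (Or.inl hx)
  have hYmono : Monotone Y := monotone_nat_of_le_succ hYsub
  have hYc : ∀ n, #(Y n : Set M) ≤ l := by
    intro n
    induction n with
    | zero => rw [hY0]; exact hg3 _ hA
    | succ n ih =>
      rw [hYs]
      apply hg3
      exact (Cardinal.mk_union_le _ _).trans (Cardinal.add_le_of_le hl ih (hcl1 _ ih))
  have hYcl : ∀ n, ∀ F : Finset M, (F : Set M) ⊆ Y n → c F ⊆ Y (n + 1) := by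
    intro n F hF x hx
    rw [hYs]
    exact hg2 _ (Or.inr (hcl2 _ F hF hx))
  obtain ⟨Z, hZ⟩ : ∃ Z : ULift.{u} ℕ → L.Substructure M, ∀ n, Z n = Y n.down :=
    ⟨_, fun n => rfl⟩
  have hZm : Monotone Z := fun a b h => by
    rw [hZ, hZ]
    exact hYmono h
  have hZle := K.chain_smooth Z hZm (fun i => by rw [hZ]; exact hYle _)
  have hmem : ∀ x, x ∈ (⨆ i, Z i : L.Substructure M) ↔ ∃ n, x ∈ Y n := by
    intro x
    rw [Substructure.mem_iSup_of_directed (directed_of_isDirected_le hZm)]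
    constructor
    · rintro ⟨i, hi⟩
      rw [hZ] at hi
      exact ⟨_, hi⟩
    · rintro ⟨n, hn⟩
      exact ⟨⟨n⟩, by rw [hZ]; exact hn⟩
  refine ⟨⨆ i, Z i, hZle, ?_, ?_, ?_⟩
  · intro x hx
    refine (hmem x).2 ⟨0, ?_⟩
    rw [hY0]
    exact hg2 _ hx
  · have : ((⨆ i, Z i : L.Substructure M) : Set M) = ⋃ i : ULift.{u} ℕ, (Y i.down : Set M) := by
      ext x
      simp only [SetLike.mem_coe, Set.mem_iUnion, hmem]
      exact ⟨fun ⟨n, hn⟩ => ⟨⟨n⟩, hn⟩, fun ⟨n, hn⟩ => ⟨_, hn⟩⟩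
    change #((⨆ i, Z i : L.Substructure M) : Set M) ≤ l
    rw [this]
    refine (Cardinal.mk_iUnion_le _).trans ?_
    refine (mul_le_mul' (b := l) (d := l) ?_ (ciSup_le' fun n => hYc _)).trans
      (Cardinal.mul_eq_self hl).le
    simpa using hl
  · intro F hF
    have : ∃ n, (F : Set M) ⊆ Y n := by
      have h1 : ∀ x ∈ F, ∃ n, x ∈ Y n := fun x hx => (hmem x).1 (hF hx)
      choose! n hn using h1
      refine ⟨F.sup n, fun x hx => ?_⟩
      exact hYmono (Finset.le_sup hx) (hn x hx)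
    obtain ⟨n, hn⟩ := this
    intro x hx
    exact (hmem x).2 ⟨n + 1, hYcl n F hn hx⟩

theorem exists_finset_rec {α : Type u} {β : Type u}
    (step : ∀ s : Finset α, (∀ t : Finset α, t < s → β) → β) :
    ∃ H : Finset α → β, ∀ s, H s = step s (fun t _ => H t) :=
  ⟨WellFounded.fix (wellFounded_lt (α := Finset α)) step, fun _ => WellFounded.fix_eq _ _ _⟩

theorem mk_iUnion_lt_le {α β : Type u} (hl : ℵ₀ ≤ l) (s : Finset α) (f : Finset α → Set β)
    (hf : ∀ t < s, #(f t) ≤ l) : #(⋃ t : {t // t < s}, f t.1 : Set β) ≤ l := by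
  classical
  refine (Cardinal.mk_iUnion_le _).trans ?_
  refine (mul_le_mul' (b := l) (d := l) ?_
    (ciSup_le' fun t : {t // t < s} => hf t.1 t.2)).trans (Cardinal.mul_eq_self hl).le
  have : Finite {t // t < s} := by
    apply Set.Finite.to_subtype
    exact (Finset.finite_toSet s.powerset).subset fun t ht =>
      Finset.mem_coe.2 (Finset.mem_powerset.2 (le_of_lt ht))
  exact (Cardinal.lt_aleph0_of_finite _).le.trans hl

/-- Skolem-like hulls, closed under a prescribed finitary operation `c`. -/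
theorem exists_hull (hK : K.IsLS l) (hM : K.mem M) (c : Finset M → Set M)
    (hc : ∀ F, #(c F) ≤ l) :
    ∃ H : Finset M → L.Substructure M, (∀ a, K.le (H a)) ∧ Monotone H ∧
      (∀ a : Finset M, (a : Set M) ⊆ H a) ∧ (∀ a, #(H a) ≤ l) ∧
      (∀ a, ∀ F : Finset M, (F : Set M) ⊆ H a → c F ⊆ H a) := by
  classical
  have hl := hK.1
  have hg : ∀ B : Set M, ∃ S : L.Substructure M, #B ≤ l → (K.le S ∧ B ⊆ S ∧
      #(S : Set M) ≤ l ∧ ∀ F : Finset M, (F : Set M) ⊆ S → c F ⊆ S) := by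
    intro B
    by_cases hB : #B ≤ l
    · obtain ⟨S, hS⟩ := exists_closed_le hK hM c hc B hB
      exact ⟨S, fun _ => hS⟩
    · exact ⟨⊤, fun h => absurd h hB⟩
  choose g hg using hg
  obtain ⟨H, hH⟩ : ∃ H : Finset M → L.Substructure M, ∀ s, H s =
      g ((s : Set M) ∪ ⋃ t : {t // t < s}, (H t.1 : Set M)) :=
    exists_finset_rec (α := M) (β := L.Substructure M) fun (s : Finset M) ih =>
      g ((s : Set M) ∪ ⋃ t : {t : Finset M // t < s}, (ih t.1 t.2 : Set M))
  have hfin : ∀ s : Finset M, #(s : Set M) ≤ l := fun s =>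
    (Cardinal.lt_aleph0_of_finite _).le.trans hl
  have hcard : ∀ s, #(H s : Set M) ≤ l := by
    intro s
    induction s using WellFoundedLT.induction with
    | ind s ih =>
    rw [hH]
    refine (hg _ ?_).2.2.1
    exact (Cardinal.mk_union_le _ _).trans (Cardinal.add_le_of_le hl (hfin s)
      (mk_iUnion_lt_le hl s (fun t => (H t : Set M)) ih))
  have hA : ∀ s : Finset M, #((s : Set M) ∪ ⋃ t : {t // t < s}, (H t.1 : Set M) : Set M) ≤ l :=
    fun s => (Cardinal.mk_union_le _ _).trans (Cardinal.add_le_of_le hl (hfin s)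
      (mk_iUnion_lt_le hl s (fun t => (H t : Set M)) (fun t _ => hcard t)))
  refine ⟨H, ?_, ?_, ?_, hcard, ?_⟩
  · intro a
    rw [hH]
    exact (hg _ (hA a)).1
  · intro s t hst
    rcases eq_or_lt_of_le hst with h | h
    · rw [h]
    · rw [hH t]
      intro x hx
      apply (hg _ (hA t)).2.1
      exact Or.inr (Set.mem_iUnion.2 ⟨⟨s, h⟩, hx⟩)
  · intro a
    rw [hH]
    exact Set.subset_union_left.trans (hg _ (hA a)).2.1
  · intro a
    rw [hH]
    exact (hg _ (hA a)).2.2.2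

theorem exists_hull' (hK : K.IsLS l) (hM : K.mem M) :
    ∃ H : Finset M → L.Substructure M, (∀ a, K.le (H a)) ∧ Monotone H ∧
      (∀ a : Finset M, (a : Set M) ⊆ H a) ∧ (∀ a, #(H a) ≤ l) := by
  obtain ⟨H, h1, h2, h3, h4, -⟩ := exists_hull hK hM (fun _ => ∅) (fun _ => by simp)
  exact ⟨H, h1, h2, h3, h4⟩

theorem le_of_hull_closed {H : Finset M → L.Substructure M} (hH : ∀ a, K.le (H a))
    (hm : Monotone H) (hsub : ∀ a : Finset M, (a : Set M) ⊆ H a) (X : Set M)
    (hX : ∀ a : Finset M, (a : Set M) ⊆ X → (H a : Set M) ⊆ X) :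
    ∃ S : L.Substructure M, K.le S ∧ (S : Set M) = X := by
  classical
  refine ⟨⨆ a : Finset X, H (a.map (Function.Embedding.subtype _)), ?_, ?_⟩
  · apply le_iSup_finset
    · intro a b hab
      exact hm (Finset.map_subset_map.2 hab)
    · intro a
      exact hH _
  · ext x
    rw [SetLike.mem_coe, Substructure.mem_iSup_of_directed (directed_of_isDirected_le
      (fun a b hab => hm (Finset.map_subset_map.2 hab)))]
    constructor
    · rintro ⟨a, ha⟩
      refine hX _ ?_ ha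
      intro y hy
      simp only [Finset.coe_map, Function.Embedding.subtype_apply, Set.mem_image] at hy
      obtain ⟨z, _, rfl⟩ := hy
      exact z.2
    · intro hx
      refine ⟨{⟨x, hx⟩}, hsub _ ?_⟩
      simp

end hull

end AEC

end Vale.Agent.P307
end
end

section

section

universe u

open FirstOrder Cardinal Set

namespace Vale.Agent.P307

variable {L : Language.{u, u}} {M N : Type u} [L.Structure M] [L.Structure N]

/-- Strategy functions of the spoiler. -/
structure Spoil (L : Language.{u, u}) {M N : Type u} [L.Structure M] [L.Structure N]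
    (ν κ : Cardinal.{u}) (R : Set (M × N)) where
  f : Set (M × N) → Set M
  g : Set (M × N) → Set N
  hf : ∀ T : Set (M × N), #T ≤ ν → #(f T) ≤ κ
  hg : ∀ T : Set (M × N), #T ≤ ν → #(g T) ≤ κ
  spec : ∀ π : Set (M × N), IsPI L π → R ⊆ π →
    (∀ T ⊆ π, #T ≤ ν → (∀ a ∈ f T, ∃ b, (a, b) ∈ π) ∧ (∀ b ∈ g T, ∃ a, (a, b) ∈ π)) → False

theorem mk_iUnion_pairs_le {X Y : Type u} {ν κ : Cardinal.{u}} (hκ : ℵ₀ ≤ κ) (hνκ : 2 ^ ν ≤ κ)
    (T : Set X) (hT : #T ≤ ν) (p : Set X → Prop) (f : ∀ R, p R → Set X → Set Y)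
    (hf : ∀ R hR (T' : Set X), #T' ≤ ν → #(f R hR T') ≤ κ) :
    #(⋃ q : {q : Set X × Set X // q.1 ⊆ T ∧ q.2 ⊆ T ∧ p q.1},
      f q.1.1 q.2.2.2 q.1.2 : Set Y) ≤ κ := by
  refine (mk_iUnion_le _).trans ?_
  refine (mul_le_mul' (b := κ) (d := κ) ?_ ?_).trans_eq (mul_eq_self hκ)
  · have h1 : #{q : Set X × Set X // q.1 ⊆ T ∧ q.2 ⊆ T ∧ p q.1} ≤ #(Set T × Set T) := by
      refine mk_le_of_injective (f := fun q => (Subtype.val ⁻¹' q.1.1, Subtype.val ⁻¹' q.1.2)) ?_
      rintro ⟨⟨q1, q2⟩, hq1, hq2, hq3⟩ ⟨⟨r1, r2⟩, hr1, hr2, hr3⟩ h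
      simp only [Prod.mk.injEq] at h
      have e1 : q1 = r1 := by
        have := congrArg (Set.image Subtype.val) h.1
        simpa [Subtype.image_preimage_coe, inter_eq_right.2 hq1, inter_eq_right.2 hr1] using this
      have e2 : q2 = r2 := by
        have := congrArg (Set.image Subtype.val) h.2
        simpa [Subtype.image_preimage_coe, inter_eq_right.2 hq2, inter_eq_right.2 hr2] using this
      subst e1 e2
      rfl
    refine h1.trans ?_
    have h2 : #(Set T) ≤ κ := by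
      rw [mk_set]
      exact (power_le_power_left two_ne_zero hT).trans hνκ
    rw [← mul_def]
    exact (mul_le_mul' h2 h2).trans_eq (mul_eq_self hκ)
  · refine ciSup_le' fun q => ?_
    exact hf _ _ _ ((mk_le_mk_of_subset q.2.2.1).trans hT)

theorem Bad.spoil {ν κ : Cardinal.{u}} (hν : ℵ₀ ≤ ν) (hνκ : 2 ^ ν ≤ κ) {R : Set (M × N)}
    (h : Bad L ν R) (hR : #R ≤ ν) : Nonempty (Spoil L ν κ R) := by
  have hν' : ν ≤ κ := (cantor ν).le.trans hνκ
  have hκ : ℵ₀ ≤ κ := hν.trans hν'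
  induction h with
  | left R A hA h ih =>
    let p : Set (M × N) → Prop := fun R' =>
      R ⊆ R' ∧ IsPI L R' ∧ #R' ≤ ν ∧ ∀ a ∈ A, ∃ b, (a, b) ∈ R'
    have key : ∀ R', p R' → Nonempty (Spoil L ν κ R') := fun R' hR' =>
      ih R' hR'.1 hR'.2.1 hR'.2.2.1 hR'.2.2.2 hR'.2.2.1
    obtain ⟨s⟩ : Nonempty (∀ R', p R' → Spoil L ν κ R') := ⟨fun R' hR' => (key R' hR').some⟩
    refine ⟨{
      f := fun T => A ∪ ⋃ q : {q : Set (M × N) × Set (M × N) // q.1 ⊆ T ∧ q.2 ⊆ T ∧ p q.1},
        (s q.1.1 q.2.2.2).f q.1.2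
      g := fun T => ⋃ q : {q : Set (M × N) × Set (M × N) // q.1 ⊆ T ∧ q.2 ⊆ T ∧ p q.1},
        (s q.1.1 q.2.2.2).g q.1.2
      hf := ?_
      hg := ?_
      spec := ?_ }⟩
    · intro T hT
      refine (mk_union_le _ _).trans ?_
      refine add_le_of_le hκ (hA.trans hν') ?_
      exact mk_iUnion_pairs_le hκ hνκ T hT p (fun R hR => (s R hR).f)
        (fun R hR T' hT' => (s R hR).hf T' hT')
    · intro T hT
      exact mk_iUnion_pairs_le hκ hνκ T hT p (fun R hR => (s R hR).g)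
        (fun R hR T' hT' => (s R hR).hg T' hT')
    · intro π hπ hRπ hcl
      obtain ⟨R', h1, h2, h3, h4⟩ := exists_trim hν hRπ hR A hA
        (fun a ha => (hcl ∅ (empty_subset _) (by simp)).1 a (Or.inl ha))
      have hp : p R' := ⟨h1, hπ.mono h2, h3, h4⟩
      refine (s R' hp).spec π hπ h2 fun T hTπ hT => ?_
      have h5 : #(T ∪ R' : Set (M × N)) ≤ ν :=
        (mk_union_le _ _).trans (add_le_of_le hν hT h3)
      have h6 := hcl (T ∪ R') (union_subset hTπ h2) h5
      constructor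
      · intro a ha
        refine h6.1 a (Or.inr ?_)
        rw [mem_iUnion]
        exact ⟨⟨(R', T), subset_union_right, subset_union_left, hp⟩, ha⟩
      · intro b hb
        refine h6.2 b ?_
        rw [mem_iUnion]
        exact ⟨⟨(R', T), subset_union_right, subset_union_left, hp⟩, hb⟩
  | right R B hB h ih =>
    let p : Set (M × N) → Prop := fun R' =>
      R ⊆ R' ∧ IsPI L R' ∧ #R' ≤ ν ∧ ∀ b ∈ B, ∃ a, (a, b) ∈ R'
    have key : ∀ R', p R' → Nonempty (Spoil L ν κ R') := fun R' hR' =>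
      ih R' hR'.1 hR'.2.1 hR'.2.2.1 hR'.2.2.2 hR'.2.2.1
    obtain ⟨s⟩ : Nonempty (∀ R', p R' → Spoil L ν κ R') := ⟨fun R' hR' => (key R' hR').some⟩
    refine ⟨{
      f := fun T => ⋃ q : {q : Set (M × N) × Set (M × N) // q.1 ⊆ T ∧ q.2 ⊆ T ∧ p q.1},
        (s q.1.1 q.2.2.2).f q.1.2
      g := fun T => B ∪ ⋃ q : {q : Set (M × N) × Set (M × N) // q.1 ⊆ T ∧ q.2 ⊆ T ∧ p q.1},
        (s q.1.1 q.2.2.2).g q.1.2
      hf := ?_
      hg := ?_
      spec := ?_ }⟩
    · intro T hT
      exact mk_iUnion_pairs_le hκ hνκ T hT p (fun R hR => (s R hR).f)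
        (fun R hR T' hT' => (s R hR).hf T' hT')
    · intro T hT
      refine (mk_union_le _ _).trans ?_
      refine add_le_of_le hκ (hB.trans hν') ?_
      exact mk_iUnion_pairs_le hκ hνκ T hT p (fun R hR => (s R hR).g)
        (fun R hR T' hT' => (s R hR).hg T' hT')
    · intro π hπ hRπ hcl
      have hsw : #(Prod.swap ⁻¹' R : Set (N × M)) ≤ ν :=
        (mk_congr ((Equiv.prodComm N M).subtypeEquiv (fun _ => Iff.rfl))).trans_le hR
      obtain ⟨R'', h1, h2, h3, h4⟩ := exists_trim (M := N) (N := M) hν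
        (R := Prod.swap ⁻¹' R) (R' := Prod.swap ⁻¹' π) (preimage_mono hRπ) hsw B hB
        (fun b hb => (hcl ∅ (empty_subset _) (by simp)).2 b (Or.inl hb))
      let R' : Set (M × N) := Prod.swap ⁻¹' R''
      have h1' : R ⊆ R' := fun p hp => h1 (a := p.swap) hp
      have h2' : R' ⊆ π := fun p hp => h2 hp
      have h3' : #R' ≤ ν :=
        (mk_congr ((Equiv.prodComm M N).subtypeEquiv (fun _ => Iff.rfl))).trans_le h3
      have hp : p R' := ⟨h1', hπ.mono h2', h3', h4⟩
      refine (s R' hp).spec π hπ h2' fun T hTπ hT => ?_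
      have h5 : #(T ∪ R' : Set (M × N)) ≤ ν :=
        (mk_union_le _ _).trans (add_le_of_le hν hT h3')
      have h6 := hcl (T ∪ R') (union_subset hTπ h2') h5
      constructor
      · intro a ha
        refine h6.1 a ?_
        rw [mem_iUnion]
        exact ⟨⟨(R', T), subset_union_right, subset_union_left, hp⟩, ha⟩
      · intro b hb
        refine h6.2 b (Or.inr ?_)
        rw [mem_iUnion]
        exact ⟨⟨(R', T), subset_union_right, subset_union_left, hp⟩, hb⟩

theorem mk_subsets_le {X : Type u} {ν κ : Cardinal.{u}} (hνκ : 2 ^ ν ≤ κ) (W : Set X)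
    (hW : #W ≤ ν) : #{T : Set X // T ⊆ W} ≤ κ := by
  have h : #{T : Set X // T ⊆ W} = 2 ^ #W := mk_powerset W
  rw [h]
  exact (power_le_power_left two_ne_zero hW).trans hνκ

theorem mk_iUnion_le_of_le {X ι : Type u} {κ : Cardinal.{u}} (hκ : ℵ₀ ≤ κ) (hι : #ι ≤ κ)
    (f : ι → Set X) (hf : ∀ i, #(f i) ≤ κ) : #(⋃ i, f i) ≤ κ :=
  (mk_iUnion_le _).trans ((mul_le_mul' hι (ciSup_le' hf)).trans_eq (mul_eq_self hκ))

/-- Closing off: strong substructures of size `κ` closed under given functions. -/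
theorem exists_closed_pair {K : AEC L} {ℓ ν κ : Cardinal.{u}} (hK : K.IsLS ℓ)
    (hν : ℓ ≤ ν) (hκ : κ ^ ν = κ) (hκ2 : 2 ≤ κ)
    (hM : K.mem M) (hN : K.mem N) (hMκ : κ ≤ #M) (hNκ : κ ≤ #N)
    (f : Set (M × N) → Set M) (g : Set (M × N) → Set N)
    (hf : ∀ T : Set (M × N), #T ≤ ν → #(f T) ≤ κ) (hg : ∀ T : Set (M × N), #T ≤ ν → #(g T) ≤ κ) :
    ∃ (S : L.Substructure M) (S' : L.Substructure N), K.le S ∧ K.le S' ∧ #S = κ ∧ #S' = κ ∧
      ∀ T : Set (M × N), #T ≤ ν → (∀ p ∈ T, p.1 ∈ S ∧ p.2 ∈ S') →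
        (f T ⊆ S) ∧ (g T ⊆ S') := by
  have hν0 : ℵ₀ ≤ ν := hK.1.trans hν
  have h2ν : 2 ^ ν ≤ κ := (power_le_power_right hκ2).trans_eq hκ
  have hνκ : ν ≤ κ := (cantor ν).le.trans h2ν
  have hκ0 : ℵ₀ ≤ κ := hν0.trans hνκ
  obtain ⟨H, hH1, hH2, hH3, hH4⟩ := AEC.exists_hull' hK hM
  obtain ⟨H', hH1', hH2', hH3', hH4'⟩ := AEC.exists_hull' hK hN
  obtain ⟨S₁, hS₁⟩ : ∃ S : Set M, #S = κ := le_mk_iff_exists_set.1 hMκ
  obtain ⟨S₂, hS₂⟩ : ∃ S : Set N, #S = κ := le_mk_iff_exists_set.1 hNκ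
  let Φ₁ : Set (M ⊕ N) → Set M := fun B =>
    (⋃ a : {a : Set M // a ⊆ Sum.inl ⁻¹' B}, ⋃ b : {b : Finset M // (b : Set M) = a.1},
      (H b.1 : Set M)) ∪
    ⋃ T : {T : Set (M × N) // T ⊆ (Sum.inl ⁻¹' B) ×ˢ (Sum.inr ⁻¹' B)}, f T.1
  let Φ₂ : Set (M ⊕ N) → Set N := fun B =>
    (⋃ a : {a : Set N // a ⊆ Sum.inr ⁻¹' B}, ⋃ b : {b : Finset N // (b : Set N) = a.1},
      (H' b.1 : Set N)) ∪
    ⋃ T : {T : Set (M × N) // T ⊆ (Sum.inl ⁻¹' B) ×ˢ (Sum.inr ⁻¹' B)}, g T.1
  have hc1 : ∀ B : Set (M ⊕ N), #B ≤ ν → #(Sum.inl ⁻¹' B : Set M) ≤ ν := fun B hB =>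
    (mk_preimage_of_injective _ _ Sum.inl_injective).trans hB
  have hc2 : ∀ B : Set (M ⊕ N), #B ≤ ν → #(Sum.inr ⁻¹' B : Set N) ≤ ν := fun B hB =>
    (mk_preimage_of_injective _ _ Sum.inr_injective).trans hB
  have hc3 : ∀ B : Set (M ⊕ N), #B ≤ ν →
      #((Sum.inl ⁻¹' B : Set M) ×ˢ (Sum.inr ⁻¹' B : Set N) : Set (M × N)) ≤ ν := fun B hB => by
    rw [mk_setProd]
    exact (mul_le_mul' (hc1 B hB) (hc2 B hB)).trans_eq (mul_eq_self hν0)
  have hΦ₁ : ∀ B : Set (M ⊕ N), #B ≤ ν → #(Φ₁ B) ≤ κ := by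
    intro B hB
    refine (mk_union_le _ _).trans (add_le_of_le hκ0 ?_ ?_)
    · refine mk_iUnion_le_of_le hκ0 (mk_subsets_le h2ν _ (hc1 B hB)) _ fun a => ?_
      refine mk_iUnion_le_of_le hκ0 ?_ _ fun b => (hH4 _).trans (hν.trans hνκ)
      have : Subsingleton {b : Finset M // (b : Set M) = a.1} :=
        ⟨fun b b' => Subtype.ext (Finset.coe_injective (b.2.trans b'.2.symm))⟩
      exact (le_one_iff_subsingleton.2 this).trans (one_le_aleph0.trans hκ0)
    · refine mk_iUnion_le_of_le hκ0 (mk_subsets_le h2ν _ (hc3 B hB)) _ fun T => ?_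
      exact hf _ ((mk_le_mk_of_subset T.2).trans (hc3 B hB))
  have hΦ₂ : ∀ B : Set (M ⊕ N), #B ≤ ν → #(Φ₂ B) ≤ κ := by
    intro B hB
    refine (mk_union_le _ _).trans (add_le_of_le hκ0 ?_ ?_)
    · refine mk_iUnion_le_of_le hκ0 (mk_subsets_le h2ν _ (hc2 B hB)) _ fun a => ?_
      refine mk_iUnion_le_of_le hκ0 ?_ _ fun b => (hH4' _).trans (hν.trans hνκ)
      have : Subsingleton {b : Finset N // (b : Set N) = a.1} :=
        ⟨fun b b' => Subtype.ext (Finset.coe_injective (b.2.trans b'.2.symm))⟩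
      exact (le_one_iff_subsingleton.2 this).trans (one_le_aleph0.trans hκ0)
    · refine mk_iUnion_le_of_le hκ0 (mk_subsets_le h2ν _ (hc3 B hB)) _ fun T => ?_
      exact hg _ ((mk_le_mk_of_subset T.2).trans (hc3 B hB))
  obtain ⟨S, hS0, hSκ, hScl⟩ := exists_closed hν0 hκ hκ2
    (fun B => Sum.inl '' Φ₁ B ∪ Sum.inr '' Φ₂ B)
    (fun B hB => (mk_union_le _ _).trans (add_le_of_le hκ0 (mk_image_le.trans (hΦ₁ B hB))
      (mk_image_le.trans (hΦ₂ B hB)))) (Sum.inl '' S₁ ∪ Sum.inr '' S₂)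
    ((mk_union_le _ _).trans (add_le_of_le hκ0 (mk_image_le.trans hS₁.le)
      (mk_image_le.trans hS₂.le)))
  have hfin : ∀ {X : Type u} (a : Finset X), #(a : Set X) ≤ ν := fun a =>
    (lt_aleph0_of_finite _).le.trans hν0
  obtain ⟨S', hS'1, hS'2⟩ := AEC.le_of_hull_closed hH1 hH2 hH3 (Sum.inl ⁻¹' S : Set M) (by
    intro a ha x hx
    have h1 := hScl (Sum.inl '' (a : Set M)) (image_subset_iff.2 ha) (mk_image_le.trans (hfin a))
    apply h1
    left
    refine ⟨x, Or.inl ?_, rfl⟩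
    refine mem_iUnion.2 ⟨⟨(a : Set M), ?_⟩, mem_iUnion.2 ⟨⟨a, rfl⟩, hx⟩⟩
    exact image_subset_iff.1 Subset.rfl)
  obtain ⟨S'', hS''1, hS''2⟩ := AEC.le_of_hull_closed hH1' hH2' hH3' (Sum.inr ⁻¹' S : Set N) (by
    intro a ha x hx
    have h1 := hScl (Sum.inr '' (a : Set N)) (image_subset_iff.2 ha) (mk_image_le.trans (hfin a))
    apply h1
    right
    refine ⟨x, Or.inl ?_, rfl⟩
    refine mem_iUnion.2 ⟨⟨(a : Set N), ?_⟩, mem_iUnion.2 ⟨⟨a, rfl⟩, hx⟩⟩
    exact image_subset_iff.1 Subset.rfl)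
  refine ⟨S', S'', hS'1, hS''1, ?_, ?_, ?_⟩
  · apply le_antisymm
    · change #(S' : Set M) ≤ κ
      rw [hS'2]
      exact (mk_preimage_of_injective _ _ Sum.inl_injective).trans hSκ
    · rw [← hS₁]
      change #S₁ ≤ #(S' : Set M)
      rw [hS'2]
      exact mk_le_mk_of_subset fun x hx => hS0 (Or.inl ⟨x, hx, rfl⟩)
  · apply le_antisymm
    · change #(S'' : Set N) ≤ κ
      rw [hS''2]
      exact (mk_preimage_of_injective _ _ Sum.inr_injective).trans hSκ
    · rw [← hS₂]
      change #S₂ ≤ #(S'' : Set N)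
      rw [hS''2]
      exact mk_le_mk_of_subset fun x hx => hS0 (Or.inr ⟨x, hx, rfl⟩)
  · intro T hT hTS
    have h1 := hScl (Sum.inl '' (Prod.fst '' T) ∪ Sum.inr '' (Prod.snd '' T)) (by
      refine union_subset ?_ ?_
      · rintro _ ⟨_, ⟨p, hp, rfl⟩, rfl⟩
        have := (hTS p hp).1
        rw [← SetLike.mem_coe, hS'2] at this
        exact this
      · rintro _ ⟨_, ⟨p, hp, rfl⟩, rfl⟩
        have := (hTS p hp).2
        rw [← SetLike.mem_coe, hS''2] at this
        exact this)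
      ((mk_union_le _ _).trans (add_le_of_le hν0 (mk_image_le.trans (mk_image_le.trans hT))
        (mk_image_le.trans (mk_image_le.trans hT))))
    have h2 : T ⊆ (Sum.inl ⁻¹' (Sum.inl '' (Prod.fst '' T) ∪ Sum.inr '' (Prod.snd '' T)) : Set M) ×ˢ
        (Sum.inr ⁻¹' (Sum.inl '' (Prod.fst '' T) ∪ Sum.inr '' (Prod.snd '' T)) : Set N) := by
      intro p hp
      exact ⟨Or.inl ⟨_, ⟨p, hp, rfl⟩, rfl⟩, Or.inr ⟨_, ⟨p, hp, rfl⟩, rfl⟩⟩
    constructor
    · intro x hx
      rw [hS'2]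
      exact h1 (Or.inl ⟨x, Or.inr (mem_iUnion.2 ⟨⟨T, h2⟩, hx⟩), rfl⟩)
    · intro x hx
      rw [hS''2]
      exact h1 (Or.inr ⟨x, Or.inr (mem_iUnion.2 ⟨⟨T, h2⟩, hx⟩), rfl⟩)

theorem good_empty_of_categorical {K : AEC L} {ℓ ν κ : Cardinal.{u}} (hK : K.IsLS ℓ)
    (hν : ℓ ≤ ν) (hκ : κ ^ ν = κ) (hκ2 : 2 ≤ κ) (hcat : K.CategoricalIn κ)
    (hM : K.mem M) (hN : K.mem N) (hMκ : κ ≤ #M) (hNκ : κ ≤ #N) :
    Good L ν (∅ : Set (M × N)) := by
  have hν0 : ℵ₀ ≤ ν := hK.1.trans hν
  have h2ν : 2 ^ ν ≤ κ := (power_le_power_right hκ2).trans_eq hκ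
  have key : ∀ (f : Set (M × N) → Set M) (g : Set (M × N) → Set N),
      (∀ T : Set (M × N), #T ≤ ν → #(f T) ≤ κ) → (∀ T : Set (M × N), #T ≤ ν → #(g T) ≤ κ) →
      ∃ π : Set (M × N), IsPI L π ∧ (∀ T ⊆ π, #T ≤ ν → (∀ a ∈ f T, ∃ b, (a, b) ∈ π) ∧
        (∀ b ∈ g T, ∃ a, (a, b) ∈ π)) := by
    intro f g hf hg
    obtain ⟨S, S', h1, h2, h3, h4, h5⟩ := exists_closed_pair hK hν hκ hκ2 hM hN hMκ hNκ f g hf hg
    obtain ⟨e⟩ := hcat.2 S S' (K.mem_of_le _ h1).1 (K.mem_of_le _ h2).1 h3 h4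
    refine ⟨_, isPI_of_equiv_sub e, fun T hT hTν => ?_⟩
    have h6 := h5 T hTν (fun p hp => by
      obtain ⟨a, h7, h8⟩ := hT hp
      rw [← h7, ← h8]
      exact ⟨a.2, (e a).2⟩)
    constructor
    · intro a ha
      exact ⟨e ⟨a, h6.1 ha⟩, ⟨a, h6.1 ha⟩, rfl, rfl⟩
    · intro b hb
      refine ⟨e.symm ⟨b, h6.2 hb⟩, e.symm ⟨b, h6.2 hb⟩, rfl, ?_⟩
      have : e (e.symm ⟨b, h6.2 hb⟩) = ⟨b, h6.2 hb⟩ := e.apply_symm_apply _
      rw [this]
  refine ⟨?_, by simp, fun hbad => ?_⟩
  · obtain ⟨π, hπ, -⟩ := key (fun _ => ∅) (fun _ => ∅) (by simp) (by simp)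
    exact hπ.mono (empty_subset _)
  · obtain ⟨s⟩ := hbad.spoil hν0 h2ν (by simp)
    obtain ⟨π, hπ, hπ2⟩ := key s.f s.g s.hf s.hg
    exact s.spec π hπ (empty_subset _) hπ2

end Vale.Agent.P307
end
end

section

section

universe u v w

open FirstOrder Cardinal Set

namespace Vale.Agent.P307

open Language.Structure Language.Substructure

section closure

variable {L : Language.{u, u}} {M N : Type u} [L.Structure M] [L.Structure N]

theorem mem_closure_image_iff {Q : Type w} (v : Q → M) (s : Set Q) (x : M) :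
    x ∈ closure L (v '' s) ↔ ∃ t : L.Term s, t.realize (fun q => v q.1) = x := by
  rw [mem_closure_iff_exists_term]
  constructor
  · rintro ⟨t, ht⟩
    have hch : ∀ z : v '' s, ∃ q : s, v q.1 = z := by
      rintro ⟨_, q, hq, rfl⟩
      exact ⟨⟨q, hq⟩, rfl⟩
    choose f hf using hch
    refine ⟨t.relabel f, ?_⟩
    rw [Language.Term.realize_relabel, ← ht]
    congr 1
    funext z
    exact hf z
  · rintro ⟨t, ht⟩
    refine ⟨t.relabel (fun q => ⟨v q.1, q.1, q.2, rfl⟩), ?_⟩
    rw [Language.Term.realize_relabel, ← ht]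
    rfl

theorem AtEq.mem_closure {Q : Type w} {v : Q → M} {v' : Q → N} (h : AtEq L v v') (s : Set Q)
    {x : M} {y : N} (hxy : (x, y) ∈ termGraph L v v') (hx : x ∈ closure L (v '' s)) :
    y ∈ closure L (v' '' s) := by
  obtain ⟨t, ht⟩ := hxy
  simp only [Prod.mk.injEq] at ht
  rw [mem_closure_image_iff] at hx ⊢
  obtain ⟨t', ht'⟩ := hx
  refine ⟨t', ?_⟩
  have h1 := (h.1 (t'.relabel (fun q : s => q.1)) t).1 (by
    rw [Language.Term.realize_relabel, ht.1]
    exact ht')
  rw [Language.Term.realize_relabel, ht.2] at h1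
  exact h1

theorem termGraph_swap {Q : Type w} {v : Q → M} {v' : Q → N} {x : M} {y : N}
    (h : (x, y) ∈ termGraph L v v') : (y, x) ∈ termGraph L v' v := by
  obtain ⟨t, ht⟩ := h
  simp only [Prod.mk.injEq] at ht
  exact ⟨t, by simp only [ht.1, ht.2]⟩

theorem exists_termGraph {Q : Type w} (v : Q → M) (v' : Q → N) {x : M}
    (hx : x ∈ closure L (Set.range v)) : ∃ y ∈ closure L (Set.range v'),
      (x, y) ∈ termGraph L v v' := by
  rw [← image_univ, mem_closure_image_iff] at hx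
  obtain ⟨t, ht⟩ := hx
  refine ⟨t.realize (fun q => v' q.1), ?_, t.relabel (fun q => q.1), ?_⟩
  · rw [← image_univ, mem_closure_image_iff]
    exact ⟨t, rfl⟩
  · simp only [Language.Term.realize_relabel, Prod.mk.injEq]
    exact ⟨ht, rfl⟩

theorem mem_closure_finite {I : Type u} (c : I → N) (J : Set I) {x : N}
    (hx : x ∈ closure L (c '' J)) : ∃ b : Finset J, x ∈ closure L (c '' ((b.map
        (Function.Embedding.subtype _) : Finset I) : Set I)) := by
  classical
  rw [mem_closure_image_iff] at hx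
  obtain ⟨t, ht⟩ := hx
  refine ⟨t.varFinset, ?_⟩
  rw [mem_closure_image_iff]
  refine ⟨t.restrictVar (fun q => ⟨q.1.1, ?_⟩), ?_⟩
  · simp only [Finset.coe_map, Function.Embedding.subtype_apply, Set.mem_image]
    exact ⟨q.1, q.2, rfl⟩
  · rw [← ht]
    exact Language.Term.realize_restrictVar (fun q : J => c q.1) (fun q => rfl)

end closure

section emk

variable {L L₁ : Language.{u, u}} {K : AEC L} (φ : L →ᴸ L₁)

/-- Transfer of strongness along an isomorphism. -/
theorem AEC.le_comap_of_equiv {M N : Type u} [L.Structure M] [L.Structure N]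
    {S S' : L.Substructure N} {T T' : L.Substructure M} (e : S ≃[L] T)
    (h : ∀ x : S, (x : N) ∈ S' ↔ (e x : M) ∈ T') (hT : K.le (T'.comap T.subtype.toHom)) :
    K.le (S'.comap S.subtype.toHom) := by
  have h1 := K.le_iso e.symm _ hT
  convert h1 using 1
  ext x
  constructor
  · intro hx
    exact ⟨e x, (h x).1 hx, e.symm_apply_apply x⟩
  · rintro ⟨y, hy, hyx⟩
    have h2 : e x = y := by
      rw [← hyx]
      exact e.apply_symm_apply y
    rw [← h2] at hy
    exact (h x).2 hy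

variable {M N : Type u} [L.Structure M] [L.Structure N] [L₁.Structure M] [L₁.Structure N]
  [φ.IsExpansionOn M] [φ.IsExpansionOn N]

theorem le_comap_of_atEq {Q : Type w} {v : Q → N} {v' : Q → M} (h : AtEq L₁ v v')
    (hM : ∀ S : L₁.Substructure M, K.le (φ.substructureReduct S)) (s : Set Q) :
    K.le ((φ.substructureReduct (closure L₁ (v '' s))).comap
      (φ.substructureReduct (closure L₁ (Set.range v))).subtype.toHom) := by
  obtain ⟨e, he⟩ := (h.isPI.reduct φ).exists_equiv_sub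
    (φ.substructureReduct (closure L₁ (Set.range v)))
    (φ.substructureReduct (closure L₁ (Set.range v')))
    (fun x hx => exists_termGraph v v' hx)
    (fun y hy => by
      obtain ⟨x, hx, hxy⟩ := exists_termGraph v' v (x := y) hy
      exact ⟨x, hx, termGraph_swap hxy⟩)
  refine AEC.le_comap_of_equiv (T' := φ.substructureReduct (closure L₁ (v' '' s))) e ?_ ?_
  · intro x
    constructor
    · intro hx
      exact h.mem_closure s (he x) hx
    · intro hx
      exact h.symm.mem_closure s (termGraph_swap (he x)) hx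
  · refine K.coherence _ _ ?_ (hM _) (hM _)
    intro x hx
    exact closure_mono (image_subset_range _ _) hx

/-- **EM models belong to the class**, and closures of sets of indiscernibles are strong. -/
theorem em_le {a : ∀ n : ℕ, Fin n → M} {I : Type u} [LinearOrder I] {c : I → N}
    (hc : IsEM L₁ a c) (htop : closure L₁ (Set.range c) = ⊤)
    (hM : ∀ S : L₁.Substructure M, K.le (φ.substructureReduct S)) :
    K.mem N ∧ ∀ J : Set I, K.le (φ.substructureReduct (closure L₁ (c '' J))) := by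
  classical
  have hm : Monotone fun b : Finset I => φ.substructureReduct (closure L₁ (c '' (b : Set I))) :=
    fun b b' hbb' => φ.substructureReduct.monotone (closure_mono (image_mono hbb'))
  have key := AEC.mem_of_finset_union (K := K)
    (fun b : Finset I => φ.substructureReduct (closure L₁ (c '' (b : Set I)))) hm ?_ ?_
  · refine ⟨key.1, fun J => ?_⟩
    have h1 := AEC.le_iSup_finset (K := K) (X := J)
      (fun b : Finset J => φ.substructureReduct (closure L₁ (c '' ((b.map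
        (Function.Embedding.subtype _) : Finset I) : Set I))))
      (fun b b' hbb' => hm (Finset.map_subset_map.2 hbb')) (fun b => key.2 _)
    convert h1 using 1
    apply le_antisymm
    · intro x hx
      obtain ⟨b, hb⟩ := mem_closure_finite c J (L := L₁) hx
      exact (le_iSup (fun b : Finset J => φ.substructureReduct (closure L₁ (c '' ((b.map
        (Function.Embedding.subtype _) : Finset I) : Set I)))) b) hb
    · refine iSup_le fun b => ?_
      intro x hx
      refine closure_mono (image_mono ?_) hx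
      intro y hy
      simp only [Finset.coe_map, Function.Embedding.subtype_apply, Set.mem_image] at hy
      obtain ⟨z, _, rfl⟩ := hy
      exact z.2
  · intro b b' hbb'
    have h1 : Set.range (fun k => c (b'.orderEmbOfFin rfl k)) = c '' (b' : Set I) := by
      rw [Set.range_comp' c, Finset.range_orderEmbOfFin]
    have h2 : (fun k => c (b'.orderEmbOfFin rfl k)) '' {k | b'.orderEmbOfFin rfl k ∈ b} =
        c '' (b : Set I) := by
      ext x
      constructor
      · rintro ⟨k, hk, rfl⟩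
        exact ⟨_, hk, rfl⟩
      · rintro ⟨i, hi, rfl⟩
        have h3 : i ∈ (b' : Set I) := hbb' hi
        rw [← Finset.range_orderEmbOfFin b' rfl] at h3
        obtain ⟨k, rfl⟩ := h3
        exact ⟨k, hi, rfl⟩
    have h4 := le_comap_of_atEq (K := K) φ
      (hc b'.card (b'.orderEmbOfFin rfl) (b'.orderEmbOfFin rfl).strictMono) hM
      {k | b'.orderEmbOfFin rfl k ∈ b}
    rw [h1, h2] at h4
    exact h4
  · intro x
    have hx : x ∈ closure L₁ (c '' (Set.univ : Set I)) := by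
      rw [image_univ, htop]
      trivial
    obtain ⟨b, hb⟩ := mem_closure_finite c _ (L := L₁) hx
    exact ⟨_, hb⟩

end emk

end Vale.Agent.P307
end
end

section

section

universe u v w

open FirstOrder Cardinal Set

namespace Vale.Agent.P307

open Language.Structure Language.Substructure

/-- The language with `Λ` function symbols in each arity. -/
def skLang (Λ : Type u) : Language.{u, u} := ⟨fun _ => Λ, fun _ => PEmpty⟩

/-- The expanded language. -/
abbrev exLang (L : Language.{u, u}) (Λ : Type u) : Language.{u, u} := L.sum (skLang Λ)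

/-- The inclusion of the language in the expanded language. -/
abbrev exHom (L : Language.{u, u}) (Λ : Type u) : L →ᴸ exLang L Λ := Language.LHom.sumInl

theorem card_exLang_le {L : Language.{u, u}} {Λ : Type u} {ℓ : Cardinal.{u}} (hℓ : ℵ₀ ≤ ℓ)
    (hL : L.card ≤ ℓ) (hΛ : #Λ ≤ ℓ) : (exLang L Λ).card ≤ ℓ := by
  rw [exLang, Language.card_sum, lift_id, lift_id]
  refine add_le_of_le hℓ hL ?_
  have : (skLang Λ).card = lift.{u} (ℵ₀ * #Λ) := by
    rw [Language.card, Language.Symbols]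
    have h2 : IsEmpty (Σ l, (skLang Λ).Relations l) := ⟨fun x => PEmpty.elim x.2⟩
    rw [mk_sum, mk_eq_zero (Σ l, (skLang Λ).Relations l), lift_zero, add_zero, lift_id]
    have h1 : (Σ l, (skLang Λ).Functions l) = (Σ _ : ℕ, Λ) := rfl
    rw [h1, mk_sigma]
    simp
  rw [this, lift_id]
  exact (mul_le_mul' hℓ hΛ).trans_eq (mul_eq_self hℓ)

variable {L : Language.{u, u}} {K : AEC L}

theorem exists_skolem {M : Type u} [L.Structure M] {ℓ : Cardinal.{u}} (hK : K.IsLS ℓ)
    (hM : K.mem M) [Nonempty M] (Λ : Type u) (hΛ : #Λ = ℓ) :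
    ∃ sk : (skLang Λ).Structure M, ∀ S : (exLang L Λ).Substructure M,
      K.le ((exHom L Λ).substructureReduct S) := by
  classical
  obtain ⟨H, hH1, hH2, hH3, hH4⟩ := AEC.exists_hull' hK hM
  have he : ∀ a : Finset M, ∃ e : Λ → M, (H a : Set M) ⊆ Set.range e := by
    intro a
    have h1 := hH4 a
    rw [← hΛ] at h1
    obtain ⟨g⟩ := (Cardinal.le_def _ _).1 h1
    refine ⟨fun l => if h : ∃ x, g x = l then (h.choose : M) else Classical.arbitrary M, ?_⟩
    intro x hx
    refine ⟨g ⟨x, hx⟩, ?_⟩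
    have h : ∃ y, g y = g ⟨x, hx⟩ := ⟨_, rfl⟩
    simp only [dif_pos h]
    rw [g.injective h.choose_spec]
  choose e he using he
  let sk : (skLang Λ).Structure M :=
    { funMap := fun {n} (f : Λ) x => e (Finset.univ.image x) f
      RelMap := fun {n} r => PEmpty.elim r }
  refine ⟨sk, fun S => ?_⟩
  obtain ⟨S', hS'1, hS'2⟩ := AEC.le_of_hull_closed hH1 hH2 hH3 (S : Set M) (by
    intro a ha x hx
    obtain ⟨l, rfl⟩ := he a hx
    have h1 : Finset.univ.image (a.equivFin.symm : Fin a.card → a) = Finset.univ := by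
      ext y
      simp only [Finset.mem_image, Finset.mem_univ, true_and, iff_true]
      exact a.equivFin.symm.surjective y
    have h2 : Finset.univ.image (fun k : Fin a.card => (a.equivFin.symm k : M)) = a := by
      ext y
      simp only [Finset.mem_image, Finset.mem_univ, true_and]
      constructor
      · rintro ⟨k, rfl⟩
        exact (a.equivFin.symm k).2
      · intro hy
        exact ⟨a.equivFin ⟨y, hy⟩, by simp⟩
    have h3 := S.fun_mem (n := a.card) (Sum.inr (l : (skLang Λ).Functions a.card))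
      (fun k => (a.equivFin.symm k : M)) (fun k => ha (a.equivFin.symm k).2)
    have h4 : funMap (L := exLang L Λ) (Sum.inr (l : (skLang Λ).Functions a.card))
      (fun k => (a.equivFin.symm k : M)) = e a l := by
      change e (Finset.univ.image fun k : Fin a.card => (a.equivFin.symm k : M)) l = e a l
      rw [h2]
    rw [h4] at h3
    exact h3)
  have h5 : S' = (exHom L Λ).substructureReduct S := SetLike.coe_injective (by rw [hS'2]; rfl)
  rw [← h5]
  exact hS'1

end Vale.Agent.P307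
end
end

section

section

universe u

open FirstOrder Cardinal Set

namespace Vale.Agent.P307

variable {L : Language.{u, u}}

theorem exists_alpha {L₁ : Language.{u, u}} (φ : L →ᴸ L₁) {M₀ : Type u} [L₁.Structure M₀]
    (a : ∀ n : ℕ, Fin n → M₀) {ρ : Cardinal.{u}} (hρ : ℵ₀ ≤ ρ) (hL : L₁.card ≤ ρ) :
    ∃ α, ρ ≤ α ∧ ∀ ν, α ≤ ν → ∀ (M M' : Type u) [L.Structure M] [L.Structure M'],
      Std φ a ν M → Std φ a ν M' → ∀ R : Set (M × M'), #R ≤ ρ → Good L α R → Good L ν R := by
  have hQ : #ρ.out = ρ := mk_out ρ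
  have h1 : ∀ s : Set ρ.out, ∃ α, ρ ≤ α ∧ ∀ x y : Code L₁ s ρ.out, Rel φ a α x y →
      ∀ ν, α ≤ ν → Rel φ a ν x y := fun s =>
    exists_stab φ a s ρ.out ρ hρ ((mk_set_le s).trans_eq hQ)
  choose f hf1 hf2 using h1
  have hbdd : BddAbove (Set.range f) := bddAbove_of_small
  refine ⟨max ρ (⨆ s, f s), le_max_left _ _, ?_⟩
  intro ν hν M M' _ _ h h' R hR hgood
  rw [← hQ] at hR
  obtain ⟨g⟩ := (Cardinal.le_def _ _).1 hR
  let s : Set ρ.out := Set.range g
  let e : R ≃ s := Equiv.ofInjective g g.injective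
  have hs : f s ≤ max ρ (⨆ s, f s) := (le_ciSup hbdd s).trans (le_max_right _ _)
  have hrange : Set.range (fun i : s => ((e.symm i).1.1, (e.symm i).1.2)) = R := by
    ext p
    constructor
    · rintro ⟨i, rfl⟩
      exact (e.symm i).2
    · intro hp
      exact ⟨e ⟨p, hp⟩, by simp⟩
  have hE : EqS L (max ρ (⨆ s, f s)) (fun i : s => (e.symm i).1.1)
      (fun i : s => (e.symm i).1.2) := by
    unfold EqS
    rw [hrange]
    exact hgood
  have hιρ : #s ≤ ρ := (mk_set_le s).trans_eq hQ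
  have h2 := Std.stab (ι := s) (Q := ρ.out) (hρ.trans (le_max_left _ _))
    (hL.trans (le_max_left _ _)) (hQ.le.trans (le_max_left _ _)) (hρ.trans hQ.ge)
    (hιρ.trans hQ.ge) (fun x y hxy ν hν => ?_) hν h h' hE
  · unfold EqS at h2
    rw [hrange] at h2
    exact h2
  · exact hf2 s x y (hxy.mono (hρ.trans (hf1 s)) hs (hιρ.trans (hf1 s))) ν (hs.trans hν)

/-- The back and forth of length `ω`. -/
theorem exists_iso {L₁ : Language.{u, u}} (φ : L →ᴸ L₁) {M₀ : Type u} [L₁.Structure M₀]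
    (a : ∀ n : ℕ, Fin n → M₀) {ℓ θ : Cardinal.{u}} (hℓ : ℵ₀ ≤ ℓ) (hL : L₁.card ≤ ℓ)
    (hℓθ : ℓ < θ) (hθ : θ.ord.cof = ℵ₀) (α : Cardinal.{u} → Cardinal.{u})
    (hα : ∀ ρ, ℓ ≤ ρ → ρ ≤ α ρ ∧ ∀ ν, α ρ ≤ ν → ∀ (M M' : Type u) [L.Structure M]
      [L.Structure M'], Std φ a ν M → Std φ a ν M' → ∀ R : Set (M × M'), #R ≤ ρ →
      Good L (α ρ) R → Good L ν R)
    (hαθ : ∀ ρ < θ, α ρ < θ) (M M' : Type u) [L.Structure M] [L.Structure M']
    (hM : #M = θ) (hM' : #M' = θ) (hs : ∀ ν < θ, ℓ ≤ ν → Std φ a ν M)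
    (hs' : ∀ ν < θ, ℓ ≤ ν → Std φ a ν M') : Nonempty (M ≃[L] M') := by
  obtain ⟨A, hA1, hA2, hA3⟩ := exists_filtration hM (hℓ.trans hℓθ.le) hθ
  obtain ⟨B, hB1, hB2, hB3⟩ := exists_filtration hM' (hℓ.trans hℓθ.le) hθ
  -- the sizes
  let t : ℕ → Cardinal.{u} := fun n => max ℓ (max #(A n) #(B n))
  have ht1 : ∀ n, ℓ ≤ t n := fun n => le_max_left _ _
  have ht2 : ∀ n, t n < θ := fun n => max_lt hℓθ (max_lt (hA2 n) (hB2 n))
  have htA : ∀ n, #(A n) ≤ t n := fun n => (le_max_left _ _).trans (le_max_right _ _)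
  have htB : ∀ n, #(B n) ≤ t n := fun n => (le_max_right _ _).trans (le_max_right _ _)
  have htm : Monotone t := fun m n hmn => max_le_max le_rfl
    (max_le_max (mk_le_mk_of_subset (hA1 hmn)) (mk_le_mk_of_subset (hB1 hmn)))
  -- one step
  have step : ∀ (n m : ℕ) (R : Set (M × M')), n ≤ m → #R ≤ t n → Good L (α (t n)) R →
      ∃ R' : Set (M × M'), R ⊆ R' ∧ #R' ≤ t m ∧ Good L (α (t m)) R' ∧
        (∀ x ∈ A m, ∃ y, (x, y) ∈ R') ∧ (∀ y ∈ B m, ∃ x, (x, y) ∈ R') := by
    intro n m R hnm hR hgood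
    let ν := max (α (t n)) (α (t m))
    have hν : ν < θ := max_lt (hαθ _ (ht2 n)) (hαθ _ (ht2 m))
    have hmν : t m ≤ ν := (hα _ (ht1 m)).1.trans (le_max_right _ _)
    have hℓν : ℓ ≤ ν := (ht1 m).trans hmν
    have h1 : Good L ν R := (hα _ (ht1 n)).2 ν (le_max_left _ _) M M' (hs ν hν hℓν)
      (hs' ν hν hℓν) R hR hgood
    have htm0 : ℵ₀ ≤ t m := hℓ.trans (ht1 m)
    obtain ⟨R₁, h2, h3, h4⟩ := h1.exists_left (A m) ((htA m).trans hmν)
    obtain ⟨R₂, h5, h6, h7, h8⟩ := exists_trim htm0 h2 (hR.trans (htm hnm)) (A m) (htA m) h4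
    have h9 : Good L ν R₂ := h3.subset h6
    obtain ⟨R₃, h10, h11, h12⟩ := h9.exists_right (B m) ((htB m).trans hmν)
    have hsw : #(Prod.swap ⁻¹' R₂ : Set (M' × M)) ≤ t m :=
      (mk_congr ((Equiv.prodComm M' M).subtypeEquiv (fun _ => Iff.rfl))).trans_le h7
    obtain ⟨R₄, h13, h14, h15, h16⟩ := exists_trim (M := M') (N := M) htm0
      (R := Prod.swap ⁻¹' R₂) (R' := Prod.swap ⁻¹' R₃) (preimage_mono h10) hsw (B m) (htB m) h12
    have h17 : R₂ ⊆ Prod.swap ⁻¹' R₄ := fun p hp => h13 (a := p.swap) hp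
    refine ⟨Prod.swap ⁻¹' R₄, h5.trans h17, ?_, ?_, ?_, h16⟩
    · exact (mk_congr ((Equiv.prodComm M M').subtypeEquiv (fun _ => Iff.rfl))).trans_le h15
    · refine Good.mono (hℓ.trans ((ht1 m).trans (hα _ (ht1 m)).1)) (le_max_right _ _)
        (h11.subset (fun p hp => h14 hp)) ?_
      exact ((mk_congr ((Equiv.prodComm M M').subtypeEquiv (fun _ => Iff.rfl))).trans_le
        h15).trans (hα _ (ht1 m)).1
    · intro x hx
      obtain ⟨y, hy⟩ := h8 x hx
      exact ⟨y, h17 hy⟩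
  -- the start
  have h0 : Good L (α (t 0)) (∅ : Set (M × M')) := by
    have h1 : ℓ ≤ α (t 0) := (ht1 0).trans (hα _ (ht1 0)).1
    exact Std.good_empty (hℓ.trans h1) (hL.trans h1) (hs _ (hαθ _ (ht2 0)) h1)
      (hs' _ (hαθ _ (ht2 0)) h1)
  -- the sequence
  let P : ℕ → Type u := fun n => {R : Set (M × M') // #R ≤ t n ∧ Good L (α (t n)) R}
  let next : ∀ n, P n → P (n + 1) := fun n R =>
    ⟨(step n (n + 1) R.1 (Nat.le_succ n) R.2.1 R.2.2).choose,
      (step n (n + 1) R.1 (Nat.le_succ n) R.2.1 R.2.2).choose_spec.2.1,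
      (step n (n + 1) R.1 (Nat.le_succ n) R.2.1 R.2.2).choose_spec.2.2.1⟩
  let seq : ∀ n, P n := fun n => Nat.rec ⟨∅, by simp, h0⟩ (fun n R => next n R) n
  have hseq : ∀ n, seq (n + 1) = next n (seq n) := fun n => rfl
  have hspec : ∀ n, (seq n).1 ⊆ (seq (n + 1)).1 ∧ (∀ x ∈ A (n + 1), ∃ y, (x, y) ∈ (seq (n + 1)).1) ∧
      (∀ y ∈ B (n + 1), ∃ x, (x, y) ∈ (seq (n + 1)).1) := fun n => by
    rw [hseq]
    have h1 := (step n (n + 1) (seq n).1 (Nat.le_succ n) (seq n).2.1 (seq n).2.2).choose_spec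
    exact ⟨h1.1, h1.2.2.2.1, h1.2.2.2.2⟩
  have hmono : Monotone fun n => (seq n).1 := monotone_nat_of_le_succ fun n => (hspec n).1
  have hPI : IsPI L (⋃ n, (seq n).1) := by
    have hfin : ∀ {k : ℕ} (x : Fin k → M × M') (q : M × M'), (∀ i, x i ∈ ⋃ n, (seq n).1) →
        q ∈ ⋃ n, (seq n).1 → ∃ n, (∀ i, x i ∈ (seq n).1) ∧ q ∈ (seq n).1 := by
      intro k x q hx hq
      choose g hg using fun i => mem_iUnion.1 (hx i)
      obtain ⟨m, hm⟩ := mem_iUnion.1 hq
      refine ⟨max m (Finset.univ.sup g), fun i => ?_, hmono (le_max_left _ _) hm⟩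
      exact hmono ((Finset.le_sup (Finset.mem_univ i)).trans (le_max_right _ _)) (hg i)
    constructor
    · intro p hp q hq
      obtain ⟨n, h1, h2⟩ := hfin (k := 1) (fun _ => p) q (fun _ => hp) hq
      exact (seq n).2.2.1.eq_iff p (h1 0) q h2
    · intro k f x hx q hq
      obtain ⟨n, h1, h2⟩ := hfin x q hx hq
      exact (seq n).2.2.1.fun_iff f x h1 q h2
    · intro k r x hx
      obtain ⟨n, h1⟩ : ∃ n, ∀ i, x i ∈ (seq n).1 := by
        choose g hg using fun i => mem_iUnion.1 (hx i)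
        exact ⟨Finset.univ.sup g, fun i => hmono (Finset.le_sup (Finset.mem_univ i)) (hg i)⟩
      exact (seq n).2.2.1.rel_iff r x h1
  obtain ⟨e, -⟩ := hPI.exists_equiv
    (fun x => by
      obtain ⟨n, hn⟩ := hA3 x
      obtain ⟨y, hy⟩ := (hspec n).2.1 x (hA1 (Nat.le_succ n) hn)
      exact ⟨y, mem_iUnion.2 ⟨_, hy⟩⟩)
    (fun y => by
      obtain ⟨n, hn⟩ := hB3 y
      obtain ⟨x, hx⟩ := (hspec n).2.2 y (hB1 (Nat.le_succ n) hn)
      exact ⟨x, mem_iUnion.2 ⟨_, hx⟩⟩)
  exact ⟨e⟩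

end Vale.Agent.P307
end
end

section

section

universe u

open FirstOrder Cardinal Set

namespace Vale.Agent.P307

open Language.Structure Language.Substructure

variable {L : Language.{u, u}}

theorem IsEM.injective {M N I : Type u} [L.Structure M] [L.Structure N] [LinearOrder I]
    {a : ∀ n : ℕ, Fin n → M} {c : I → N} (hc : IsEM L a c) (ha : a 2 0 ≠ a 2 1) :
    Function.Injective c := by
  have key : ∀ i j : I, i < j → c i ≠ c j := by
    intro i j hij h
    have hs : StrictMono ![i, j] := by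
      intro k l hkl
      fin_cases k <;> fin_cases l <;> simp_all
    have h1 := (hc 2 ![i, j] hs).1 (Language.Term.var 0) (Language.Term.var 1)
    simp only [Language.Term.realize_var] at h1
    exact ha (h1.1 (by simpa using h))
  intro i j h
  rcases lt_trichotomy i j with hij | hij | hij
  · exact absurd h (key i j hij)
  · exact hij
  · exact absurd h.symm (key j i hij)

theorem two_le_of_unb {ν κ : Cardinal.{u}} (hν : ℵ₀ ≤ ν) (hκ : ν < κ) : 2 ≤ κ := by
  have : (2 : Cardinal.{u}) ≤ ℵ₀ := by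
    exact_mod_cast (natCast_lt_aleph0 (n := 2)).le
  exact this.trans (hν.trans hκ.le)

theorem exists_std {K : AEC L} {ℓ : Cardinal.{u}} (hK : K.IsLS ℓ)
    (hunb : ∀ ν, ℵ₀ ≤ ν → ∃ κ : Cardinal.{u}, ν < κ ∧ κ ^ ν = κ ∧ K.CategoricalIn κ) :
    ∃ (L₁ : Language.{u, u}) (φ : L →ᴸ L₁) (M₀ : Type u) (_ : L₁.Structure M₀)
      (a : ∀ n : ℕ, Fin n → M₀), L₁.card ≤ ℓ ∧
      ∀ ν, ℓ ≤ ν → ∃ κ : Cardinal.{u}, ∀ (M : Type u) [L.Structure M], K.mem M → κ ≤ #M →
        Std φ a ν M := by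
  have hℓ := hK.1
  obtain ⟨κ₀, h1, h2, ⟨M₀, hM₀, h3, h4⟩, -⟩ := hunb (max (hanf (2 ^ ℓ)) ℓ)
    (hℓ.trans (le_max_right _ _))
  obtain ⟨Λ, hΛ⟩ : ∃ Λ : Type u, #Λ = ℓ := ⟨ℓ.out, mk_out ℓ⟩
  have hne : Nonempty M₀ := by
    rw [← mk_ne_zero_iff, h4]
    exact (pos_of_gt h1).ne'
  obtain ⟨sk, hsk⟩ := exists_skolem hK h3 Λ hΛ
  have hL : (exLang L Λ).card ≤ ℓ := card_exLang_le hℓ hK.2.1 hΛ.le
  obtain ⟨x⟩ : Nonempty (κ₀.ord.ToType ≃ M₀) := Cardinal.eq.1 (by rw [h4, mk_ord_toType])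
  obtain ⟨a, ha1, ha2⟩ := exists_template (L := exLang L Λ) hℓ hL x (by
    rw [mk_ord_toType]
    exact (le_max_left _ _).trans h1.le)
  have ha3 : x (a 2 0) ≠ x (a 2 1) := fun h =>
    absurd (x.injective h) (ha1 2 (show (0 : Fin 2) < 1 by decide)).ne
  refine ⟨exLang L Λ, exHom L Λ, M₀, inferInstance, fun n i => x (a n i), hL, fun ν hν => ?_⟩
  have hν0 : ℵ₀ ≤ ν := hℓ.trans hν
  obtain ⟨κ, h5, h6, h7⟩ := hunb ν hν0
  obtain ⟨I, hI, hI1, hI2⟩ := exists_nice ν κ
  obtain ⟨N, hN, c, hc1, hc2⟩ := exists_isEM (L := exLang L Λ) (M := M₀)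
    (a := fun n i => x (a n i)) ha2 I
  let _ : L.Structure N := (exHom L Λ).reduct N
  have this : (exHom L Λ).IsExpansionOn N := Language.LHom.isExpansionOn_reduct _ _
  have hNK := (em_le (K := K) (exHom L Λ) hc1 hc2 hsk).1
  have hcN : κ ≤ #N := hI2.trans (mk_le_of_injective (hc1.injective ha3))
  have hIne : Nonempty I := by
    rw [← mk_ne_zero_iff]
    exact ((pos_of_gt h5).trans_le hI2).ne'
  let E : EMM (exHom L Λ) (fun n i => x (a n i)) ν :=
    { I := I, ne := hIne, N := N, exp := this, c := c, isEM := hc1, top := hc2, nice := hI1 }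
  refine ⟨κ, fun M _ hM hκM => ⟨E, ?_⟩⟩
  exact good_empty_of_categorical hK hν h6 (two_le_of_unb hν0 h5) h7 hM hNK hκM hcN

theorem exists_mem_card {K : AEC L} {ℓ θ : Cardinal.{u}} (hK : K.IsLS ℓ) (hθ : ℓ ≤ θ)
    {M : Type u} [L.Structure M] (hM : K.mem M) (hMθ : θ ≤ #M) :
    ∃ (N : Type u) (_ : L.Structure N), K.mem N ∧ #N = θ := by
  obtain ⟨A, hA⟩ := le_mk_iff_exists_set.1 hMθ
  obtain ⟨S, h1, h2, h3⟩ := hK.2.2 M hM A
  refine ⟨S, inferInstance, (K.mem_of_le _ h1).1, le_antisymm ?_ ?_⟩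
  · refine h3.trans ?_
    rw [hA]
    exact add_le_of_le (hK.1.trans hθ) le_rfl hθ
  · rw [← hA]
    exact mk_le_mk_of_subset h2

/-- The main theorem for a single class. -/
theorem exists_closure_fun {K : AEC L}
    (hunb : ∀ ν, ℵ₀ ≤ ν → ∃ κ : Cardinal.{u}, ν < κ ∧ κ ^ ν = κ ∧ K.CategoricalIn κ) :
    ∃ g : Cardinal.{u} → Cardinal.{u}, ∀ θ, (∀ ρ < θ, g ρ < θ) → θ.ord.cof = ℵ₀ →
      K.CategoricalIn θ := by
  obtain ⟨ℓ, hK⟩ : ∃ ℓ, K.IsLS ℓ := ⟨_, AEC.isLS_LS K⟩
  obtain ⟨L₁, φ, M₀, hM₀, a, hL, hstd⟩ := exists_std hK hunb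
  have h1 : ∀ ρ, ∃ α, ℓ ≤ ρ → (ρ ≤ α ∧ ∀ ν, α ≤ ν → ∀ (M M' : Type u) [L.Structure M]
      [L.Structure M'], Std φ a ν M → Std φ a ν M' → ∀ R : Set (M × M'), #R ≤ ρ →
      Good L α R → Good L ν R) := by
    intro ρ
    by_cases hρ : ℓ ≤ ρ
    · obtain ⟨α, h⟩ := exists_alpha φ a (hK.1.trans hρ) (hL.trans hρ)
      exact ⟨α, fun _ => h⟩
    · exact ⟨0, fun h => absurd h hρ⟩
  choose α hα using h1
  have h2 : ∀ ν, ∃ κ : Cardinal.{u}, ℓ ≤ ν → ∀ (M : Type u) [L.Structure M], K.mem M → κ ≤ #M →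
      Std φ a ν M := by
    intro ν
    by_cases hν : ℓ ≤ ν
    · obtain ⟨κ, h⟩ := hstd ν hν
      exact ⟨κ, fun _ => h⟩
    · exact ⟨0, fun h => absurd h hν⟩
  choose κ hκ using h2
  refine ⟨fun ρ => max ℓ (max (α ρ) (κ ρ)), ?_⟩
  intro θ hθ' hcof
  have hθ0 : 0 < θ := by
    rw [pos_iff_ne_zero]
    rintro rfl
    rw [ord_zero, Ordinal.cof_zero] at hcof
    exact aleph0_ne_zero hcof.symm
  have hℓθ : ℓ < θ := (le_max_left _ _).trans_lt (hθ' 0 hθ0)
  have hθ : ∀ ρ < θ, max (α ρ) (κ ρ) < θ := fun ρ hρ => (le_max_right _ _).trans_lt (hθ' ρ hρ)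
  constructor
  · obtain ⟨χ, h3, -, ⟨M, _, h4, h5⟩, -⟩ := hunb θ (hK.1.trans hℓθ.le)
    exact exists_mem_card hK hℓθ.le h4 (h3.le.trans h5.ge)
  · intro M N _ _ hM hN hMθ hNθ
    refine exists_iso φ a hK.1 hL hℓθ hcof α hα
      (fun ρ hρ => (le_max_left _ _).trans_lt (hθ ρ hρ)) M N hMθ hNθ ?_ ?_
    · intro ν hν hℓν
      exact hκ ν hℓν M hM (((le_max_right _ _).trans_lt (hθ ν hν)).le.trans hMθ.ge)
    · intro ν hν hℓν
      exact hκ ν hℓν N hN (((le_max_right _ _).trans_lt (hθ ν hν)).le.trans hNθ.ge)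

end Vale.Agent.P307
end
end

section

section

universe u

open FirstOrder Cardinal Set

namespace Vale.Agent.P307

open Language.Structure

section dn

variable {L L' : Language.{u, u}} (φ : L →ᴸ L')

/-- The reduct of a structure. -/
def Dn (_φ : L →ᴸ L') (N : Type u) : Type u := N

instance (N : Type u) [L'.Structure N] : L.Structure (Dn φ N) := φ.reduct N

/-- The reduct of a substructure. -/
def dn {N : Type u} [L'.Structure N] (S : L'.Substructure N) : L.Substructure (Dn φ N) where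
  carrier := (S : Set N)
  fun_mem := fun {_} f x hx => S.fun_mem (φ.onFunction f) x hx

/-- The reduct of an isomorphism. -/
def dnEquiv {M N : Type u} [L'.Structure M] [L'.Structure N] (e : M ≃[L'] N) :
    Dn φ M ≃[L] Dn φ N where
  toEquiv := e.toEquiv
  map_fun' := fun {_} f x => e.map_fun (φ.onFunction f) x
  map_rel' := fun {_} r x => e.map_rel (φ.onRelation r) x

/-- The reduct of a substructure, as a structure. -/
def dnSub {N : Type u} [L'.Structure N] (S : L'.Substructure N) :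
    Dn φ S ≃[L] dn φ S where
  toFun := fun x => x
  invFun := fun x => x
  left_inv := fun _ => rfl
  right_inv := fun _ => rfl
  map_fun' := fun {_} _ _ => rfl
  map_rel' := fun {_} _ _ => Iff.rfl

variable {φ}

theorem exists_up (hφ : ∀ n, Function.Surjective (φ.onFunction (n := n))) {N : Type u}
    [L'.Structure N] (T : L.Substructure (Dn φ N)) : ∃ S : L'.Substructure N, dn φ S = T := by
  refine ⟨{ carrier := (T : Set (Dn φ N)), fun_mem := ?_ }, rfl⟩
  intro n f x hx
  obtain ⟨g, rfl⟩ := hφ n f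
  exact T.fun_mem g x hx

theorem dn_iSup {N : Type u} [L'.Structure N] {ι : Type u} [Nonempty ι] [LinearOrder ι]
    (S : ι → L'.Substructure N) (hS : Monotone S) : dn φ (⨆ i, S i) = ⨆ i, dn φ (S i) := by
  have hd : Directed (· ≤ ·) fun i => dn φ (S i) :=
    directed_of_isDirected_le (fun i j hij => fun x hx => hS hij hx)
  ext x
  rw [Language.Substructure.mem_iSup_of_directed hd]
  exact Language.Substructure.mem_iSup_of_directed (directed_of_isDirected_le hS)

theorem card_le_of_surj (hf : ∀ n, Function.Bijective (φ.onFunction (n := n)))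
    (hr : ∀ n, Function.Surjective (φ.onRelation (n := n))) : L'.card ≤ L.card := by
  refine mk_le_of_surjective (f := Sum.map (Sigma.map id fun n => φ.onFunction (n := n))
    (Sigma.map id fun n => φ.onRelation (n := n))) ?_
  refine Function.Surjective.sumMap ?_ ?_
  · exact Function.surjective_id.sigma_map fun n => (hf n).2
  · exact Function.surjective_id.sigma_map hr

variable (φ) in
/-- Transport of an abstract elementary class along a bijective map of vocabularies. -/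
def AEC.up (K : AEC L) (hf : ∀ n, Function.Bijective (φ.onFunction (n := n)))
    (hr : ∀ n, Function.Surjective (φ.onRelation (n := n))) : AEC L' where
  mem := fun M _ => K.mem (Dn φ M)
  le := fun {N} _ S => K.le (dn φ S)
  mem_iso := fun {M N} _ _ e h => K.mem_iso (dnEquiv φ e) h
  le_iso := fun {M N} _ _ e S h => K.le_iso (dnEquiv φ e) (dn φ S) h
  mem_of_le := fun {N} _ S h => ⟨K.mem_iso (dnSub φ S).symm (K.mem_of_le _ h).1,
    (K.mem_of_le _ h).2⟩
  le_refl := fun {N} _ h => K.le_refl h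
  le_trans := fun {N} _ T S h1 h2 => by
    have h3 := K.le_iso (dnSub φ T) _ h1
    have h4 := K.le_trans (dn φ T) _ h3 h2
    convert h4 using 1
    ext x
    constructor
    · rintro ⟨y, hy, rfl⟩
      exact ⟨y, ⟨y, hy, rfl⟩, rfl⟩
    · rintro ⟨y, ⟨z, hz, rfl⟩, rfl⟩
      exact ⟨z, hz, rfl⟩
  coherence := fun {N} _ S T h h1 h2 => by
    have h3 := K.coherence (dn φ S) (dn φ T) h h1 h2
    have h4 := K.le_iso (dnSub φ T).symm _ h3
    convert h4 using 1
    ext x
    constructor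
    · intro hx
      exact ⟨x, hx, rfl⟩
    · rintro ⟨y, hy, rfl⟩
      exact hy
  chain_union := fun {U} _ {ι} _ _ _ S hS h hU => by
    refine K.chain_union (fun i => dn φ (S i)) hS (fun i j hij => ?_) hU
    have h4 := K.le_iso (dnSub φ (S j)) _ (h i j hij)
    convert h4 using 1
    ext x
    constructor
    · intro hx
      exact ⟨x, hx, rfl⟩
    · rintro ⟨y, hy, rfl⟩
      exact hy
  chain_smooth := fun {N} _ {ι} _ _ _ S hS h => by
    have h3 := K.chain_smooth (fun i => dn φ (S i)) hS h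
    rw [← dn_iSup S hS] at h3
    exact h3
  exists_ls := by
    obtain ⟨ℓ, h1, h2, h3⟩ := K.exists_ls
    refine ⟨ℓ, h1, (card_le_of_surj hf hr).trans h2, fun {N} _ hN A => ?_⟩
    obtain ⟨T, h4, h5, h6⟩ := h3 hN A
    obtain ⟨S, rfl⟩ := exists_up (fun n => (hf n).2) T
    exact ⟨S, h4, h5, h6⟩

theorem AEC.up_isLS {K : AEC L} (hf : ∀ n, Function.Bijective (φ.onFunction (n := n)))
    (hr : ∀ n, Function.Surjective (φ.onRelation (n := n))) {ℓ : Cardinal.{u}} (h : K.IsLS ℓ) :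
    (K.up φ hf hr).IsLS ℓ := by
  refine ⟨h.1, (card_le_of_surj hf hr).trans h.2.1, fun N _ hN A => ?_⟩
  obtain ⟨T, h4, h5, h6⟩ := h.2.2 (Dn φ N) hN A
  obtain ⟨S, rfl⟩ := exists_up (fun n => (hf n).2) T
  exact ⟨S, h4, h5, h6⟩

/-- Every structure is a reduct. -/
theorem exists_expand (hf : ∀ n, Function.Bijective (φ.onFunction (n := n)))
    (hr : ∀ n, Function.Bijective (φ.onRelation (n := n))) (M : Type u) [L.Structure M] :
    ∃ s : L'.Structure M, Nonempty (M ≃[L] Dn φ M) := by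
  let s : L'.Structure M :=
    { funMap := fun {n} f x => funMap ((Equiv.ofBijective _ (hf n)).symm f) x
      RelMap := fun {n} r x => RelMap ((Equiv.ofBijective _ (hr n)).symm r) x }
  refine ⟨s, ⟨{
    toFun := fun x => x
    invFun := fun x => x
    left_inv := fun _ => rfl
    right_inv := fun _ => rfl
    map_fun' := ?_
    map_rel' := ?_ }⟩⟩
  · intro n f x
    change funMap f x = funMap ((Equiv.ofBijective _ (hf n)).symm
      (Equiv.ofBijective _ (hf n) f)) x
    rw [Equiv.symm_apply_apply]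
  · intro n r x
    change RelMap ((Equiv.ofBijective _ (hr n)).symm (Equiv.ofBijective _ (hr n) r)) x ↔
      RelMap r x
    rw [Equiv.symm_apply_apply]

theorem AEC.up_categoricalIn {K : AEC L} (hf : ∀ n, Function.Bijective (φ.onFunction (n := n)))
    (hr : ∀ n, Function.Bijective (φ.onRelation (n := n))) (κ : Cardinal.{u}) :
    (K.up φ hf (fun n => (hr n).2)).CategoricalIn κ ↔ K.CategoricalIn κ := by
  constructor
  · rintro ⟨⟨M, _, hM, hMκ⟩, h⟩
    refine ⟨⟨Dn φ M, inferInstance, hM, hMκ⟩, ?_⟩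
    intro M N _ _ hM hN hMκ hNκ
    obtain ⟨s, ⟨e⟩⟩ := exists_expand hf hr M
    obtain ⟨t, ⟨g⟩⟩ := exists_expand hf hr N
    obtain ⟨i⟩ := @h M N s t (K.mem_iso e hM) (K.mem_iso g hN) hMκ hNκ
    exact ⟨(g.symm.comp (dnEquiv φ i)).comp e⟩
  · rintro ⟨⟨M, _, hM, hMκ⟩, h⟩
    obtain ⟨s, ⟨e⟩⟩ := exists_expand hf hr M
    refine ⟨⟨M, s, K.mem_iso e hM, hMκ⟩, ?_⟩
    intro M N _ _ hM hN hMκ hNκ
    obtain ⟨i⟩ := h (Dn φ M) (Dn φ N) hM hN hMκ hNκ
    refine ⟨{ toEquiv := i.toEquiv, map_fun' := ?_, map_rel' := ?_ }⟩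
    · intro n f x
      obtain ⟨f, rfl⟩ := (hf n).2 f
      exact i.map_fun f x
    · intro n r x
      obtain ⟨r, rfl⟩ := (hr n).2 r
      exact i.map_rel r x

end dn

end Vale.Agent.P307
end
end

section

section

universe u

open FirstOrder Cardinal Set

namespace Vale.Agent.P307

open Language.Structure

section part

variable {L : Language.{u, u}} (Λ : Type u)

/-- The coded small pairs. -/
abbrev PartTy (L : Language.{u, u}) (Λ : Type u) : Type u :=
  Σ X : Set Λ, (L.Structure X) × Set X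

/-- The small part of a class. -/
def AEC.part (K : AEC L) : Set (PartTy L Λ) :=
  {p | ∃ S : @Language.Substructure L p.1 p.2.1, (S : Set p.1) = p.2.2 ∧ @AEC.le L K p.1 p.2.1 S}

variable {Λ}

theorem le_of_part_eq {K₁ K₂ : AEC L} (h : K₁.part Λ = K₂.part Λ) {N : Type u} [L.Structure N]
    (hN : #N ≤ #Λ) {S : L.Substructure N} (hS : K₁.le S) : K₂.le S := by
  obtain ⟨g⟩ := (Cardinal.le_def _ _).1 hN
  let X : Set Λ := Set.range g
  let e : N ≃ X := Equiv.ofInjective g g.injective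
  let _ : L.Structure X := e.inducedStructure
  let i : N ≃[L] X := e.inducedStructureEquiv
  have h1 := K₁.le_iso i S hS
  have h2 : (⟨X, inferInstance, (S.map i.toHom : Set X)⟩ : PartTy L Λ) ∈ K₁.part Λ :=
    ⟨S.map i.toHom, rfl, h1⟩
  rw [h] at h2
  obtain ⟨T, hT1, hT2⟩ := h2
  have h3 : T = S.map i.toHom := SetLike.coe_injective hT1
  have h4 : K₂.le (S.map i.toHom) := by
    rw [← h3]
    exact hT2
  have h5 := K₂.le_iso i.symm _ h4
  convert h5 using 1
  ext x
  constructor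
  · intro hx
    exact ⟨i x, ⟨x, hx, rfl⟩, i.symm_apply_apply x⟩
  · rintro ⟨_, ⟨y, hy, rfl⟩, rfl⟩
    have h6 : i.symm (i y) = y := i.symm_apply_apply y
    change i.symm (i y) ∈ S
    rw [h6]
    exact hy

theorem mem_of_part_eq {K₁ K₂ : AEC L} (h : K₁.part Λ = K₂.part Λ) (hK : K₁.IsLS #Λ)
    {N : Type u} [L.Structure N] (hN : K₁.mem N) : K₂.mem N := by
  obtain ⟨H, hH1, hH2, hH3, hH4⟩ := AEC.exists_hull' hK hN
  refine (AEC.mem_of_finset_union (K := K₂) H hH2 (fun a b hab => ?_) (fun x => ?_)).1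
  · exact le_of_part_eq h (hH4 b) (K₁.coherence _ _ (hH2 hab) (hH1 a) (hH1 b))
  · exact ⟨{x}, hH3 {x} (by simp)⟩

theorem categoricalIn_of_part_eq {K₁ K₂ : AEC L} (h : K₁.part Λ = K₂.part Λ) (hK₁ : K₁.IsLS #Λ)
    (hK₂ : K₂.IsLS #Λ) {κ : Cardinal.{u}} (hc : K₁.CategoricalIn κ) : K₂.CategoricalIn κ := by
  obtain ⟨⟨M, _, hM, hMκ⟩, h1⟩ := hc
  refine ⟨⟨M, inferInstance, mem_of_part_eq h hK₁ hM, hMκ⟩, ?_⟩
  intro M N _ _ hM hN hMκ hNκ
  exact h1 M N (mem_of_part_eq h.symm hK₂ hM) (mem_of_part_eq h.symm hK₂ hN) hMκ hNκ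

end part

section canonical

/-- The canonical vocabularies. -/
def canLang {Λ : Type u} (A B : ℕ → Set Λ) : Language.{u, u} :=
  ⟨fun n => A n, fun n => B n⟩

theorem exists_canLang (L : Language.{u, u}) (Λ : Type u) (hL : L.card ≤ #Λ) :
    ∃ (A B : ℕ → Set Λ) (φ : L →ᴸ canLang A B),
      (∀ n, Function.Bijective (φ.onFunction (n := n))) ∧
      ∀ n, Function.Bijective (φ.onRelation (n := n)) := by
  obtain ⟨g⟩ := (Cardinal.le_def _ _).1 hL
  let F : ∀ n, L.Functions n → Λ := fun n f => g (Sum.inl ⟨n, f⟩)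
  let R : ∀ n, L.Relations n → Λ := fun n f => g (Sum.inr ⟨n, f⟩)
  have hF : ∀ n, Function.Injective (F n) := fun n f f' h => by
    have := g.injective h
    simpa using this
  have hR : ∀ n, Function.Injective (R n) := fun n f f' h => by
    have := g.injective h
    simpa using this
  refine ⟨fun n => Set.range (F n), fun n => Set.range (R n),
    { onFunction := fun {n} f => ⟨F n f, f, rfl⟩
      onRelation := fun {n} r => ⟨R n r, r, rfl⟩ }, fun n => ⟨?_, ?_⟩, fun n => ⟨?_, ?_⟩⟩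
  · intro f f' h
    exact hF n (congrArg Subtype.val h)
  · rintro ⟨_, f, rfl⟩
    exact ⟨f, rfl⟩
  · intro f f' h
    exact hR n (congrArg Subtype.val h)
  · rintro ⟨_, f, rfl⟩
    exact ⟨f, rfl⟩

/-- Codes for classes with Löwenheim-Skolem number at most `#Λ`. -/
abbrev CodeTy (Λ : Type u) : Type u :=
  Σ p : (ℕ → Set Λ) × (ℕ → Set Λ), Set (PartTy (canLang p.1 p.2) Λ)

/-- The categoricity spectrum of the class with a given code. -/
def spec {Λ : Type u} (c : CodeTy Λ) : Set Cardinal.{u} :=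
  {κ | ∃ K : AEC (canLang c.1.1 c.1.2), K.IsLS #Λ ∧ K.part Λ = c.2 ∧ K.CategoricalIn κ}

/-- The spectra of all classes with Löwenheim-Skolem number at most `#Λ` form a small family. -/
theorem exists_code {Λ : Type u} {L : Language.{u, u}} (K : AEC L) (hK : K.IsLS #Λ) :
    ∃ c : CodeTy Λ, (∀ κ, κ ∈ spec c ↔ K.CategoricalIn κ) ∧
      ∃ K' : AEC (canLang c.1.1 c.1.2), K'.IsLS #Λ ∧ ∀ κ, κ ∈ spec c ↔ K'.CategoricalIn κ := by
  obtain ⟨A, B, φ, hf, hr⟩ := exists_canLang L Λ hK.2.1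
  let K' : AEC (canLang A B) := K.up φ hf (fun n => (hr n).2)
  have hK' : K'.IsLS #Λ := AEC.up_isLS hf (fun n => (hr n).2) hK
  have h1 : ∀ κ, κ ∈ spec (⟨(A, B), K'.part Λ⟩ : CodeTy Λ) ↔ K'.CategoricalIn κ := by
    intro κ
    constructor
    · rintro ⟨K'', h1, h2, h3⟩
      exact categoricalIn_of_part_eq h2 h1 hK' h3
    · intro h
      exact ⟨K', hK', rfl, h⟩
  refine ⟨⟨(A, B), K'.part Λ⟩, fun κ => ?_, K', hK', h1⟩
  rw [h1]
  exact AEC.up_categoricalIn hf hr κ

end canonical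

end Vale.Agent.P307
end
end

section

section

universe u

open FirstOrder Cardinal Set

namespace Vale.Agent.P307

theorem spec_dichotomy {Λ : Type u} (c : CodeTy Λ) :
    ∃ (g : Cardinal.{u} → Cardinal.{u}) (ν : Cardinal.{u}),
      (∀ θ, (∀ ρ < θ, g ρ < θ) → θ.ord.cof = ℵ₀ → θ ∈ spec c) ∨
      (ℵ₀ ≤ ν ∧ ∀ κ, ν < κ → κ ^ ν = κ → κ ∉ spec c) := by
  by_cases hunb : ∀ ν, ℵ₀ ≤ ν → ∃ κ : Cardinal.{u}, ν < κ ∧ κ ^ ν = κ ∧ κ ∈ spec c
  · obtain ⟨κ, -, -, K, hK1, hK2, -⟩ := hunb ℵ₀ le_rfl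
    have hspec : ∀ κ, κ ∈ spec c → K.CategoricalIn κ := by
      rintro κ ⟨K', h1, h2, h3⟩
      exact categoricalIn_of_part_eq (h2.trans hK2.symm) h1 hK1 h3
    obtain ⟨g, hg⟩ := exists_closure_fun (K := K) (fun ν hν => by
      obtain ⟨κ, h1, h2, h3⟩ := hunb ν hν
      exact ⟨κ, h1, h2, hspec κ h3⟩)
    exact ⟨g, 0, Or.inl fun θ h1 h2 => ⟨K, hK1, hK2, hg θ h1 h2⟩⟩
  · push Not at hunb
    obtain ⟨ν, hν, h⟩ := hunb
    exact ⟨id, ν, Or.inr ⟨hν, h⟩⟩

theorem power_eq_of_le {κ μ ν : Cardinal.{u}} (h : κ ^ μ = κ) (hν : ν ≤ μ) (hν0 : ℵ₀ ≤ ν)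
    (hκ : 1 ≤ κ) : κ ^ ν = κ := by
  apply le_antisymm
  · calc κ ^ ν ≤ κ ^ μ := power_le_power_left (zero_lt_one.trans_le hκ).ne' hν
      _ = κ := h
  · exact self_le_power κ (one_le_aleph0.trans hν0)

theorem uniform_club (l : Cardinal.{u}) :
    ∃ μ, l ≤ μ ∧ ∃ C : Set Cardinal.{u}, IsClub C ∧
      ∀ (L : Language.{u, u}) (K : AEC L), K.LS ≤ l →
        (∃ κ, μ ≤ κ ∧ κ ^ μ = κ ∧ K.CategoricalIn κ) →
        ∀ θ ∈ C, θ.ord.cof = ℵ₀ → K.CategoricalIn θ := by
  obtain ⟨Λ, hΛ⟩ : ∃ Λ : Type u, #Λ = l := ⟨l.out, mk_out l⟩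
  choose g ν h using fun c : CodeTy Λ => spec_dichotomy c
  have hbν : BddAbove (Set.range ν) := bddAbove_of_small
  have hbg : ∀ ρ, BddAbove (Set.range fun c => g c ρ) := fun ρ => bddAbove_of_small
  refine ⟨max l (Order.succ (⨆ c, ν c)), le_max_left _ _,
    {θ | l < θ ∧ ∀ ρ < θ, (⨆ c, g c ρ) < θ}, isClub_closure _ _, ?_⟩
  intro L K hK hcat θ hθ hcof
  obtain ⟨κ, hμκ, hκ, hcat⟩ := hcat
  have hLS : K.IsLS #Λ := AEC.isLS_of_LS_le (hK.trans hΛ.ge)
  obtain ⟨c, hc, -⟩ := exists_code K hLS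
  rw [← hc] at hcat ⊢
  rcases h c with h1 | ⟨h1, h2⟩
  · exact h1 θ (fun ρ hρ => (le_ciSup (hbg ρ) c).trans_lt (hθ.2 ρ hρ)) hcof
  · exfalso
    have h3 : ν c < max l (Order.succ (⨆ c, ν c)) :=
      (Order.lt_succ_of_le (le_ciSup hbν c)).trans_le (le_max_right _ _)
    have h4 : ν c < κ := h3.trans_le hμκ
    refine h2 κ h4 (power_eq_of_le hκ h3.le h1 ?_) hcat
    exact one_le_aleph0.trans (h1.trans h4.le)

end Vale.Agent.P307
end
end

section

section

universe u w

namespace Vale.Agent.P307.Gr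

open FirstOrder Language Cardinal Structure Set

variable {L L₁ : Language.{u, u}} (φ : L →ᴸ L₁)

section basic

variable {M N : Type u} [L.Structure M] [L₁.Structure M] [φ.IsExpansionOn M]
  [L.Structure N] [L₁.Structure N] [φ.IsExpansionOn N]

/-- the reduct of an embedding -/
def embReduct (f : M ↪[L₁] N) : M ↪[L] N where
  toFun := f
  inj' := f.injective
  map_fun' F x := by
    have := f.map_fun (φ.onFunction F) x
    rwa [φ.map_onFunction, φ.map_onFunction] at this
  map_rel' R x := by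
    have := f.map_rel (φ.onRelation R) x
    rwa [φ.map_onRelation, φ.map_onRelation] at this

/-- the reduct of an isomorphism -/
def equivReduct (f : M ≃[L₁] N) : M ≃[L] N where
  toEquiv := f.toEquiv
  map_fun' F x := by
    have := f.map_fun (φ.onFunction F) x
    rwa [φ.map_onFunction, φ.map_onFunction] at this
  map_rel' R x := by
    have := f.map_rel (φ.onRelation R) x
    rwa [φ.map_onRelation, φ.map_onRelation] at this

@[simp] theorem embReduct_apply (f : M ↪[L₁] N) (x : M) : embReduct φ f x = f x := rfl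

@[simp] theorem equivReduct_apply (f : M ≃[L₁] N) (x : M) : equivReduct φ f x = f x := rfl

/-- the reduct of an embedding of a substructure -/
def subEmb (S : L₁.Substructure N) (ρ : S ↪[L₁] M) : (φ.substructureReduct S) ↪[L] M where
  toFun x := ρ ⟨x.1, x.2⟩
  inj' x y h := by
    have := ρ.injective h
    exact Subtype.ext (Subtype.ext_iff.1 this)
  map_fun' F x := by
    have h1 := ρ.map_fun (φ.onFunction F) (fun i => (⟨(x i).1, (x i).2⟩ : S))
    rw [φ.map_onFunction (M := M)] at h1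
    refine Eq.trans ?_ h1
    congr 1
    apply Subtype.ext
    exact (φ.map_onFunction F (fun i => ((x i).1 : N))).symm
  map_rel' R x := by
    have h1 := ρ.map_rel (φ.onRelation R) (fun i => (⟨(x i).1, (x i).2⟩ : S))
    rw [φ.map_onRelation (M := M)] at h1
    refine Iff.trans h1 ?_
    have h2 : RelMap (φ.onRelation R) (fun i => ((x i).1 : N)) ↔
        RelMap R (fun i => ((x i).1 : N)) := by rw [φ.map_onRelation]
    exact h2

theorem range_subEmb (S : L₁.Substructure N) (ρ : S ↪[L₁] M) :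
    (subEmb φ S ρ).toHom.range = φ.substructureReduct ρ.toHom.range := by
  ext x
  constructor
  · rintro ⟨y, rfl⟩
    exact ⟨⟨y.1, y.2⟩, rfl⟩
  · rintro ⟨y, rfl⟩
    exact ⟨⟨y.1, y.2⟩, rfl⟩

end basic

section closed

variable {M N : Type u} [L.Structure M] [L₁.Structure M] [φ.IsExpansionOn M]
  [L.Structure N] [L₁.Structure N] [φ.IsExpansionOn N] {K : AEC L}

/-- all `L₁`-substructures are strong -/
def Cl1 (K : AEC L) (φ : L →ᴸ L₁) (M : Type u) [L.Structure M] [L₁.Structure M]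
    [φ.IsExpansionOn M] : Prop := ∀ S : L₁.Substructure M, K.le (φ.substructureReduct S)

variable {φ}

theorem Cl1.emb (h : Cl1 K φ M) (S : L₁.Substructure N) (ρ : S ↪[L₁] M) :
    K.Emb (subEmb φ S ρ) := by
  unfold AEC.Emb
  rw [range_subEmb]
  exact h _

theorem Cl1.sle (h : Cl1 K φ M) {S T : L₁.Substructure N} (hST : S ≤ T) (ρ : T ↪[L₁] M) :
    K.sle (φ.substructureReduct S) (φ.substructureReduct T) := by
  have hST' : φ.substructureReduct S ≤ φ.substructureReduct T := fun x hx => hST hx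
  refine ⟨hST', AEC.Emb.of_comp (h.emb T ρ) ?_⟩
  have h1 := h.emb S (ρ.comp (Substructure.inclusion hST))
  have h2 : (subEmb φ T ρ).comp (Substructure.inclusion hST') =
      subEmb φ S (ρ.comp (Substructure.inclusion hST)) := by
    apply Embedding.ext
    intro x
    rfl
  rw [h2]
  exact h1

/-- The property of being closed is determined by finitely generated substructures. -/
theorem Cl1.transfer (h : Cl1 K φ M)
    (hN : ∀ A : Finset N, ∃ ρ : Substructure.closure L₁ (A : Set N) ↪[L₁] M,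
      Function.Injective ρ) : K.mem N ∧ Cl1 K φ N := by
  classical
  let F : Finset N → L.Substructure N := fun A =>
    φ.substructureReduct (Substructure.closure L₁ (A : Set N))
  have hmono : Monotone F := fun A B hAB x hx =>
    Substructure.closure_mono (Finset.coe_subset.2 hAB) hx
  have h1 : K.mem N ∧ ∀ A, K.le (F A) := by
    refine AEC.mem_of_finset_union F hmono ?_ ?_
    · intro A B hAB
      rw [← AEC.sle_iff (hmono hAB)]
      obtain ⟨ρ, -⟩ := hN B
      exact h.sle (Substructure.closure_mono (Finset.coe_subset.2 hAB)) ρ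
    · intro x
      exact ⟨{x}, Substructure.subset_closure (by simp)⟩
  refine ⟨h1.1, fun S => ?_⟩
  have h2 := AEC.le_iSup_finset (K := K) (X := S) (fun A => F (A.map (Function.Embedding.subtype _)))
    (fun A B hAB => hmono (Finset.map_subset_map.2 hAB)) (fun A => h1.2 _)
  convert h2 using 1
  apply le_antisymm
  · intro x hx
    have h3 : x ∈ F (({(⟨x, hx⟩ : S)} : Finset S).map (Function.Embedding.subtype _)) := by
      apply Substructure.subset_closure
      simp
    exact (le_iSup (fun A : Finset S => F (A.map (Function.Embedding.subtype _))) _) h3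
  · refine iSup_le fun A => ?_
    intro x hx
    have h3 : Substructure.closure L₁ ((A.map (Function.Embedding.subtype _) : Finset N) : Set N) ≤
        S := by
      rw [Substructure.closure_le]
      intro y hy
      simp only [Finset.coe_map, Function.Embedding.subtype_apply, mem_image] at hy
      obtain ⟨z, _, rfl⟩ := hy
      exact z.2
    exact h3 hx

end closed

section term

variable {M N : Type u} [L₁.Structure M] [L₁.Structure N]

theorem mem_closure_range {Q : Type u} {b : Q → N} {x : N} :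
    x ∈ Substructure.closure L₁ (range b) ↔ ∃ t : L₁.Term Q, t.realize b = x := by
  constructor
  · intro hx
    obtain ⟨t, ht⟩ := Substructure.mem_closure_iff_exists_term.1 hx
    refine ⟨t.relabel (fun y => y.2.choose), ?_⟩
    rw [Term.realize_relabel, ← ht]
    congr 1
    funext y
    exact y.2.choose_spec
  · rintro ⟨t, rfl⟩
    exact Term.realize_mem t _ (fun q => Substructure.subset_closure ⟨q, rfl⟩)

theorem exists_closure_equiv {Q : Type u} {b : Q → N} {b' : Q → M} (h : AtEq L₁ b b') :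
    ∃ e : Substructure.closure L₁ (range b) ≃[L₁] Substructure.closure L₁ (range b'),
      ∀ (t : L₁.Term Q) (ht : t.realize b ∈ Substructure.closure L₁ (range b)),
        (e ⟨t.realize b, ht⟩ : M) = t.realize b' := by
  have hl : ∀ x ∈ Substructure.closure L₁ (range b), ∃ y ∈ Substructure.closure L₁ (range b'),
      (x, y) ∈ termGraph L₁ b b' := by
    intro x hx
    obtain ⟨t, rfl⟩ := mem_closure_range.1 hx
    exact ⟨t.realize b', mem_closure_range.2 ⟨t, rfl⟩, t, rfl⟩
  have hr : ∀ y ∈ Substructure.closure L₁ (range b'), ∃ x ∈ Substructure.closure L₁ (range b),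
      (x, y) ∈ termGraph L₁ b b' := by
    intro x hx
    obtain ⟨t, rfl⟩ := mem_closure_range.1 hx
    exact ⟨t.realize b, mem_closure_range.2 ⟨t, rfl⟩, t, rfl⟩
  obtain ⟨e, he⟩ := h.isPI.exists_equiv_sub (Substructure.closure L₁ (range b))
    (Substructure.closure L₁ (range b')) hl hr
  refine ⟨e, fun t ht => ?_⟩
  obtain ⟨s, hs⟩ := he ⟨t.realize b, ht⟩
  have h1 : s.realize b = t.realize b := (Prod.ext_iff.1 hs).1
  have h2 : s.realize b' = (e ⟨t.realize b, ht⟩ : M) := (Prod.ext_iff.1 hs).2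
  rw [← h2]
  exact (h.1 s t).1 h1

end term

section skolem

/-- A language with functions `Λ` and relations `Ρ` of every arity. -/
def LX (Λ Ρ : Type u) : Language.{u, u} := ⟨fun _ => Λ, fun _ => Ρ⟩

/-- The structure given by a family of operations and relations. -/
@[reducible] def lxStr {Λ Ρ M : Type u} (fn : ∀ n : ℕ, Λ → (Fin n → M) → M)
    (rl : ∀ n : ℕ, Ρ → (Fin n → M) → Prop) : (LX Λ Ρ).Structure M where
  funMap {n} F v := fn n F v
  RelMap {n} R v := rl n R v

theorem card_LX_le {Λ Ρ : Type u} {l : Cardinal.{u}} (hl : ℵ₀ ≤ l) (hL : L.card ≤ l) (hΛ : #Λ ≤ l)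
    (hΡ : #Ρ ≤ l) : (L.sum (LX Λ Ρ)).card ≤ l := by
  rw [Language.card_sum, lift_id, lift_id]
  refine add_le_of_le hl hL ?_
  have h1 : (LX Λ Ρ).card = #((Σ _ : ℕ, Λ) ⊕ (Σ _ : ℕ, Ρ)) := rfl
  rw [h1, mk_sum, lift_id, lift_id]
  have h2 : ∀ A : Type u, #A ≤ l → #(Σ _ : ℕ, A) ≤ l := by
    intro A hA
    rw [mk_sigma]
    refine (sum_le_lift_mk_mul_iSup _).trans ?_
    refine (mul_le_mul' (b := l) (d := l) ?_ (ciSup_le' fun _ => hA)).trans (mul_eq_self hl).le
    simpa using hl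
  exact add_le_of_le hl (h2 _ hΛ) (h2 _ hΡ)

variable {M : Type u} [L.Structure M] {K : AEC L} {l : Cardinal.{u}}

theorem exists_skolem (hK : K.IsLS l) (hM : K.mem M) [Nonempty M] (c : Finset M → Set M)
    (hc : ∀ F, #(c F) ≤ l) {Λ : Type u} (hΛ : l ≤ #Λ) :
    ∃ fn : ∀ n : ℕ, Λ → (Fin n → M) → M, ∀ X : Set M,
      (∀ n ξ v, (∀ k, v k ∈ X) → fn n ξ v ∈ X) →
      (∃ S : L.Substructure M, K.le S ∧ (S : Set M) = X) ∧
        ∀ F : Finset M, (F : Set M) ⊆ X → c F ⊆ X := by
  classical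
  obtain ⟨H, h1, h2, h3, h4, h5⟩ := AEC.exists_hull hK hM c hc
  have henum : ∀ a : Finset M, ∃ s : Λ → M, (H a : Set M).Nonempty → range s = H a := by
    intro a
    by_cases hne : (H a : Set M).Nonempty
    · obtain ⟨f⟩ := (Cardinal.le_def _ _).1 ((h4 a).trans hΛ)
      have hne' : Nonempty (H a) := hne.to_subtype
      refine ⟨fun ξ => (Function.invFun f ξ : H a).1, fun _ => ?_⟩
      ext y
      constructor
      · rintro ⟨q, rfl⟩
        exact (Function.invFun f q).2
      · intro hy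
        refine ⟨f ⟨y, hy⟩, ?_⟩
        simp only [Function.leftInverse_invFun f.injective ⟨y, hy⟩]
    · exact ⟨fun _ => Classical.arbitrary M, fun h => absurd h hne⟩
  choose s hs using henum
  refine ⟨fun n ξ v => s (Finset.univ.image v) ξ, fun X hX => ?_⟩
  have key : ∀ a : Finset M, (a : Set M) ⊆ X → (H a : Set M) ⊆ X := by
    intro a ha y hy
    have h6 := hs a ⟨y, hy⟩
    have h7 : y ∈ range (s a) := by
      rw [h6]
      exact hy
    obtain ⟨ξ, rfl⟩ := h7
    let v : Fin a.card → M := fun k => (a.equivFin.symm k).1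
    have hv : Finset.univ.image v = a := by
      ext z
      simp only [Finset.mem_image, Finset.mem_univ, true_and]
      constructor
      · rintro ⟨k, rfl⟩
        exact (a.equivFin.symm k).2
      · intro hz
        exact ⟨a.equivFin ⟨z, hz⟩, by simp [v]⟩
    have h8 := hX a.card ξ v fun k => ha (a.equivFin.symm k).2
    simp only [hv] at h8
    exact h8
  refine ⟨AEC.le_of_hull_closed h1 h2 h3 X key, fun F hF => ?_⟩
  exact (h5 F F (h3 F)).trans (key F hF)

end skolem

section EMlocal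

variable {M N : Type u} [L₁.Structure M] [L₁.Structure N]

/-- Finitely generated substructures of an Ehrenfeucht-Mostowski model embed into the model in which
the template lives. -/
theorem isEM_local {a : ∀ n : ℕ, Fin n → M} {I : Type u} [LinearOrder I] {c : I → N}
    (hc : IsEM L₁ a c) (htop : Substructure.closure L₁ (range c) = ⊤) (A : Finset N) :
    Nonempty (Substructure.closure L₁ (A : Set N) ↪[L₁] M) := by
  classical
  have h1 : ∀ x : N, ∃ t : L₁.Term I, t.realize c = x := fun x => by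
    rw [← mem_closure_range, htop]
    trivial
  choose t ht using h1
  let F : Finset I := A.biUnion fun x => (t x).varFinset
  let e : Fin F.card ↪o I := F.orderEmbOfFin rfl
  have h2 : AtEq L₁ (fun k => c (e k)) (a F.card) := hc _ e e.strictMono
  let b : ULift.{u} (Fin F.card) → N := fun k => c (e k.down)
  let b' : ULift.{u} (Fin F.card) → M := fun k => a F.card k.down
  have h3 : AtEq L₁ b b' := h2.comp ULift.down
  obtain ⟨E, -⟩ := exists_closure_equiv h3
  have hsub : Substructure.closure L₁ (A : Set N) ≤ Substructure.closure L₁ (range b) := by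
    rw [Substructure.closure_le]
    intro x hx
    rw [SetLike.mem_coe, ← ht x]
    have h4 : ∀ i ∈ (t x).varFinset, ∃ k, e k = i := by
      intro i hi
      have h5 : i ∈ (F : Set I) := Finset.mem_coe.2 (Finset.mem_biUnion.2 ⟨x, hx, hi⟩)
      rw [← F.range_orderEmbOfFin rfl] at h5
      exact h5
    have h5 : ∀ i : (t x).varFinset, c i.1 ∈ Substructure.closure L₁ (range b) := by
      intro i
      obtain ⟨k, hk⟩ := h4 i.1 i.2
      refine Substructure.subset_closure ⟨⟨k⟩, ?_⟩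
      change c (e k) = c i.1
      rw [hk]
    have h6 := Term.realize_restrictVar (t := t x) (f := fun i : (t x).varFinset => i)
      (v := fun i : (t x).varFinset => c i.1) c (fun _ => rfl)
    rw [← h6]
    exact Term.realize_mem _ _ fun i => h5 i
  exact ⟨((Substructure.subtype _).comp E.toEmbedding).comp (Substructure.inclusion hsub)⟩

end EMlocal

end Vale.Agent.P307.Gr
end
end

section

section

universe u

namespace Vale.Agent.P307.Gr

open FirstOrder Language Cardinal Structure Set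

variable {L : Language.{u, u}}

section IsoOn

variable {M N P : Type u} [L.Structure M] [L.Structure N] [L.Structure P]

variable (L) in
/-- `f` is a partial isomorphism (for relational vocabularies) with domain `X`. -/
structure IsoOn (f : M → N) (X : Set M) : Prop where
  inj : InjOn f X
  rel : ∀ (n : ℕ) (R : L.Relations n) (v : Fin n → M), (∀ k, v k ∈ X) →
    (RelMap R (f ∘ v) ↔ RelMap R v)

theorem IsoOn.mono {f : M → N} {X Y : Set M} (h : IsoOn L f Y) (hXY : X ⊆ Y) : IsoOn L f X :=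
  ⟨h.inj.mono hXY, fun n R v hv => h.rel n R v fun k => hXY (hv k)⟩

theorem IsoOn.comp {f : M → N} {g : N → P} {X : Set M} (hg : IsoOn L g (f '' X))
    (hf : IsoOn L f X) : IsoOn L (g ∘ f) X := by
  refine ⟨hg.inj.comp hf.inj (mapsTo_image f X), fun n R v hv => ?_⟩
  rw [Function.comp_assoc, hg.rel n R (f ∘ v) fun k => ⟨v k, hv k, rfl⟩]
  exact hf.rel n R v hv

theorem IsoOn.id {X : Set M} : IsoOn L (fun x : M => x) X :=
  ⟨fun _ _ _ _ h => h, fun _ _ _ _ => Iff.rfl⟩

theorem IsoOn.of_embedding (e : M ↪[L] N) (X : Set M) : IsoOn L e X :=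
  ⟨e.injective.injOn, fun _ R v _ => e.map_rel R v⟩

theorem IsoOn.of_equiv (e : M ≃[L] N) (X : Set M) : IsoOn L e X :=
  ⟨e.injective.injOn, fun _ R v _ => e.map_rel R v⟩

theorem IsoOn.symm [Nonempty M] {f : M → N} {X : Set M} (h : IsoOn L f X) :
    IsoOn L (Function.invFunOn f X) (f '' X) := by
  have h1 : ∀ x ∈ X, Function.invFunOn f X (f x) = x := h.inj.leftInvOn_invFunOn
  refine ⟨?_, fun n R v hv => ?_⟩
  · rintro _ ⟨x, hx, rfl⟩ _ ⟨y, hy, rfl⟩ hxy
    rw [h1 x hx, h1 y hy] at hxy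
    rw [hxy]
  · choose w hw hwv using hv
    have h2 : v = f ∘ w := funext fun k => (hwv k).symm
    have h3 : Function.invFunOn f X ∘ v = w := by
      funext k
      rw [h2]
      exact h1 _ (hw k)
    rw [h3, h2]
    exact (h.rel n R w hw).symm

theorem IsoOn.exists_inv [Nonempty M] {f : M → N} {X : Set M} (h : IsoOn L f X) :
    ∃ g : N → M, (∀ x ∈ X, g (f x) = x) ∧ IsoOn L g (f '' X) :=
  ⟨_, h.inj.leftInvOn_invFunOn, h.symm⟩

end IsoOn

section glue

variable [L.IsRelational] {M N : Type u} [L.Structure M] [L.Structure N]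

theorem exists_equiv_of_isoOn {f : M → N} (h : IsoOn L f univ) (hs : Function.Surjective f) :
    ∃ e : M ≃[L] N, ∀ x, e x = f x := by
  have hi : Function.Injective f := injOn_univ.1 h.inj
  let e₀ := _root_.Equiv.ofBijective f ⟨hi, hs⟩
  refine ⟨⟨e₀, fun {n} F => isEmptyElim F, fun {n} R v => ?_⟩, fun x => rfl⟩
  exact h.rel n R v fun _ => mem_univ _

/-- Gluing partial isomorphisms of pieces. -/
theorem glue {ι : Type*} [Nonempty ι] (D : Set M) (C : ι → Set M) (D' : Set N) (C' : ι → Set N)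
    (hC : ∀ i j, ∀ x, x ∈ C i → x ∈ C j → i = j)
    (hU : ∀ x, x ∈ D ∨ ∃ i, x ∈ C i)
    (hR : ∀ (n : ℕ) (R : L.Relations n) (v : Fin n → M), RelMap R v → ∃ i, ∀ k, v k ∈ D ∪ C i)
    (hD' : ∀ i, ∀ x ∈ D', x ∉ C' i) (hC' : ∀ i j, ∀ x, x ∈ C' i → x ∈ C' j → i = j)
    (hU' : ∀ x, x ∈ D' ∨ ∃ i, x ∈ C' i)
    (hR' : ∀ (n : ℕ) (R : L.Relations n) (v : Fin n → N), RelMap R v → ∃ i, ∀ k, v k ∈ D' ∪ C' i)
    (f : ι → M → N) (hfD : ∀ i j, ∀ x ∈ D, f i x = f j x) (hf : ∀ i, IsoOn L (f i) (D ∪ C i))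
    (hfD' : ∀ i, f i '' D = D') (hfC : ∀ i, f i '' C i = C' i) :
    ∃ e : M ≃[L] N, ∀ i, ∀ x ∈ D ∪ C i, e x = f i x := by
  classical
  let idx : M → ι := fun x => if h : ∃ i, x ∈ C i then h.choose else Classical.arbitrary ι
  have hidx : ∀ i x, x ∈ C i → idx x = i := by
    intro i x hx
    have h : ∃ i, x ∈ C i := ⟨i, hx⟩
    simp only [idx, dif_pos h]
    exact hC _ _ x h.choose_spec hx
  let e : M → N := fun x => f (idx x) x
  have he : ∀ i, ∀ x ∈ D ∪ C i, e x = f i x := by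
    rintro i x (hx | hx)
    · exact hfD _ _ x hx
    · simp only [e, hidx i x hx]
  have heD : ∀ x ∈ D, e x ∈ D' := fun x hx => by
    rw [← hfD' (idx x)]
    exact ⟨x, hx, rfl⟩
  have heC : ∀ i, ∀ x ∈ C i, e x ∈ C' i := fun i x hx => by
    rw [he i x (Or.inr hx), ← hfC i]
    exact ⟨x, hx, rfl⟩
  have hback : ∀ i x, e x ∈ D' ∪ C' i → x ∈ D ∪ C i := by
    rintro i x hx
    rcases hU x with h | ⟨j, hj⟩
    · exact Or.inl h
    · have h1 := heC j x hj
      rcases hx with h2 | h2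
      · exact absurd h1 (hD' j _ h2)
      · rw [hC' i j _ h2 h1]
        exact Or.inr hj
  have hinj : Function.Injective e := by
    intro x y hxy
    obtain ⟨i, hi⟩ : ∃ i, x ∈ D ∪ C i := by
      rcases hU x with h | ⟨i, hi⟩
      · exact ⟨Classical.arbitrary ι, Or.inl h⟩
      · exact ⟨i, Or.inr hi⟩
    have hx : e x ∈ D' ∪ C' i := by
      rcases hi with h | h
      · exact Or.inl (heD x h)
      · exact Or.inr (heC i x h)
    have hy : y ∈ D ∪ C i := hback i y (hxy ▸ hx)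
    rw [he i x hi, he i y hy] at hxy
    exact (hf i).inj hi hy hxy
  have hsurj : Function.Surjective e := by
    intro y
    rcases hU' y with h | ⟨i, h⟩
    · have h2 := h
      rw [← hfD' (Classical.arbitrary ι)] at h2
      obtain ⟨x, hx, rfl⟩ := h2
      exact ⟨x, he _ x (Or.inl hx)⟩
    · have h2 := h
      rw [← hfC i] at h2
      obtain ⟨x, hx, rfl⟩ := h2
      exact ⟨x, he _ x (Or.inr hx)⟩
  have hiso : IsoOn L e univ := by
    refine ⟨hinj.injOn, fun n R v _ => ?_⟩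
    have key : ∀ i, (∀ k, v k ∈ D ∪ C i) → (RelMap R (e ∘ v) ↔ RelMap R v) := by
      intro i hi
      have : e ∘ v = f i ∘ v := funext fun k => he i _ (hi k)
      rw [this]
      exact (hf i).rel n R v hi
    constructor
    · intro h
      obtain ⟨i, hi⟩ := hR' n R _ h
      exact (key i fun k => hback i _ (hi k)).1 h
    · intro h
      obtain ⟨i, hi⟩ := hR n R _ h
      exact (key i hi).2 h
  obtain ⟨e', he'⟩ := exists_equiv_of_isoOn hiso hsurj
  exact ⟨e', fun i x hx => by rw [he', he i x hx]⟩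

end glue

section graph

variable {M N : Type u} [L.Structure M] [L.Structure N]

variable (L) in
/-- Gaifman adjacency (possibly reflexive) -/
def gadj (x y : M) : Prop :=
  ∃ (n : ℕ) (R : L.Relations n) (v : Fin n → M), RelMap R v ∧ x ∈ range v ∧ y ∈ range v

theorem gadj.symm {x y : M} (h : gadj L x y) : gadj L y x := by
  obtain ⟨n, R, v, h1, h2, h3⟩ := h
  exact ⟨n, R, v, h1, h3, h2⟩

theorem gadj.map {x y : M} (f : M ↪[L] N) (h : gadj L x y) : gadj L (f x) (f y) := by
  obtain ⟨n, R, v, h1, ⟨i, rfl⟩, ⟨j, rfl⟩⟩ := h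
  exact ⟨n, R, f ∘ v, (f.map_rel R v).2 h1, ⟨i, rfl⟩, ⟨j, rfl⟩⟩

theorem gadj_equiv (f : M ≃[L] N) {x y : M} : gadj L (f x) (f y) ↔ gadj L x y := by
  constructor
  · intro h
    have := h.map f.symm.toEmbedding
    simpa using this
  · intro h
    exact h.map f.toEmbedding

variable (L) in
/-- one step in `M ∖ D` -/
def stepD (D : Set M) (x y : M) : Prop := x ∉ D ∧ y ∉ D ∧ gadj L x y

variable (L) in
/-- connected in `M ∖ D` -/
def conn (D : Set M) (x y : M) : Prop := Relation.ReflTransGen (stepD L D) x y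

variable (L) in
/-- the component of `x` in `M ∖ D` -/
def comp (D : Set M) (x : M) : Set M := {y | conn L D x y}

theorem stepD.symm {D : Set M} {x y : M} (h : stepD L D x y) : stepD L D y x :=
  ⟨h.2.1, h.1, h.2.2.symm⟩

theorem conn.refl {D : Set M} {x : M} : conn L D x x := Relation.ReflTransGen.refl

theorem conn.symm {D : Set M} {x y : M} (h : conn L D x y) : conn L D y x := by
  induction h with
  | refl => exact Relation.ReflTransGen.refl
  | tail _ h ih => exact Relation.ReflTransGen.head h.symm ih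

theorem conn.trans {D : Set M} {x y z : M} (h : conn L D x y) (h' : conn L D y z) :
    conn L D x z := Relation.ReflTransGen.trans h h'

theorem conn.mono {D D' : Set M} (hD : D' ⊆ D) {x y : M} (h : conn L D x y) : conn L D' x y := by
  induction h with
  | refl => exact Relation.ReflTransGen.refl
  | tail _ h ih =>
    exact Relation.ReflTransGen.tail ih ⟨fun h' => h.1 (hD h'), fun h' => h.2.1 (hD h'), h.2.2⟩

theorem conn.notMem {D : Set M} {x y : M} (h : conn L D x y) (hx : x ∉ D) : y ∉ D := by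
  induction h with
  | refl => exact hx
  | tail _ h _ => exact h.2.1

theorem mem_comp_self (D : Set M) (x : M) : x ∈ comp L D x := conn.refl

theorem comp_eq {D : Set M} {x y : M} (h : y ∈ comp L D x) : comp L D y = comp L D x := by
  ext z
  exact ⟨fun hz => conn.trans h hz, fun hz => conn.trans (conn.symm h) hz⟩

theorem comp_notMem {D : Set M} {x : M} (hx : x ∉ D) {y : M} (hy : y ∈ comp L D x) : y ∉ D :=
  conn.notMem hy hx

theorem mem_comp_of_gadj {D : Set M} {x y z : M} (hx : x ∉ D) (hy : y ∈ comp L D x)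
    (hyz : gadj L y z) (hz : z ∉ D) : z ∈ comp L D x :=
  Relation.ReflTransGen.tail hy ⟨comp_notMem hx hy, hz, hyz⟩

/-- a closed set containing `x` contains the component of `x` -/
theorem comp_subset {D : Set M} {X : Set M} {x : M} (hx : x ∈ X)
    (hX : ∀ y ∈ X, y ∉ D → ∀ z ∉ D, gadj L y z → z ∈ X) : comp L D x ⊆ X := by
  intro y hy
  induction hy with
  | refl => exact hx
  | tail _ h ih => exact hX _ ih h.1 _ h.2.1 h.2.2

/-- bound on the size of a component from a bound on degrees -/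
theorem mk_comp_le {D : Set M} {l : Cardinal.{u}} (hl : ℵ₀ ≤ l)
    (hdeg : ∀ y ∉ D, #({z | gadj L y z} : Set M) ≤ l) (x : M) : #(comp L D x) ≤ l := by
  obtain ⟨S, hS0, hSs⟩ : ∃ S : ℕ → Set M, S 0 = {x} ∧
      ∀ n, S (n + 1) = ⋃ y : S n, {z | y.1 ∉ D ∧ gadj L y.1 z} :=
    ⟨fun n => Nat.rec {x} (fun _ T => ⋃ y : T, {z | y.1 ∉ D ∧ gadj L y.1 z}) n, rfl,
      fun n => rfl⟩
  have hc : ∀ n, #(S n : Set M) ≤ l := by
    intro n
    induction n with
    | zero =>
      rw [hS0, mk_singleton]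
      exact (Cardinal.one_le_aleph0).trans hl
    | succ n ih =>
      rw [hSs]
      refine (mk_iUnion_le _).trans ?_
      refine (mul_le_mul' ih (ciSup_le' (a := l) fun y => ?_)).trans (mul_eq_self hl).le
      by_cases hy : y.1 ∈ D
      · have : ({z | y.1 ∉ D ∧ gadj L y.1 z} : Set M) = ∅ := by
          ext z
          simp [hy]
        rw [this]
        simp
      · refine (mk_le_mk_of_subset ?_).trans (hdeg y.1 hy)
        intro z hz
        exact hz.2
  have hsub : comp L D x ⊆ ⋃ n : ULift.{u} ℕ, S n.down := by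
    intro y hy
    induction hy with
    | refl => exact mem_iUnion.2 ⟨⟨0⟩, by rw [hS0]; rfl⟩
    | tail _ h ih =>
      obtain ⟨n, hn⟩ := mem_iUnion.1 ih
      refine mem_iUnion.2 ⟨⟨n.down + 1⟩, ?_⟩
      rw [hSs]
      exact mem_iUnion.2 ⟨⟨_, hn⟩, h.1, h.2.2⟩
  refine (mk_le_mk_of_subset hsub).trans ((mk_iUnion_le _).trans ?_)
  refine (mul_le_mul' (b := l) (d := l) ?_ (ciSup_le' fun n => hc _)).trans
    (Cardinal.mul_eq_self hl).le
  simpa using hl

/-- related tuples meeting a component are contained in it, up to `D` -/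
theorem rel_mem_comp {D : Set M} {n : ℕ} {R : L.Relations n} {v : Fin n → M} (h : RelMap R v)
    {x : M} (hx : x ∉ D) {k : Fin n} (hk : v k ∈ comp L D x) (j : Fin n) :
    v j ∈ D ∪ comp L D x := by
  by_cases hj : v j ∈ D
  · exact Or.inl hj
  · exact Or.inr (mem_comp_of_gadj hx hk ⟨n, R, v, h, ⟨k, rfl⟩, ⟨j, rfl⟩⟩ hj)

end graph

end Vale.Agent.P307.Gr
end
end

section

section

universe u

namespace Vale.Agent.P307.Gr

open FirstOrder Language Cardinal Structure Set

variable {L : Language.{u, u}}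

section TI

variable {M N P : Type u} [L.Structure M] [L.Structure N] [L.Structure P]

/-- two-piece gluing of partial isomorphisms -/
theorem isoOn_union {X Y : Set M} {f : M → N} (hX : IsoOn L f X) (hY : IsoOn L f Y)
    (hinj : InjOn f (X ∪ Y))
    (hM : ∀ (n : ℕ) (R : L.Relations n) (v : Fin n → M), RelMap R v → (∀ k, v k ∈ X ∪ Y) →
      (∀ k, v k ∈ X) ∨ ∀ k, v k ∈ Y)
    (hN : ∀ (n : ℕ) (R : L.Relations n) (v : Fin n → N), RelMap R v →
      (∀ k, v k ∈ f '' (X ∪ Y)) → (∀ k, v k ∈ f '' X) ∨ ∀ k, v k ∈ f '' Y) :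
    IsoOn L f (X ∪ Y) := by
  refine ⟨hinj, fun n R v hv => ⟨fun h => ?_, fun h => ?_⟩⟩
  · rcases hN n R _ h (fun k => ⟨v k, hv k, rfl⟩) with h1 | h1
    · refine (hX.rel n R v fun k => ?_).1 h
      obtain ⟨y, hy, hyk⟩ := h1 k
      rwa [← hinj (Or.inl hy) (hv k) hyk]
    · refine (hY.rel n R v fun k => ?_).1 h
      obtain ⟨y, hy, hyk⟩ := h1 k
      rwa [← hinj (Or.inr hy) (hv k) hyk]
  · rcases hM n R v h hv with h1 | h1
    · exact (hX.rel n R v h1).2 h
    · exact (hY.rel n R v h1).2 h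

variable (L) in
/-- `C` and `C'` are isomorphic over the identification `h` of `D` with its image. -/
def TI (h : M → N) (D C : Set M) (C' : Set N) : Prop :=
  ∃ g : M → N, (∀ x ∈ D, g x = h x) ∧ g '' C = C' ∧ IsoOn L g (D ∪ C)

theorem TI.congr {h h' : M → N} {D C : Set M} {C' : Set N} (H : TI L h D C C')
    (hh : ∀ x ∈ D, h x = h' x) : TI L h' D C C' := by
  obtain ⟨g, h1, h2, h3⟩ := H
  exact ⟨g, fun x hx => (h1 x hx).trans (hh x hx), h2, h3⟩

theorem TI.comp {h : M → N} {h' : N → P} {D C : Set M} {D' C' : Set N} {C'' : Set P}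
    (H' : TI L h' D' C' C'') (H : TI L h D C C') (hD : h '' D = D') :
    TI L (h' ∘ h) D C C'' := by
  obtain ⟨g, h1, h2, h3⟩ := H
  obtain ⟨g', h1', h2', h3'⟩ := H'
  refine ⟨g' ∘ g, fun x hx => ?_, ?_, IsoOn.comp ?_ h3⟩
  · simp only [Function.comp_apply]
    rw [h1 x hx, h1' _ (hD ▸ ⟨x, hx, rfl⟩)]
  · rw [image_comp, h2, h2']
  · rw [image_union, h2]
    have : g '' D = D' := by
      rw [← hD]
      exact image_congr h1
    rw [this]
    exact h3'

theorem TI.symm [Nonempty M] {h : M → N} {h' : N → M} {D C : Set M} {C' : Set N}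
    (H : TI L h D C C') (hh : ∀ x ∈ D, h' (h x) = x) {D' : Set N} (hD : h '' D = D') :
    TI L h' D' C' C := by
  obtain ⟨g, h1, h2, h3⟩ := H
  obtain ⟨g', h4, h5⟩ := h3.exists_inv
  refine ⟨g', ?_, ?_, ?_⟩
  · rw [← hD]
    rintro _ ⟨x, hx, rfl⟩
    rw [hh x hx, ← h1 x hx]
    exact h4 x (Or.inl hx)
  · rw [← h2]
    ext x
    constructor
    · rintro ⟨_, ⟨y, hy, rfl⟩, rfl⟩
      rwa [h4 y (Or.inr hy)]
    · intro hx
      exact ⟨g x, ⟨x, hx, rfl⟩, h4 x (Or.inr hx)⟩
  · rw [image_union, h2] at h5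
    have : g '' D = D' := by
      rw [← hD]
      exact image_congr h1
    rwa [this] at h5

theorem TI.refl {D C : Set M} : TI L (fun x : M => x) D C C :=
  ⟨fun x => x, fun _ _ => rfl, by simp, IsoOn.id⟩

theorem TI.of_isoOn {g : M → N} {D C : Set M} (h : IsoOn L g (D ∪ C)) : TI L g D C (g '' C) :=
  ⟨g, fun _ _ => rfl, rfl, h⟩

variable (L) in
/-- isomorphism over `D` -/
def TE (D C C' : Set M) : Prop := TI L (fun x : M => x) D C C'

theorem TE.refl {D C : Set M} : TE L D C C := TI.refl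

theorem TE.symm {D C C' : Set M} (h : TE L D C C') : TE L D C' C := by
  rcases isEmpty_or_nonempty M with hM | hM
  · have : C = C' := Subsingleton.elim _ _
    rw [this]
    exact TI.refl
  · exact TI.symm h (fun _ _ => rfl) (by simp)

theorem TE.trans {D C C' C'' : Set M} (h : TE L D C C') (h' : TE L D C' C'') : TE L D C C'' :=
  (TI.comp h' h (by simp)).congr fun _ _ => rfl

theorem TE.trans_TI {h : M → N} {D C C' : Set M} {C'' : Set N} (H : TE L D C C')
    (H' : TI L h D C' C'') : TI L h D C C'' :=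
  (TI.comp H' H (by simp)).congr fun _ _ => rfl

theorem TI.trans_TE {h : M → N} {D C : Set M} {D' C' C'' : Set N} (H : TI L h D C C')
    (H' : TE L D' C' C'') (hD : h '' D = D') : TI L h D C C'' :=
  (TI.comp H' H hD).congr fun _ _ => rfl

/-- adjacency is transported by isomorphisms of pieces -/
theorem IsoOn.gadj_of {g : M → N} {X : Set M} (h : IsoOn L g X) {x y : M}
    (hX : ∀ (n : ℕ) (R : L.Relations n) (v : Fin n → M), RelMap R v → x ∈ range v →
      y ∈ range v → ∀ k, v k ∈ X) (hxy : gadj L x y) : gadj L (g x) (g y) := by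
  obtain ⟨n, R, v, h1, hx, hy⟩ := hxy
  have h2 := hX n R v h1 hx hy
  obtain ⟨i, rfl⟩ := hx
  obtain ⟨j, rfl⟩ := hy
  exact ⟨n, R, g ∘ v, (h.rel n R v h2).2 h1, ⟨i, rfl⟩, ⟨j, rfl⟩⟩

theorem gadj_of_comp {g : M → N} {D : Set M} {c : M} (hc : c ∉ D)
    (h : IsoOn L g (D ∪ comp L D c)) {x y : M} (hy : y ∈ comp L D c)
    (hxy : gadj L x y) : gadj L (g x) (g y) := by
  refine h.gadj_of (fun n R v hv _ hyv k => ?_) hxy
  obtain ⟨j, hj⟩ := hyv
  exact rel_mem_comp hv hc (hj ▸ hy) k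

/-- If `d` has a neighbour in the component `C'` then it has one in each component isomorphic to it
over `D`. -/
theorem TE.exists_gadj {D : Set M} {c c' : M} (hc' : c' ∉ D)
    (h : TE L D (comp L D c) (comp L D c')) {d : M} (hd : d ∈ D)
    (h' : ∃ y ∈ comp L D c', gadj L d y) : ∃ y ∈ comp L D c, gadj L d y := by
  obtain ⟨g, h1, h2, h3⟩ := h.symm
  obtain ⟨y, hy, hdy⟩ := h'
  refine ⟨g y, ?_, ?_⟩
  · rw [← h2]
    exact ⟨y, hy, rfl⟩
  · have := gadj_of_comp hc' h3 hy hdy
    rwa [h1 d hd] at this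

end TI

section fc

variable {M N : Type u} [L.Structure M] [L.Structure N]

variable (L) in
/-- `f` embeds `M` as a full substructure of `N`, closed under neighbours outside of `D`. -/
structure FC (f : M ↪[L] N) (D : Set M) : Prop where
  adj : ∀ x y, gadj L (f x) (f y) → gadj L x y
  nbr : ∀ x, x ∉ D → ∀ z, gadj L (f x) z → z ∈ range f

variable {f : M ↪[L] N} {D : Set M}

theorem FC.comp_eq (h : FC L f D) {x : M} (hx : x ∉ D) :
    comp L (f '' D) (f x) = f '' comp L D x := by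
  apply Set.Subset.antisymm
  · apply comp_subset
    · exact ⟨x, mem_comp_self _ _, rfl⟩
    · rintro _ ⟨y, hy, rfl⟩ _ z hz hyz
      have hyD : y ∉ D := comp_notMem hx hy
      obtain ⟨w, rfl⟩ := h.nbr y hyD z hyz
      exact ⟨w, mem_comp_of_gadj hx hy (h.adj y w hyz) fun hw => hz ⟨w, hw, rfl⟩, rfl⟩
  · rintro _ ⟨y, hy, rfl⟩
    induction hy with
    | refl => exact mem_comp_self _ _
    | tail hab hbc ih =>
      refine Relation.ReflTransGen.tail ih ⟨?_, ?_, hbc.2.2.map f⟩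
      · rintro ⟨w, hw, hw2⟩
        exact hbc.1 (f.injective hw2 ▸ hw)
      · rintro ⟨w, hw, hw2⟩
        exact hbc.2.1 (f.injective hw2 ▸ hw)

theorem TI.of_emb (f : M ↪[L] N) (D C : Set M) : TI L f D C (f '' C) :=
  TI.of_isoOn (IsoOn.of_embedding f _)

theorem TE_image_iff (f : M ↪[L] N) {D C C' : Set M} :
    TE L (f '' D) (f '' C) (f '' C') ↔ TE L D C C' := by
  rcases isEmpty_or_nonempty M with hM | hM
  · have h1 : C = C' := Subsingleton.elim _ _
    rw [h1]
    exact ⟨fun _ => TE.refl, fun _ => TE.refl⟩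
  obtain ⟨fi, hfi⟩ : ∃ fi : N → M, ∀ x, fi (f x) = x :=
    ⟨Function.invFun f, Function.leftInverse_invFun f.injective⟩
  have hinv : ∀ C : Set M, TI L fi (f '' D) (f '' C) C := fun C =>
    TI.symm (TI.of_emb f D C) (fun x _ => hfi x) rfl
  constructor
  · intro h
    have h1 : TI L f D C (f '' C') := TI.trans_TE (TI.of_emb f D C) h rfl
    exact (TI.comp (hinv C') h1 rfl).congr fun x _ => hfi x
  · intro h
    have h1 : TI L f D C (f '' C') := TE.trans_TI h (TI.of_emb f D C')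
    refine (TI.comp h1 (hinv C) ?_).congr ?_
    · ext x
      constructor
      · rintro ⟨_, ⟨y, hy, rfl⟩, rfl⟩
        rwa [hfi]
      · intro hx
        exact ⟨f x, ⟨x, hx, rfl⟩, hfi x⟩
    · rintro _ ⟨y, _, rfl⟩
      simp only [Function.comp_apply, hfi]

theorem FC.TE_iff (h : FC L f D) {x y : M} (hx : x ∉ D) (hy : y ∉ D) :
    TE L (f '' D) (comp L (f '' D) (f x)) (comp L (f '' D) (f y)) ↔
      TE L D (comp L D x) (comp L D y) := by
  rw [h.comp_eq hx, h.comp_eq hy, TE_image_iff]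

end fc

end Vale.Agent.P307.Gr
end
end

section

section

universe u

namespace Vale.Agent.P307.Gr

open FirstOrder Language Cardinal Structure Set

variable {L : Language.{u, u}}

section

variable {M N P : Type u} [L.Structure M] [L.Structure N] [L.Structure P]

variable (L) in
/-- the component of `x` is isomorphic over `D` to the component of `x₀` -/
def good (D : Set M) (x₀ x : M) : Prop := x ∉ D ∧ TE L D (comp L D x) (comp L D x₀)

variable (L) in
/-- the rest -/
def rp (D : Set M) (x₀ : M) : Set M := {x | ¬ good L D x₀ x}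

theorem subset_rp (D : Set M) (x₀ : M) : D ⊆ rp L D x₀ := fun _ hx h => h.1 hx

theorem good_of_mem_comp {D : Set M} {x₀ x y : M} (h : good L D x₀ x) (hy : y ∈ comp L D x) :
    good L D x₀ y :=
  ⟨comp_notMem h.1 hy, by rw [comp_eq hy]; exact h.2⟩

variable (L) in
/-- the good components -/
def GC (D : Set M) (x₀ : M) : Type u := {C : Set M // ∃ x, good L D x₀ x ∧ C = comp L D x}

variable (L) in
/-- `M ∖ D` splits into small components, almost all of them of one type -/
structure Nice (l : Cardinal.{u}) (D : Set M) (x₀ : M) : Prop where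
  card_D : #D ≤ l
  notMem : x₀ ∉ D
  nbr : ∀ d ∈ D, ∃ y ∈ comp L D x₀, gadj L d y
  comp_le : ∀ x, x ∉ D → #(comp L D x) ≤ Order.succ l
  rp_le : #(rp L D x₀) ≤ Order.succ l

theorem GC.good {D : Set M} {x₀ : M} (C : GC L D x₀) {x : M} (hx : x ∈ C.1) : good L D x₀ x := by
  obtain ⟨C, y, hy, rfl⟩ := C
  exact good_of_mem_comp hy hx

theorem GC.eq_comp {D : Set M} {x₀ : M} (C : GC L D x₀) {x : M} (hx : x ∈ C.1) :
    C.1 = comp L D x := by
  obtain ⟨C, y, hy, rfl⟩ := C
  exact (comp_eq hx).symm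

theorem GC.nonempty {D : Set M} {x₀ : M} (C : GC L D x₀) : C.1.Nonempty := by
  obtain ⟨C, y, hy, rfl⟩ := C
  exact ⟨y, mem_comp_self _ _⟩

theorem card_GC {l : Cardinal.{u}} (hl : ℵ₀ ≤ l) {D : Set M} {x₀ : M} (h : Nice L l D x₀)
    (hM : Order.succ l < #M) : #(GC L D x₀) = #M := by
  have hsl : ℵ₀ ≤ Order.succ l := hl.trans (Order.le_succ l)
  apply le_antisymm
  · choose p hp using fun C : GC L D x₀ => C.nonempty
    refine mk_le_of_injective (f := p) fun C C' hCC' => Subtype.ext ?_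
    rw [C.eq_comp (hp C), C'.eq_comp (hp C'), hCC']
  · have h1 : (univ : Set M) ⊆ rp L D x₀ ∪ ⋃ C : GC L D x₀, C.1 := by
      intro x _
      by_cases hx : good L D x₀ x
      · exact Or.inr (mem_iUnion.2 ⟨⟨comp L D x, x, hx, rfl⟩, mem_comp_self _ _⟩)
      · exact Or.inl hx
    have h2 : #M ≤ Order.succ l + #(GC L D x₀) * Order.succ l := by
      rw [← mk_univ]
      refine (mk_le_mk_of_subset h1).trans ((mk_union_le _ _).trans (add_le_add h.rp_le ?_))
      refine (mk_iUnion_le _).trans (mul_le_mul' (_root_.le_refl _) (ciSup_le' fun C => ?_))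
      obtain ⟨C, y, hy, rfl⟩ := C
      exact h.comp_le y hy.1
    by_contra hcon
    rw [not_le] at hcon
    rcases le_total #(GC L D x₀) (Order.succ l) with h3 | h3
    · have h4 : Order.succ l + #(GC L D x₀) * Order.succ l ≤ Order.succ l := by
        refine add_le_of_le hsl (_root_.le_refl _) ?_
        exact (mul_le_mul' h3 (_root_.le_refl _)).trans (mul_eq_self hsl).le
      exact absurd (h2.trans h4) (not_le.2 hM)
    · have h4 : Order.succ l + #(GC L D x₀) * Order.succ l ≤ #(GC L D x₀) := by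
        refine add_le_of_le (hsl.trans h3) h3 ?_
        exact (mul_le_mul' (_root_.le_refl _) h3).trans (mul_eq_self (hsl.trans h3)).le
      exact absurd (h2.trans h4) (not_le.2 hcon)

theorem Nice.succ_lt_deg {l : Cardinal.{u}} (hl : ℵ₀ ≤ l) {D : Set M} {x₀ : M}
    (h : Nice L l D x₀) (hM : Order.succ l < #M) {d : M} (hd : d ∈ D) :
    Order.succ l < #({z | gadj L d z} : Set M) := by
  refine hM.trans_le ?_
  rw [← card_GC hl h hM]
  have h1 : ∀ C : GC L D x₀, ∃ y ∈ C.1, gadj L d y := by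
    rintro ⟨C, x, hx, rfl⟩
    exact TE.exists_gadj h.notMem hx.2 hd (h.nbr d hd)
  choose y hy hdy using h1
  refine mk_le_of_injective (f := fun C : GC L D x₀ => (⟨y C, hdy C⟩ : {z | gadj L d z})) ?_
  intro C C' hCC'
  have h2 : y C = y C' := congrArg Subtype.val hCC'
  apply Subtype.ext
  rw [C.eq_comp (hy C), C'.eq_comp (hy C'), h2]

theorem Nice.deg_le {l : Cardinal.{u}} (hl : ℵ₀ ≤ l) {D : Set M} {x₀ : M}
    (h : Nice L l D x₀) {x : M} (hx : x ∉ D) :
    #({z | gadj L x z} : Set M) ≤ Order.succ l := by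
  have h1 : ({z | gadj L x z} : Set M) ⊆ D ∪ comp L D x := by
    intro z hz
    by_cases hzD : z ∈ D
    · exact Or.inl hzD
    · exact Or.inr (mem_comp_of_gadj hx (mem_comp_self _ _) hz hzD)
  refine (mk_le_mk_of_subset h1).trans ((mk_union_le _ _).trans ?_)
  exact add_le_of_le (hl.trans (Order.le_succ l)) (h.card_D.trans (Order.le_succ l))
    (h.comp_le x hx)

theorem Nice.mem_iff {l : Cardinal.{u}} (hl : ℵ₀ ≤ l) {D : Set M} {x₀ : M}
    (h : Nice L l D x₀) (hM : Order.succ l < #M) {x : M} :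
    x ∈ D ↔ Order.succ l < #({z | gadj L x z} : Set M) := by
  constructor
  · exact h.succ_lt_deg hl hM
  · intro h1
    by_contra hx
    exact absurd (h.deg_le hl hx) (not_le.2 h1)

variable (L) in
/-- `M` and `N` have isomorphic cores -/
def Core (D : Set M) (x₀ : M) (D' : Set N) (x₀' : N) : Prop :=
  ∃ h : M → N, IsoOn L h (rp L D x₀) ∧ h '' rp L D x₀ = rp L D' x₀' ∧ h '' D = D' ∧
    TI L h D (comp L D x₀) (comp L D' x₀')

theorem Core.symm {D : Set M} {x₀ : M} {D' : Set N} {x₀' : N} (H : Core L D x₀ D' x₀') :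
    Core L D' x₀' D x₀ := by
  obtain ⟨h, h1, h2, h3, h4⟩ := H
  have : Nonempty M := ⟨x₀⟩
  obtain ⟨g, h5, h6⟩ := h1.exists_inv
  refine ⟨g, ?_, ?_, ?_, ?_⟩
  · rwa [h2] at h6
  · rw [← h2]
    ext x
    constructor
    · rintro ⟨_, ⟨y, hy, rfl⟩, rfl⟩
      rwa [h5 y hy]
    · intro hx
      exact ⟨h x, ⟨x, hx, rfl⟩, h5 x hx⟩
  · rw [← h3]
    ext x
    constructor
    · rintro ⟨_, ⟨y, hy, rfl⟩, rfl⟩
      rwa [h5 y (subset_rp _ _ hy)]
    · intro hx
      exact ⟨h x, ⟨x, hx, rfl⟩, h5 x (subset_rp _ _ hx)⟩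
  · exact h4.symm (fun x hx => h5 x (subset_rp _ _ hx)) h3

theorem Core.trans {D : Set M} {x₀ : M} {D' : Set N} {x₀' : N} {D'' : Set P} {x₀'' : P}
    (H : Core L D x₀ D' x₀') (H' : Core L D' x₀' D'' x₀'') : Core L D x₀ D'' x₀'' := by
  obtain ⟨h, h1, h2, h3, h4⟩ := H
  obtain ⟨h', h1', h2', h3', h4'⟩ := H'
  refine ⟨h' ∘ h, ?_, ?_, ?_, TI.comp h4' h4 h3⟩
  · apply IsoOn.comp _ h1
    rw [h2]
    exact h1'
  · rw [image_comp, h2, h2']
  · rw [image_comp, h3, h3']

theorem comp_image_equiv (e : M ≃[L] N) (D : Set M) (x : M) :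
    comp L (e '' D) (e x) = e '' comp L D x := by
  have key : ∀ {M N : Type u} [L.Structure M] [L.Structure N] (e : M ≃[L] N) (D : Set M) (x y : M),
      conn L D x y → conn L (e '' D) (e x) (e y) := by
    intro M N _ _ e D x y hxy
    induction hxy with
    | refl => exact Relation.ReflTransGen.refl
    | tail _ hbc ih =>
      refine Relation.ReflTransGen.tail ih ⟨?_, ?_, (gadj_equiv e).2 hbc.2.2⟩
      · rintro ⟨w, hw, hw2⟩
        exact hbc.1 (e.injective hw2 ▸ hw)
      · rintro ⟨w, hw, hw2⟩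
        exact hbc.2.1 (e.injective hw2 ▸ hw)
  apply Set.Subset.antisymm
  · intro y hy
    refine ⟨e.symm y, ?_, e.apply_symm_apply y⟩
    have := key e.symm (e '' D) (e x) y hy
    rw [e.symm_apply_apply] at this
    have h2 : e.symm '' (e '' D) = D := by
      ext z
      constructor
      · rintro ⟨_, ⟨w, hw, rfl⟩, rfl⟩
        rwa [e.symm_apply_apply]
      · intro hz
        exact ⟨e z, ⟨z, hz, rfl⟩, e.symm_apply_apply z⟩
    rwa [h2] at this
  · rintro _ ⟨y, hy, rfl⟩
    exact key e D x y hy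

theorem TE_equiv_iff (e : M ≃[L] N) (D : Set M) (x y : M) :
    TE L (e '' D) (comp L (e '' D) (e x)) (comp L (e '' D) (e y)) ↔
      TE L D (comp L D x) (comp L D y) := by
  rw [comp_image_equiv, comp_image_equiv]
  exact TE_image_iff e.toEmbedding

/-- Isomorphic nice structures have isomorphic cores. -/
theorem core_of_equiv {l : Cardinal.{u}} (hl : ℵ₀ ≤ l) {D : Set M} {x₀ : M}
    (h : Nice L l D x₀) {D' : Set N} {x₀' : N} (h' : Nice L l D' x₀')
    (hM : Order.succ l < #M) (e : M ≃[L] N) : Core L D x₀ D' x₀' := by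
  have hMN : #M = #N := Cardinal.mk_congr e.toEquiv
  have hN : Order.succ l < #N := hMN ▸ hM
  have hD : e '' D = D' := by
    ext y
    rw [h'.mem_iff hl hN]
    have h1 : ∀ x, #({z | gadj L (e x) z} : Set N) = #({z | gadj L x z} : Set M) := by
      intro x
      have : ({z | gadj L (e x) z} : Set N) = e '' {z | gadj L x z} := by
        ext z
        constructor
        · intro hz
          refine ⟨e.symm z, ?_, e.apply_symm_apply z⟩
          have : gadj L (e x) (e (e.symm z)) := by rwa [e.apply_symm_apply]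
          exact (gadj_equiv e).1 this
        · rintro ⟨w, hw, rfl⟩
          exact (gadj_equiv e).2 hw
      rw [this, mk_image_eq e.injective]
    constructor
    · rintro ⟨x, hx, rfl⟩
      rw [h1]
      exact (h.mem_iff hl hM).1 hx
    · intro hy
      refine ⟨e.symm y, ?_, e.apply_symm_apply y⟩
      rw [h.mem_iff hl hM, ← h1, e.apply_symm_apply]
      exact hy
  subst hD
  -- the two good classes agree
  have hgood : ∃ y, good L (e '' D) (e x₀) y ∧ good L (e '' D) x₀' y := by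
    by_contra hcon
    push Not at hcon
    have h2 : (univ : Set N) ⊆ rp L (e '' D) x₀' ∪ e '' rp L D x₀ := by
      intro y _
      by_cases hy : good L (e '' D) (e x₀) y
      · exact Or.inl (hcon y hy)
      · refine Or.inr ⟨e.symm y, ?_, e.apply_symm_apply y⟩
        intro hgy
        apply hy
        have h3 := (TE_equiv_iff e D (e.symm y) x₀).2 hgy.2
        rw [e.apply_symm_apply] at h3
        refine ⟨?_, h3⟩
        rintro ⟨w, hw, rfl⟩
        exact hgy.1 (by rwa [e.symm_apply_apply])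
    have h3 : #N ≤ Order.succ l := by
      rw [← mk_univ]
      refine (mk_le_mk_of_subset h2).trans ((mk_union_le _ _).trans ?_)
      exact add_le_of_le (hl.trans (Order.le_succ l)) h'.rp_le (mk_image_le.trans h.rp_le)
    exact absurd h3 (not_le.2 hN)
  obtain ⟨y, hy1, hy2⟩ := hgood
  have hTE : TE L (e '' D) (comp L (e '' D) (e x₀)) (comp L (e '' D) x₀') :=
    hy1.2.symm.trans hy2.2
  refine ⟨e, IsoOn.of_equiv e _, ?_, rfl, ?_⟩
  · ext y
    constructor
    · rintro ⟨x, hx, rfl⟩ hgx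
      apply hx
      refine ⟨fun hxD => hgx.1 ⟨x, hxD, rfl⟩, (TE_equiv_iff e D x x₀).1 (hgx.2.trans hTE.symm)⟩
    · intro hy
      refine ⟨e.symm y, ?_, e.apply_symm_apply y⟩
      intro hgy
      apply hy
      have h3 := (TE_equiv_iff e D (e.symm y) x₀).2 hgy.2
      rw [e.apply_symm_apply] at h3
      refine ⟨?_, h3.trans hTE⟩
      rintro ⟨w, hw, rfl⟩
      exact hgy.1 (by rwa [e.symm_apply_apply])
  · have h1 : TI L e D (comp L D x₀) (e '' comp L D x₀) := TI.of_isoOn (IsoOn.of_equiv e _)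
    rw [← comp_image_equiv] at h1
    exact h1.trans_TE hTE rfl

/-- Nice structures with isomorphic cores and the same cardinality are isomorphic. -/
theorem equiv_of_core [L.IsRelational] {l : Cardinal.{u}} (hl : ℵ₀ ≤ l) {D : Set M} {x₀ : M}
    (h : Nice L l D x₀) {D' : Set N} {x₀' : N} (h' : Nice L l D' x₀')
    (hM : Order.succ l < #M) (hMN : #M = #N) (H : Core L D x₀ D' x₀') :
    Nonempty (M ≃[L] N) := by
  classical
  have hN : Order.succ l < #N := hMN ▸ hM
  obtain ⟨f, hf1, hf2, hf3, hf4⟩ := H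
  obtain ⟨e⟩ : Nonempty (GC L D x₀ ≃ GC L D' x₀') := by
    rw [← Cardinal.eq, card_GC hl h hM, card_GC hl h' hN, hMN]
  have h1 : ∀ C : GC L D x₀, TI L f D C.1 (e C).1 := by
    intro C
    have h2 : TE L D C.1 (comp L D x₀) := by
      obtain ⟨x, hx⟩ := C.nonempty
      rw [C.eq_comp hx]
      exact (C.good hx).2
    have h3 : TE L D' (e C).1 (comp L D' x₀') := by
      obtain ⟨x, hx⟩ := (e C).nonempty
      rw [(e C).eq_comp hx]
      exact ((e C).good hx).2
    exact TI.trans_TE (TE.trans_TI h2 hf4) h3.symm hf3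
  choose g hg1 hg2 hg3 using h1
  let pc : ∀ {M : Type u} [L.Structure M] (D : Set M) (x₀ : M), Option (GC L D x₀) → Set M :=
    fun D x₀ o => Option.elim o (rp L D x₀ \ D) (fun C => C.1)
  -- general facts on pieces
  have pc1 : ∀ {M : Type u} [L.Structure M] (D : Set M) (x₀ : M) (i j : Option (GC L D x₀)) (x : M),
      x ∈ pc D x₀ i → x ∈ pc D x₀ j → i = j := by
    intro M _ D x₀ i j x hi hj
    rcases i with _ | C <;> rcases j with _ | C'
    · rfl
    · exact absurd (C'.good hj) hi.1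
    · exact absurd (C.good hi) hj.1
    · congr 1
      apply Subtype.ext
      rw [C.eq_comp hi, C'.eq_comp hj]
  have pc2 : ∀ {M : Type u} [L.Structure M] (D : Set M) (x₀ : M) (x : M),
      x ∈ D ∨ ∃ i, x ∈ pc D x₀ i := by
    intro M _ D x₀ x
    by_cases hx : good L D x₀ x
    · exact Or.inr ⟨some ⟨comp L D x, x, hx, rfl⟩, mem_comp_self _ _⟩
    · by_cases hxD : x ∈ D
      · exact Or.inl hxD
      · exact Or.inr ⟨none, hx, hxD⟩
  have pc3 : ∀ {M : Type u} [L.Structure M] (D : Set M) (x₀ : M) (n : ℕ) (R : L.Relations n)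
      (v : Fin n → M), RelMap R v → ∃ i, ∀ k, v k ∈ D ∪ pc D x₀ i := by
    intro M _ D x₀ n R v hv
    by_cases hg : ∃ k, good L D x₀ (v k)
    · obtain ⟨k, hk⟩ := hg
      exact ⟨some ⟨comp L D (v k), v k, hk, rfl⟩, fun j =>
        rel_mem_comp hv hk.1 (mem_comp_self _ _) j⟩
    · refine ⟨none, fun k => ?_⟩
      by_cases hkD : v k ∈ D
      · exact Or.inl hkD
      · exact Or.inr ⟨fun hk => hg ⟨k, hk⟩, hkD⟩
  have pc4 : ∀ {M : Type u} [L.Structure M] (D : Set M) (x₀ : M) (i : Option (GC L D x₀)),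
      ∀ x ∈ D, x ∉ pc D x₀ i := by
    intro M _ D x₀ i x hx hi
    rcases i with _ | C
    · exact hi.2 hx
    · exact (C.good hi).1 hx
  let e' : Option (GC L D x₀) ≃ Option (GC L D' x₀') := Equiv.optionCongr e
  refine ⟨(glue (L := L) D (pc D x₀) D' (fun i => pc D' x₀' (e' i))
    (pc1 D x₀) (pc2 D x₀) (pc3 D x₀) (fun i => pc4 D' x₀' (e' i))
    (fun i j x hi hj => e'.injective (pc1 D' x₀' _ _ x hi hj))
    (fun x => by
      rcases pc2 D' x₀' x with hx | ⟨i, hi⟩
      · exact Or.inl hx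
      · exact Or.inr ⟨e'.symm i, by rwa [e'.apply_symm_apply]⟩)
    (fun n R v hv => by
      obtain ⟨i, hi⟩ := pc3 D' x₀' n R v hv
      exact ⟨e'.symm i, by rwa [e'.apply_symm_apply]⟩)
    (fun i => Option.elim i f g) ?_ ?_ ?_ ?_).choose⟩
  · intro i j x hx
    rcases i with _ | C <;> rcases j with _ | C'
    · rfl
    · exact (hg1 C' x hx).symm
    · exact hg1 C x hx
    · exact (hg1 C x hx).trans (hg1 C' x hx).symm
  · intro i
    rcases i with _ | C
    · refine hf1.mono ?_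
      rintro x (hx | hx)
      · exact subset_rp _ _ hx
      · exact hx.1
    · exact hg3 C
  · intro i
    rcases i with _ | C
    · exact hf3
    · rw [← hf3]
      exact image_congr (hg1 C)
  · intro i
    rcases i with _ | C
    · change f '' (rp L D x₀ \ D) = rp L D' x₀' \ D'
      rw [← hf2, ← hf3]
      ext y
      constructor
      · rintro ⟨x, hx, rfl⟩
        refine ⟨⟨x, hx.1, rfl⟩, ?_⟩
        rintro ⟨w, hw, hwx⟩
        rw [hf1.inj (subset_rp _ _ hw) hx.1 hwx] at hw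
        exact hx.2 hw
      · rintro ⟨⟨x, hx, rfl⟩, hy⟩
        exact ⟨x, ⟨hx, fun hxD => hy ⟨x, hxD, rfl⟩⟩, rfl⟩
    · exact hg2 C

end

section fc

variable {M N : Type u} [L.Structure M] [L.Structure N] {f : M ↪[L] N} {D : Set M}

theorem FC.good_iff (h : FC L f D) {x₀ x : M} (hx₀ : x₀ ∉ D) :
    good L (f '' D) (f x₀) (f x) ↔ good L D x₀ x := by
  constructor
  · rintro ⟨h1, h2⟩
    have hx : x ∉ D := fun hx => h1 ⟨x, hx, rfl⟩
    exact ⟨hx, (h.TE_iff hx hx₀).1 h2⟩
  · rintro ⟨h1, h2⟩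
    refine ⟨?_, (h.TE_iff h1 hx₀).2 h2⟩
    rintro ⟨w, hw, hwx⟩
    exact h1 (f.injective hwx ▸ hw)

/-- Along a full closed embedding whose range contains the rest part, the cores agree. -/
theorem FC.core (h : FC L f D) {x₀ : M} (hx₀ : x₀ ∉ D) (hrp : rp L (f '' D) (f x₀) ⊆ range f) :
    Core L D x₀ (f '' D) (f x₀) := by
  refine ⟨f, IsoOn.of_embedding f _, ?_, rfl, ?_⟩
  · ext y
    constructor
    · rintro ⟨x, hx, rfl⟩ hg
      exact hx ((h.good_iff hx₀).1 hg)
    · intro hy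
      obtain ⟨x, rfl⟩ := hrp hy
      exact ⟨x, fun hg => hy ((h.good_iff hx₀).2 hg), rfl⟩
  · rw [h.comp_eq hx₀]
    exact TI.of_emb f D _

/-- Niceness passes to full closed substructures. -/
theorem FC.nice_of (h : FC L f D) {l : Cardinal.{u}} {x₀ : M}
    (hN : Nice L l (f '' D) (f x₀)) : Nice L l D x₀ := by
  have hx₀ : x₀ ∉ D := fun hx => hN.notMem ⟨x₀, hx, rfl⟩
  refine ⟨?_, hx₀, ?_, ?_, ?_⟩
  · rw [← mk_image_eq (s := D) f.injective]
    exact hN.card_D
  · intro d hd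
    obtain ⟨y, hy, hdy⟩ := hN.nbr (f d) ⟨d, hd, rfl⟩
    rw [h.comp_eq hx₀] at hy
    obtain ⟨z, hz, rfl⟩ := hy
    exact ⟨z, hz, h.adj _ _ hdy⟩
  · intro x hx
    rw [← mk_image_eq (s := comp L D x) f.injective, ← h.comp_eq hx]
    apply hN.comp_le
    rintro ⟨w, hw, hwx⟩
    exact hx (f.injective hwx ▸ hw)
  · rw [← mk_image_eq (s := rp L D x₀) f.injective]
    refine (mk_le_mk_of_subset ?_).trans hN.rp_le
    rintro _ ⟨x, hx, rfl⟩ hg
    exact hx ((h.good_iff hx₀).1 hg)

end fc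

end Vale.Agent.P307.Gr
end
end

section

section

universe u

namespace Vale.Agent.P307.Gr

open FirstOrder Language Cardinal Structure Set

variable {L : Language.{u, u}} {M : Type u} [L.Structure M]

variable (L) in
/-- the set `X` is connected -/
def Connd (X : Set M) : Prop := ∀ x ∈ X, ∀ y ∈ X, conn L Xᶜ x y

theorem exists_finite_conn {Z : Set M} {x y : M} (hxy : conn L Z x y) :
    ∃ T : Set M, T.Finite ∧ T ⊆ comp L Z x ∧ x ∈ T ∧ y ∈ T ∧ ∀ z ∈ T, conn L Tᶜ x z := by
  induction hxy with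
  | refl =>
    refine ⟨{x}, finite_singleton x, ?_, rfl, rfl, ?_⟩
    · rintro _ rfl
      exact mem_comp_self _ _
    · rintro _ rfl
      exact Relation.ReflTransGen.refl
  | @tail b c hb hbc ih =>
    obtain ⟨T, h1, h2, h3, h4, h5⟩ := ih
    have hsub : (T ∪ {c})ᶜ ⊆ Tᶜ := compl_subset_compl.2 subset_union_left
    refine ⟨T ∪ {c}, h1.union (finite_singleton c), union_subset h2 ?_, Or.inl h3, Or.inr rfl, ?_⟩
    · rintro _ rfl
      exact Relation.ReflTransGen.tail hb hbc
    · rintro z (hz | hz)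
      · exact (h5 z hz).mono hsub
      · rw [hz]
        refine Relation.ReflTransGen.tail ((h5 b h4).mono hsub) ⟨?_, ?_, hbc.2.2⟩
        · exact fun h => h (Or.inl h4)
        · exact fun h => h (Or.inr rfl)

theorem exists_connd_subset {Z : Set M} {x : M} {θ : Cardinal.{u}} (hθ : ℵ₀ ≤ θ)
    (h : θ ≤ #(comp L Z x)) : ∃ X : Set M, X ⊆ comp L Z x ∧ #X = θ ∧ Connd L X := by
  obtain ⟨A, hA1, hA2⟩ := Cardinal.le_mk_iff_exists_subset.1 h
  have h1 : ∀ y : A, ∃ T : Set M, T.Finite ∧ T ⊆ comp L Z x ∧ x ∈ T ∧ y.1 ∈ T ∧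
      ∀ z ∈ T, conn L Tᶜ x z := fun y => exists_finite_conn (hA1 y.2)
  choose T hT1 hT2 hT3 hT4 hT5 using h1
  have hAX : A ⊆ ⋃ y, T y := fun y hy => mem_iUnion.2 ⟨⟨y, hy⟩, hT4 _⟩
  refine ⟨⋃ y, T y, iUnion_subset hT2, ?_, ?_⟩
  · apply le_antisymm
    · refine (mk_iUnion_le _).trans ?_
      rw [hA2]
      refine (mul_le_mul' (_root_.le_refl θ) (ciSup_le' (a := θ) fun y => ?_)).trans
        (mul_eq_self hθ).le
      have := (hT1 y).to_subtype
      exact (Cardinal.lt_aleph0_of_finite _).le.trans hθ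
    · rw [← hA2]
      exact mk_le_mk_of_subset hAX
  · have key : ∀ z ∈ ⋃ y, T y, conn L (⋃ y, T y)ᶜ x z := by
      intro z hz
      obtain ⟨y, hy⟩ := mem_iUnion.1 hz
      exact (hT5 y z hy).mono (compl_subset_compl.2 (subset_iUnion T y))
    intro a ha b hb
    exact (key a ha).symm.trans (key b hb)

/-- A small set all of whose complementary components are small, provided that there are few
disjoint big connected sets. -/
theorem exists_small_separator {θ l : Cardinal.{u}} (hl : ℵ₀ ≤ l) (hlθ : l ≤ θ)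
    (hno : ∀ F : Set (Set M), F.PairwiseDisjoint id → (∀ X ∈ F, #X = θ ∧ Connd L X) → #F ≤ l) :
    ∃ Z : Set M, #Z ≤ θ ∧ ∀ x ∉ Z, #(comp L Z x) ≤ θ := by
  have hθ : ℵ₀ ≤ θ := hl.trans hlθ
  obtain ⟨F, hF⟩ := zorn_subset {F : Set (Set M) | F.PairwiseDisjoint id ∧
    ∀ X ∈ F, #X = θ ∧ Connd L X} (by
    intro c hc hchain
    refine ⟨⋃₀ c, ⟨?_, ?_⟩, fun s hs => subset_sUnion_of_mem hs⟩
    · rintro X ⟨s, hs, hX⟩ Y ⟨t, ht, hY⟩ hXY
      rcases hchain.total hs ht with h | h
      · exact (hc ht).1 (h hX) hY hXY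
      · exact (hc hs).1 hX (h hY) hXY
    · rintro X ⟨s, hs, hX⟩
      exact (hc hs).2 X hX)
  have hF1 := hF.prop
  have hFl := hno F hF1.1 hF1.2
  refine ⟨⋃₀ F, ?_, ?_⟩
  · rw [sUnion_eq_iUnion]
    refine (mk_iUnion_le _).trans ?_
    refine (mul_le_mul' (hFl.trans hlθ) (ciSup_le' fun X : F => ?_)).trans (mul_eq_self hθ).le
    exact (hF1.2 X.1 X.2).1.le
  · intro x hx
    by_contra hcon
    rw [not_le] at hcon
    obtain ⟨X, hX1, hX2, hX3⟩ := exists_connd_subset hθ hcon.le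
    have hXd : ∀ Y ∈ F, Disjoint X Y := by
      intro Y hY
      rw [Set.disjoint_left]
      intro z hz hzY
      exact comp_notMem hx (hX1 hz) ⟨Y, hY, hzY⟩
    have hXF : X ∉ F := by
      intro h
      have h1 := hXd X h
      rw [disjoint_self] at h1
      rw [h1] at hX2
      simp only [bot_eq_empty, mk_eq_zero] at hX2
      rw [← hX2] at hθ
      exact absurd hθ (not_le.2 aleph0_pos)
    have h2 : insert X F ∈ {F : Set (Set M) | F.PairwiseDisjoint id ∧
        ∀ X ∈ F, #X = θ ∧ Connd L X} := by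
      refine ⟨?_, ?_⟩
      · refine hF1.1.insert fun Y hY _ => hXd Y hY
      · rintro Y (rfl | hY)
        · exact ⟨hX2, hX3⟩
        · exact hF1.2 Y hY
    exact hXF (hF.le_of_ge h2 (subset_insert X F) (mem_insert X F))

end Vale.Agent.P307.Gr
end
end

section

section

universe u

namespace Vale.Agent.P307.Gr

open FirstOrder Language Cardinal Structure Set

variable {L : Language.{u, u}}

/-- The amalgam of `V` copies of `R ⊕ E` over `R`. -/
def Am (R E V : Type u) : Type u := R ⊕ (V × E)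

namespace Am

variable {R E V W : Type u}

/-- projection to the one-copy structure -/
def proj : Am R E V → R ⊕ E := Sum.map id Prod.snd

/-- two points lie in a common copy -/
def ok : Am R E V → Am R E V → Prop
  | Sum.inr a, Sum.inr b => a.1 = b.1
  | _, _ => True

theorem ok_inl_left (r : R) (y : Am R E V) : ok (Sum.inl r) y := by
  rcases y with r' | ⟨i, e⟩ <;> trivial

theorem ok_inl_right (x : Am R E V) (r : R) : ok x (Sum.inl r) := by
  rcases x with r' | ⟨i, e⟩ <;> trivial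

theorem ok_inr {i j : V} {e e' : E} :
    ok (Sum.inr (i, e) : Am R E V) (Sum.inr (j, e')) ↔ i = j := Iff.rfl

instance [L.IsRelational] [L.Structure (R ⊕ E)] : L.Structure (Am R E V) where
  funMap f := isEmptyElim f
  RelMap P v := RelMap P (fun k => proj (v k)) ∧ ∀ k l, ok (v k) (v l)

theorem relMap_iff [L.IsRelational] [L.Structure (R ⊕ E)] {n : ℕ} (P : L.Relations n)
    (v : Fin n → Am R E V) : RelMap P v ↔ RelMap P (fun k => proj (v k)) ∧
      ∀ k l, ok (v k) (v l) := Iff.rfl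

/-- functoriality in the index set -/
def map (φ : V → W) : Am R E V → Am R E W := Sum.map id (Prod.map φ id)

@[simp] theorem proj_map (φ : V → W) (x : Am R E V) : proj (map φ x) = proj x := by
  rcases x with r | ⟨i, e⟩ <;> rfl

@[simp] theorem ok_map {φ : V → W} (hφ : Function.Injective φ) (x y : Am R E V) :
    ok (map φ x) (map φ y) ↔ ok x y := by
  rcases x with r | ⟨i, e⟩ <;> rcases y with r' | ⟨i', e'⟩ <;> try exact Iff.rfl
  exact hφ.eq_iff

theorem map_injective {φ : V → W} (hφ : Function.Injective φ) :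
    Function.Injective (map φ : Am R E V → Am R E W) :=
  Sum.map_injective.2 ⟨Function.injective_id, hφ.prodMap Function.injective_id⟩

theorem relMap_map [L.IsRelational] [L.Structure (R ⊕ E)] {φ : V → W}
    (hφ : Function.Injective φ) {n : ℕ} (P : L.Relations n) (v : Fin n → Am R E V) :
    RelMap P (map φ ∘ v) ↔ RelMap P v := by
  rw [relMap_iff, relMap_iff]
  simp only [Function.comp_apply, proj_map, ok_map hφ]

section

variable [L.IsRelational] [L.Structure (R ⊕ E)]

variable (L R E) in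
/-- the embedding induced by an injection of index sets -/
def mapEmb (φ : V → W) (hφ : Function.Injective φ) : Am R E V ↪[L] Am R E W where
  toFun := map φ
  inj' := map_injective hφ
  map_fun' f := isEmptyElim f
  map_rel' P v := relMap_map hφ P v

variable (L R E) in
/-- the isomorphism induced by a bijection of index sets -/
def mapEquiv (φ : V ≃ W) : Am R E V ≃[L] Am R E W where
  toFun := map φ
  invFun := map φ.symm
  left_inv x := by
    rcases x with r | ⟨i, e⟩
    · rfl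
    · exact congrArg Sum.inr (Prod.ext (φ.symm_apply_apply i) rfl)
  right_inv x := by
    rcases x with r | ⟨i, e⟩
    · rfl
    · exact congrArg Sum.inr (Prod.ext (φ.apply_symm_apply i) rfl)
  map_fun' f := isEmptyElim f
  map_rel' P v := relMap_map φ.injective P v

@[simp] theorem mapEquiv_apply (φ : V ≃ W) (x : Am R E V) : mapEquiv L R E φ x = map φ x := rfl

@[simp] theorem mapEmb_apply (φ : V → W) (hφ : Function.Injective φ) (x : Am R E V) :
    mapEmb L R E φ hφ x = map φ x := rfl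

variable (L R E) in
/-- the substructure given by a set of copies -/
def sub (W : Set V) : L.Substructure (Am R E V) where
  carrier := {x | ∀ i e, x = Sum.inr (i, e) → i ∈ W}
  fun_mem f := isEmptyElim f

theorem sub_mono {W W' : Set V} (h : W ⊆ W') : sub L R E W ≤ sub L R E W' :=
  fun _ hx i e he => h (hx i e he)

theorem range_mapEmb (φ : V → W) (hφ : Function.Injective φ) :
    (mapEmb L R E φ hφ).toHom.range = sub L R E (range φ) := by
  ext x
  constructor
  · rintro ⟨y, rfl⟩ i e he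
    rcases y with r | ⟨j, e'⟩
    · cases he
    · cases he
      exact ⟨j, rfl⟩
  · intro h
    rcases x with r | ⟨i, e⟩
    · exact ⟨Sum.inl r, rfl⟩
    · obtain ⟨j, rfl⟩ := h i e rfl
      exact ⟨Sum.inr (j, e), rfl⟩

/-- support of a set -/
def supp (A : Set (Am R E V)) : Set V := {i | ∃ e, (Sum.inr (i, e) : Am R E V) ∈ A}

theorem mk_supp_le (A : Set (Am R E V)) : #(supp A) ≤ #A := by
  have h : ∀ i : supp A, ∃ e, (Sum.inr (i.1, e) : Am R E V) ∈ A := fun i => i.2
  choose e he using h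
  refine mk_le_of_injective (f := fun i : supp A => (⟨_, he i⟩ : A)) ?_
  intro i j hij
  have h1 := congrArg Subtype.val hij
  have h2 : (i.1, e i) = (j.1, e j) := Sum.inr_injective h1
  exact Subtype.ext (Prod.ext_iff.1 h2).1

end

/-- moving small sets into a large one -/
theorem exists_perm_move {l : Cardinal.{u}} (hl : ℵ₀ ≤ l) (S T W : Set V) (hSW : S ⊆ W)
    (hS : #S ≤ l) (hT : #T ≤ l) (hW : l < #W) :
    ∃ π : V ≃ V, (∀ i ∈ S, π i = i) ∧ ∀ i ∈ T, π i ∈ W := by
  classical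
  have h1 : l < #(W \ S : Set V) := by
    by_contra hcon
    rw [not_lt] at hcon
    have h2 := Cardinal.le_mk_sdiff_add_mk W S
    exact absurd (h2.trans (Cardinal.add_le_of_le hl hcon hS)) (not_le.2 hW)
  obtain ⟨g⟩ : Nonempty (T ↪ (W \ S : Set V)) := Cardinal.le_def _ _ |>.1 (hT.trans h1.le)
  let f₀ : (S ∪ T : Set V) → V := fun x => if h : x.1 ∈ S then x.1 else g ⟨x.1, x.2.resolve_left h⟩
  have hf1 : ∀ x : (S ∪ T : Set V), x.1 ∈ S → f₀ x = x.1 := fun x h => by simp only [f₀, dif_pos h]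
  have hf2 : ∀ x : (S ∪ T : Set V), ∀ h : x.1 ∉ S, f₀ x = g ⟨x.1, x.2.resolve_left h⟩ :=
    fun x h => by simp only [f₀, dif_neg h]
  have hinj : Function.Injective f₀ := by
    intro x y hxy
    by_cases hx : x.1 ∈ S <;> by_cases hy : y.1 ∈ S
    · rw [hf1 x hx, hf1 y hy] at hxy
      exact Subtype.ext hxy
    · rw [hf1 x hx, hf2 y hy] at hxy
      exact absurd (hxy ▸ hx) (g _).2.2
    · rw [hf2 x hx, hf1 y hy] at hxy
      exact absurd (hxy ▸ hy) (g _).2.2
    · rw [hf2 x hx, hf2 y hy] at hxy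
      have h3 := g.injective (Subtype.ext hxy)
      exact Subtype.ext (congrArg (fun z : T => z.1) h3)
  have hV : l < #V := hW.trans_le (mk_set_le W)
  obtain ⟨π, hπ⟩ := Cardinal.extend_function_of_lt (α := V) (β := V) ⟨f₀, hinj⟩
    ((mk_union_le _ _).trans (Cardinal.add_le_of_le hl hS hT) |>.trans_lt hV) ⟨Equiv.refl V⟩
  refine ⟨π, fun i hi => ?_, fun i hi => ?_⟩
  · have := hπ ⟨i, Or.inl hi⟩
    rw [this]
    exact hf1 _ hi
  · have := hπ ⟨i, Or.inr hi⟩
    rw [this]
    by_cases h : i ∈ S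
    · change f₀ _ ∈ W
      rw [hf1 _ h]
      exact hSW h
    · change f₀ _ ∈ W
      rw [hf2 _ h]
      exact (g _).2.1

section grow

variable [L.IsRelational] [L.Structure (R ⊕ E)] {K : AEC L} {l : Cardinal.{u}}

theorem shrink (hK : K.IsLS l) (hV : K.mem (Am R E V)) (W : Set V) (hW : l < #W) :
    K.le (sub L R E W) := by
  have hl := hK.1
  have key : ∀ A : Set (Am R E V), A ⊆ sub L R E W → #A ≤ l →
      ∃ P : L.Substructure (Am R E V), K.le P ∧ A ⊆ P ∧ P ≤ sub L R E W ∧ #P ≤ l := by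
    intro A hA hAl
    obtain ⟨P, h1, h2, h3⟩ := hK.2.2 _ hV A
    have h4 : #(P : Set (Am R E V)) ≤ l := h3.trans (Cardinal.add_le_of_le hl hAl (_root_.le_refl _))
    obtain ⟨π, hπ1, hπ2⟩ := exists_perm_move hl (supp A) (supp (P : Set (Am R E V))) W
      (fun i ⟨e, he⟩ => hA he i e rfl) ((mk_supp_le _).trans hAl) ((mk_supp_le _).trans h4) hW
    refine ⟨P.map (mapEquiv L R E π).toHom, K.le_iso _ _ h1, ?_, ?_, ?_⟩
    · intro x hx
      refine ⟨x, h2 hx, ?_⟩
      rcases x with r | ⟨i, e⟩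
      · rfl
      · change Sum.inr (π i, e) = Sum.inr (i, e)
        rw [hπ1 i ⟨e, hx⟩]
    · rintro x ⟨y, hy, rfl⟩ i e he
      rcases y with r | ⟨j, e'⟩
      · cases he
      · cases he
        exact hπ2 j ⟨e', hy⟩
    · have : #(P.map (mapEquiv L R E π).toHom : Set (Am R E V)) ≤ l := by
        rw [Substructure.coe_map]
        exact mk_image_le.trans h4
      exact this
  let ι := {P : L.Substructure (Am R E V) // K.le P ∧ P ≤ sub L R E W ∧ #P ≤ l}
  have hne : Nonempty ι := by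
    obtain ⟨P, h1, -, h2, h3⟩ := key ∅ (empty_subset _) (by simp)
    exact ⟨⟨P, h1, h2, h3⟩⟩
  have hdir : IsDirectedOrder ι := by
    refine ⟨fun P Q => ?_⟩
    obtain ⟨T, h1, h2, h3, h4⟩ := key ((P.1 : Set (Am R E V)) ∪ Q.1)
      (union_subset P.2.2.1 Q.2.2.1)
      ((mk_union_le _ _).trans (Cardinal.add_le_of_le hl P.2.2.2 Q.2.2.2))
    exact ⟨⟨T, h1, h3, h4⟩, fun x hx => h2 (Or.inl hx), fun x hx => h2 (Or.inr hx)⟩
  have h := AEC.le_iSup_directed (K := K) (fun P : ι => P.1) (fun P Q h => h) (fun P => P.2.1)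
  convert h using 1
  apply le_antisymm
  · intro x hx
    obtain ⟨P, h1, h2, h3, h4⟩ := key {x} (singleton_subset_iff.2 hx) (by
      rw [mk_singleton]
      exact one_le_aleph0.trans hl)
    exact (le_iSup (fun P : ι => P.1) ⟨P, h1, h3, h4⟩) (h2 rfl)
  · exact iSup_le fun P => P.2.2.1

theorem shrink_emb (hK : K.IsLS l) (hV : K.mem (Am R E V)) (φ : W → V)
    (hφ : Function.Injective φ) (hW : l < #W) : K.Emb (mapEmb L R E φ hφ) := by
  unfold AEC.Emb
  rw [range_mapEmb]
  apply shrink hK hV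
  rwa [mk_range_eq φ hφ]

theorem mem_of_le (hK : K.IsLS l) (hV : K.mem (Am R E V)) (hW : l < #W) (hWV : #W ≤ #V) :
    K.mem (Am R E W) := by
  obtain ⟨φ⟩ := Cardinal.le_def _ _ |>.1 hWV
  exact (shrink_emb hK hV φ φ.injective hW).mem_left

theorem grow (hK : K.IsLS l) (hV : K.mem (Am R E V)) (hVl : l < #V) (hW : l < #W) :
    K.mem (Am R E W) := by
  rcases le_total #W #V with h | h
  · exact mem_of_le hK hV hW h
  have hl := hK.1
  have hVi : ℵ₀ ≤ #V := hl.trans hVl.le
  let ι := {S : Set W // #S = #V}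
  have hex : ∀ A : Set W, #A ≤ #V → ∃ S : ι, A ⊆ S.1 := by
    intro A hA
    obtain ⟨φ⟩ := Cardinal.le_def _ _ |>.1 h
    refine ⟨⟨A ∪ range φ, ?_⟩, subset_union_left⟩
    apply _root_.le_antisymm
    · refine (mk_union_le _ _).trans (Cardinal.add_le_of_le hVi hA ?_)
      exact mk_range_le
    · refine (mk_range_eq φ φ.injective).symm.le.trans (mk_le_mk_of_subset subset_union_right)
  have hne : Nonempty ι := by
    obtain ⟨S, -⟩ := hex ∅ (by simp)
    exact ⟨S⟩
  have hdir : IsDirectedOrder ι := by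
    refine ⟨fun P Q => ?_⟩
    obtain ⟨T, hT⟩ := hex (P.1 ∪ Q.1) ((mk_union_le _ _).trans
      (Cardinal.add_le_of_le hVi P.2.le Q.2.le))
    exact ⟨T, subset_union_left.trans hT, subset_union_right.trans hT⟩
  have hmem : ∀ S : ι, K.mem (Am R E S.1) := by
    intro S
    obtain ⟨φ⟩ := Cardinal.eq.1 S.2
    exact K.mem_iso (mapEquiv L R E φ).symm hV
  have hval : ∀ S : ι, Function.Injective (Subtype.val : S.1 → W) := fun S =>
    Subtype.val_injective
  have hmemsub : ∀ S : ι, K.mem (sub L R E S.1) := by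
    intro S
    have h1 := range_mapEmb (L := L) (R := R) (E := E) (Subtype.val : S.1 → W) (hval S)
    rw [Subtype.range_val] at h1
    rw [← h1]
    exact K.mem_iso (mapEmb L R E _ (hval S)).equivRange (hmem S)
  refine (AEC.mem_of_directed_union (K := K) (fun S : ι => sub L R E S.1)
    (fun S T h => sub_mono h) ?_ ?_).1
  · intro S T hST
    have hST' : (S.1 : Set W) ⊆ T.1 := hST
    -- the range of `Am S → Am T → Am W`
    have h1 := range_mapEmb (L := L) (R := R) (E := E) (Subtype.val : T.1 → W) (hval T)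
    rw [Subtype.range_val] at h1
    let j : S.1 → T.1 := Set.inclusion hST'
    have hj : Function.Injective j := Set.inclusion_injective hST'
    have h2 : K.Emb (mapEmb L R E j hj) :=
      shrink_emb hK (hmem T) j hj (by rw [S.2]; exact hVl)
    have h3 : K.sle (mapEmb L R E j hj).toHom.range ⊤ := (AEC.sle_top (hmem T)).2 h2
    rw [← AEC.sle_map (mapEmb L R E (Subtype.val : T.1 → W) (hval T))] at h3
    rw [← Language.Hom.range_eq_map, h1] at h3
    have h4 : Substructure.map (mapEmb L R E (Subtype.val : T.1 → W) (hval T)).toHom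
        (mapEmb L R E j hj).toHom.range = sub L R E S.1 := by
      rw [range_mapEmb]
      ext x
      constructor
      · rintro ⟨y, hy, rfl⟩ i e he
        rcases y with r | ⟨k, e'⟩
        · cases he
        · cases he
          obtain ⟨s, hs⟩ := hy k e' rfl
          rw [← hs]
          exact s.2
      · intro hx
        rcases x with r | ⟨i, e⟩
        · refine ⟨Sum.inl r, ?_, rfl⟩
          intro i e he
          cases he
        · have hi := hx i e rfl
          refine ⟨Sum.inr (⟨i, hST' hi⟩, e), ?_, rfl⟩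
          intro k e' he
          cases he
          exact ⟨⟨i, hi⟩, rfl⟩
    rw [h4] at h3
    exact h3
  · intro x
    rcases x with r | ⟨i, e⟩
    · obtain ⟨S⟩ := hne
      exact ⟨S, by intro i e he; cases he⟩
    · obtain ⟨S, hS⟩ := hex {i} (by rw [mk_singleton]; exact one_le_aleph0.trans hVi)
      exact ⟨S, by intro k e' he; cases he; exact hS rfl⟩

end grow

end Am

end Vale.Agent.P307.Gr
end
end

section

section

universe u

namespace Vale.Agent.P307.Gr

open FirstOrder Language Cardinal Structure Set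

variable {L : Language.{u, u}}

variable (L) in
/-- pairwise inseparable by at most `l` vertices -/
def Insep {M : Type u} [L.Structure M] (l : Cardinal.{u}) (Z : Set M) : Prop :=
  ∀ x ∈ Z, ∀ y ∈ Z, x ≠ y → ∀ Y : Set M, #Y ≤ l → x ∉ Y → y ∉ Y → conn L Y x y

namespace Am

variable {R E V W : Type u} [L.IsRelational] [L.Structure (R ⊕ E)]

/-- the copy with index `i` -/
def cp (i : V) : R ⊕ E → Am R E V := Sum.map id (fun e => (i, e))

theorem proj_cp (i : V) (x : R ⊕ E) : proj (cp i x) = x := by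
  rcases x with r | e <;> rfl

theorem ok_cp (i : V) (x y : R ⊕ E) : ok (cp i x) (cp i y) := by
  rcases x with r | e <;> rcases y with r' | e'
  · exact ok_inl_left _ _
  · exact ok_inl_left _ _
  · exact ok_inl_right _ _
  · exact ok_inr.2 rfl

theorem relMap_cp (i : V) {n : ℕ} (P : L.Relations n) (v : Fin n → R ⊕ E) :
    RelMap P (fun k => cp i (v k)) ↔ RelMap P v := by
  rw [relMap_iff]
  simp only [proj_cp]
  exact ⟨fun h => h.1, fun h => ⟨h, fun k l => ok_cp i _ _⟩⟩

theorem gadj_iff [Nonempty V] {x y : Am R E V} :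
    gadj L x y ↔ gadj L (proj x) (proj y) ∧ ok x y := by
  constructor
  · rintro ⟨n, P, v, hv, ⟨i, rfl⟩, ⟨j, rfl⟩⟩
    rw [relMap_iff] at hv
    exact ⟨⟨n, P, _, hv.1, ⟨i, rfl⟩, ⟨j, rfl⟩⟩, hv.2 i j⟩
  · rintro ⟨⟨n, P, v, hv, ⟨i, hi⟩, ⟨j, hj⟩⟩, hok⟩
    obtain ⟨m, hx, hy⟩ : ∃ m : V, cp m (proj x) = x ∧ cp m (proj y) = y := by
      rcases x with r | ⟨a, e⟩
      · rcases y with r' | ⟨b, e'⟩
        · exact ⟨Classical.arbitrary V, rfl, rfl⟩
        · exact ⟨b, rfl, rfl⟩
      · rcases y with r' | ⟨b, e'⟩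
        · exact ⟨a, rfl, rfl⟩
        · rw [ok_inr] at hok
          subst hok
          exact ⟨a, rfl, rfl⟩
    refine ⟨n, P, fun k => cp m (v k), (relMap_cp m P v).2 hv, ⟨i, ?_⟩, ⟨j, ?_⟩⟩
    · change cp m (v i) = x
      rw [hi, hx]
    · change cp m (v j) = y
      rw [hj, hy]

variable (L R E) in
/-- the attachment set of `E` in `R` -/
def att : Set R := {r | ∃ a : E, gadj L (Sum.inl r : R ⊕ E) (Sum.inr a)}

variable (V) in
/-- the attachment set in the amalgam -/
def attV (S : Set R) : Set (Am R E V) := {x | ∃ r ∈ S, x = Sum.inl r}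

/-- the base -/
def base : R → Am R E V := Sum.inl

omit [L.IsRelational] [L.Structure (R ⊕ E)] in
theorem base_injective : Function.Injective (base : R → Am R E V) := Sum.inl_injective

/-- the copies -/
def copy (i : V) : E → Am R E V := fun e => Sum.inr (i, e)

omit [L.IsRelational] [L.Structure (R ⊕ E)] in
theorem mk_attV (S : Set R) : #(attV (E := E) V S) = #S := by
  have : attV (E := E) V S = base '' S := by
    ext x
    constructor
    · rintro ⟨r, hr, rfl⟩
      exact ⟨r, hr, rfl⟩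
    · rintro ⟨r, hr, rfl⟩
      exact ⟨r, hr, rfl⟩
  rw [this, mk_image_eq base_injective]

variable (L R E) in
/-- `E` is connected in the one-copy structure -/
def Econn : Prop := ∀ a b : E, conn L (range (Sum.inl : R → R ⊕ E)) (Sum.inr a) (Sum.inr b)

/-- paths in `E` lift to every copy -/
theorem conn_copy [Nonempty V] (hE : Econn L R E) (i : V) (a b : E) {Y : Set (Am R E V)}
    (hY : ∀ e, (Sum.inr (i, e) : Am R E V) ∉ Y) :
    conn L Y (Sum.inr (i, a) : Am R E V) (Sum.inr (i, b)) := by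
  have key : ∀ y : R ⊕ E, conn L (range (Sum.inl : R → R ⊕ E)) (Sum.inr a) y →
      conn L Y (Sum.inr (i, a) : Am R E V) (cp i y) := by
    intro y hy
    induction hy with
    | refl => exact Relation.ReflTransGen.refl
    | @tail b c _ hbc ih =>
      refine Relation.ReflTransGen.tail ih ?_
      obtain ⟨h1, h2, h3⟩ := hbc
      rcases b with r | e
      · exact absurd ⟨r, rfl⟩ h1
      · rcases c with r' | e'
        · exact absurd ⟨r', rfl⟩ h2
        · exact ⟨hY e, hY e', gadj_iff.2 ⟨h3, ok_inr.2 rfl⟩⟩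
  exact key _ (hE a b)

theorem comp_copy [Nonempty V] (hE : Econn L R E) (i : V) (a : E) :
    comp L (attV V (att L R E)) (Sum.inr (i, a) : Am R E V) =
      {x | ∃ b, x = Sum.inr (i, b)} := by
  apply Set.Subset.antisymm
  · refine comp_subset (X := {x : Am R E V | ∃ b, x = Sum.inr (i, b)}) ⟨a, rfl⟩ ?_
    rintro _ ⟨b, rfl⟩ _ z hz hyz
    obtain ⟨h1, h2⟩ := gadj_iff.1 hyz
    rcases z with r | ⟨j, c⟩
    · exact absurd ⟨r, ⟨b, h1.symm⟩, rfl⟩ hz
    · rw [ok_inr] at h2
      subst h2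
      exact ⟨c, rfl⟩
  · rintro _ ⟨b, rfl⟩
    apply conn_copy hE
    rintro e ⟨r, _, hr⟩
    cases hr

theorem comp_base [Nonempty V] {r : R} :
    comp L (attV V (att L R E)) (Sum.inl r : Am R E V) ⊆ range base := by
  by_cases hr : r ∈ att L R E
  · intro y hy
    rcases Relation.ReflTransGen.cases_head hy with h | ⟨c, h, _⟩
    · exact ⟨r, h⟩
    · exact absurd ⟨r, hr, rfl⟩ h.1
  · refine comp_subset (X := range base) ⟨r, rfl⟩ ?_
    rintro _ ⟨s, rfl⟩ hs z hz hyz
    obtain ⟨h1, h2⟩ := gadj_iff.1 hyz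
    rcases z with r' | ⟨j, c⟩
    · exact ⟨r', rfl⟩
    · exact absurd ⟨s, ⟨c, h1⟩, rfl⟩ hs

theorem TE_copy [Nonempty V] (hE : Econn L R E) (i j : V) (a b : E) :
    TE L (attV V (att L R E)) (comp L (attV V (att L R E)) (Sum.inr (i, a) : Am R E V))
      (comp L (attV V (att L R E)) (Sum.inr (j, b))) := by
  classical
  rw [comp_copy hE, comp_copy hE]
  refine ⟨mapEquiv L R E (Equiv.swap i j), ?_, ?_, IsoOn.of_equiv _ _⟩
  · rintro _ ⟨r, _, rfl⟩
    rfl
  · ext x
    constructor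
    · rintro ⟨_, ⟨e, rfl⟩, rfl⟩
      refine ⟨e, ?_⟩
      change Sum.inr (Equiv.swap i j i, e) = Sum.inr (j, e)
      rw [Equiv.swap_apply_left]
    · rintro ⟨e, rfl⟩
      refine ⟨Sum.inr (i, e), ⟨e, rfl⟩, ?_⟩
      change Sum.inr (Equiv.swap i j i, e) = Sum.inr (j, e)
      rw [Equiv.swap_apply_left]

theorem nice {l : Cardinal.{u}} (hE : Econn L R E) (hR : #R ≤ Order.succ l)
    (hE' : #E ≤ Order.succ l) (hS : #(att L R E) ≤ l) (i : V) (a : E) :
    Nice L l (attV V (att L R E)) (Sum.inr (i, a) : Am R E V) := by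
  have hne : Nonempty V := ⟨i⟩
  refine ⟨?_, ?_, ?_, ?_, ?_⟩
  · rwa [mk_attV]
  · rintro ⟨r, _, hr⟩
    cases hr
  · rintro _ ⟨r, ⟨b, hb⟩, rfl⟩
    rw [comp_copy hE]
    exact ⟨Sum.inr (i, b), ⟨b, rfl⟩, gadj_iff.2 ⟨hb, ok_inl_left _ _⟩⟩
  · intro x hx
    rcases x with r | ⟨j, b⟩
    · refine (mk_le_mk_of_subset comp_base).trans ?_
      exact (mk_range_le).trans hR
    · rw [comp_copy hE]
      refine le_trans ?_ hE'
      have : ({x | ∃ b, x = Sum.inr (j, b)} : Set (Am R E V)) ⊆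
          range (fun b : E => (Sum.inr (j, b) : Am R E V)) := by
        rintro _ ⟨b, rfl⟩
        exact ⟨b, rfl⟩
      exact (mk_le_mk_of_subset this).trans mk_range_le
  · have : rp L (attV V (att L R E)) (Sum.inr (i, a) : Am R E V) ⊆ range base := by
      intro x hx
      rcases x with r | ⟨j, b⟩
      · exact ⟨r, rfl⟩
      · refine absurd ⟨?_, TE_copy hE j i b a⟩ hx
        rintro ⟨r, _, hr⟩
        cases hr
    exact (mk_le_mk_of_subset this).trans (mk_range_le.trans hR)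

theorem insep {l : Cardinal.{u}} (hE : Econn L R E) (hV : l < #V) :
    Insep L l (attV (E := E) V (att L R E)) := by
  rintro _ ⟨r, ⟨a, ha⟩, rfl⟩ _ ⟨s, ⟨b, hb⟩, rfl⟩ _ Y hY hrY hsY
  have hne : Nonempty V := by
    by_contra h
    rw [not_nonempty_iff] at h
    simp at hV
  obtain ⟨i, hi⟩ : ∃ i : V, i ∉ supp Y := by
    by_contra hcon
    push Not at hcon
    have : #V ≤ l := by
      rw [← mk_univ]
      exact (mk_le_mk_of_subset fun i _ => hcon i).trans ((mk_supp_le Y).trans hY)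
    exact absurd this (not_le.2 hV)
  have hi' : ∀ e, (Sum.inr (i, e) : Am R E V) ∉ Y := fun e he => hi ⟨e, he⟩
  have h1 : conn L Y (Sum.inl r : Am R E V) (Sum.inr (i, a)) :=
    Relation.ReflTransGen.single ⟨hrY, hi' a, gadj_iff.2 ⟨ha, ok_inl_left _ _⟩⟩
  have h2 : conn L Y (Sum.inr (i, b)) (Sum.inl s : Am R E V) :=
    Relation.ReflTransGen.single ⟨hi' b, hsY, gadj_iff.2 ⟨hb.symm, ok_inl_right _ _⟩⟩
  exact (h1.trans (conn_copy hE i a b hi')).trans h2

theorem fc [Nonempty V] (φ : V → W) (hφ : Function.Injective φ) :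
    FC L (mapEmb L R E φ hφ) (attV V (att L R E)) := by
  have hW : Nonempty W := ⟨φ (Classical.arbitrary V)⟩
  constructor
  · intro x y hxy
    rw [gadj_iff] at hxy ⊢
    simpa [hφ] using hxy
  · intro x hx z hz
    rw [gadj_iff] at hz
    rcases z with r | ⟨j, b⟩
    · exact ⟨Sum.inl r, rfl⟩
    · rcases x with r | ⟨i, a⟩
      · exact absurd ⟨r, ⟨b, hz.1⟩, rfl⟩ hx
      · have h1 := hz.2
        change φ i = j at h1
        subst h1
        exact ⟨Sum.inr (i, b), rfl⟩

theorem image_attV (φ : V → W) (hφ : Function.Injective φ) (S : Set R) :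
    mapEmb L R E φ hφ '' attV V S = attV W S := by
  ext x
  constructor
  · rintro ⟨_, ⟨r, hr, rfl⟩, rfl⟩
    exact ⟨r, hr, rfl⟩
  · rintro ⟨r, hr, rfl⟩
    exact ⟨Sum.inl r, ⟨r, hr, rfl⟩, rfl⟩

end Am

section recognize

variable [L.IsRelational] {M : Type u} [L.Structure M]

/-- the structure induced on a disjoint sum of two subsets -/
@[reducible] def sumStr (X Y : Set M) : L.Structure (X ⊕ Y) where
  funMap f := isEmptyElim f
  RelMap P v := RelMap P (fun k => Sum.elim (fun x : X => x.1) (fun y : Y => y.1) (v k))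

/-- Recognition of amalgams. -/
theorem recognize {D : Set M} {ι : Type u} (C : ι → Set M) (i₀ : ι) {x₀ : M} (hx₀ : x₀ ∉ D)
    (hC₀ : C i₀ = comp L D x₀) (hC : ∀ i, ∃ x, good L D x₀ x ∧ C i = comp L D x)
    (hinj : Function.Injective C) :
    ∃ (R E : Type u) (_ : L.Structure (R ⊕ E)), Nonempty (M ≃[L] Am R E ι) ∧ Nonempty E ∧
      #R ≤ #M ∧ #E ≤ #(comp L D x₀) ∧ Am.Econn L R E := by
  classical
  have hdisj : ∀ i j x, x ∈ C i → x ∈ C j → i = j := by
    intro i j x hi hj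
    apply hinj
    obtain ⟨y, _, hy⟩ := hC i
    obtain ⟨z, _, hz⟩ := hC j
    rw [hy] at hi ⊢
    rw [hz] at hj ⊢
    rw [← comp_eq hi, ← comp_eq hj]
  let R : Set M := {x | ∀ i, x ∉ C i}
  let E : Set M := C i₀
  have hDR : D ⊆ R := by
    intro x hx i hi
    obtain ⟨y, hy1, hy2⟩ := hC i
    rw [hy2] at hi
    exact comp_notMem hy1.1 hi hx
  have hrel : ∀ i (n : ℕ) (P : L.Relations n) (v : Fin n → M), RelMap P v →
      (∃ k, v k ∈ C i) → ∀ k, v k ∈ D ∪ C i := by
    intro i n P v hv ⟨k, hk⟩ j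
    obtain ⟨y, hy1, hy2⟩ := hC i
    rw [hy2] at hk ⊢
    exact rel_mem_comp hv hy1.1 hk j
  have hTE : ∀ i, TE L D (C i) (C i₀) := by
    intro i
    obtain ⟨y, hy1, hy2⟩ := hC i
    rw [hy2, hC₀]
    exact hy1.2
  choose g hg1 hg2 hg3 using hTE
  have hgE : ∀ i, ∀ x ∈ C i, g i x ∈ E := fun i x hx => by
    change g i x ∈ C i₀
    rw [← hg2 i]
    exact ⟨x, hx, rfl⟩
  let str : L.Structure (R ⊕ E) := sumStr R E
  have hx₀E : x₀ ∈ E := by
    change x₀ ∈ C i₀
    rw [hC₀]
    exact mem_comp_self _ _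
  let f : ι → M → Am R E ι := fun i x =>
    if h : x ∈ R then Sum.inl ⟨x, h⟩ else
      if h' : g i x ∈ E then Sum.inr (i, ⟨g i x, h'⟩) else Sum.inr (i, ⟨x₀, hx₀E⟩)
  have hfR : ∀ i x (h : x ∈ R), f i x = Sum.inl ⟨x, h⟩ := fun i x h => dif_pos h
  have hfC : ∀ i x (h : x ∈ C i), f i x = Sum.inr (i, ⟨g i x, hgE i x h⟩) := fun i x h =>
    (dif_neg (fun hR => hR i h)).trans (dif_pos (hgE i x h))
  let D' : Set (Am R E ι) := range Am.base
  let C' : ι → Set (Am R E ι) := fun i => {x | ∃ e, x = Sum.inr (i, e)}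
  have hne : Nonempty ι := ⟨i₀⟩
  suffices hglue : Nonempty (M ≃[L] Am R E ι) by
    refine ⟨R, E, str, hglue, ⟨⟨x₀, hx₀E⟩⟩, mk_set_le _, ?_, ?_⟩
    · change #(C i₀) ≤ _
      rw [hC₀]
    · -- connectedness
      rintro ⟨a, ha⟩ ⟨b, hb⟩
      have ha' : a ∈ C i₀ := ha
      have hb' : b ∈ C i₀ := hb
      rw [hC₀] at ha' hb'
      have hab : conn L D a b := ha'.symm.trans hb'
      have haD : a ∉ D := comp_notMem hx₀ ha'
      have key : ∀ y, conn L D a y → ∃ hy : y ∈ E,
          conn L (range (Sum.inl : R → R ⊕ E)) (Sum.inr ⟨a, ha⟩) (Sum.inr ⟨y, hy⟩) := by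
        intro y hy
        induction hy with
        | refl => exact ⟨ha, Relation.ReflTransGen.refl⟩
        | @tail y z _ hyz ih =>
          obtain ⟨hy, ih⟩ := ih
          have hyc : y ∈ comp L D x₀ := by
            have : y ∈ C i₀ := hy
            rwa [hC₀] at this
          have hzE : z ∈ E := by
            change z ∈ C i₀
            rw [hC₀]
            exact mem_comp_of_gadj hx₀ hyc hyz.2.2 hyz.2.1
          refine ⟨hzE, Relation.ReflTransGen.tail ih ⟨?_, ?_, ?_⟩⟩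
          · rintro ⟨r, hr⟩
            cases hr
          · rintro ⟨r, hr⟩
            cases hr
          · obtain ⟨n, P, v, hv, ⟨i, hi⟩, ⟨j, hj⟩⟩ := hyz.2.2
            have h2 : ∀ k, v k ∈ D ∪ C i₀ := hrel i₀ n P v hv ⟨i, hi ▸ hy⟩
            have h3 : ∀ k, ∃ w : R ⊕ E,
                Sum.elim (fun x : R => x.1) (fun y : E => y.1) w = v k ∧
                  (v k ∈ E → ∃ h : v k ∈ E, w = Sum.inr ⟨v k, h⟩) := by
              intro k
              by_cases hk : v k ∈ E
              · exact ⟨Sum.inr ⟨v k, hk⟩, rfl, fun _ => ⟨hk, rfl⟩⟩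
              · exact ⟨Sum.inl ⟨v k, hDR ((h2 k).resolve_right hk)⟩, rfl, fun h => absurd h hk⟩
            choose w hw1 hw2 using h3
            refine ⟨n, P, w, ?_, ⟨i, ?_⟩, ⟨j, ?_⟩⟩
            · change RelMap P (fun k => Sum.elim (fun x : R => x.1) (fun y : E => y.1) (w k))
              simp only [hw1]
              exact hv
            · obtain ⟨h4, h5⟩ := hw2 i (hi ▸ hy)
              rw [h5]
              congr 1
              exact Subtype.ext hi
            · obtain ⟨h4, h5⟩ := hw2 j (hj ▸ hzE)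
              rw [h5]
              congr 1
              exact Subtype.ext hj
      exact (key b hab).2
  refine ⟨(glue (L := L) R C D' C' hdisj ?_ ?_ ?_ ?_ ?_ ?_ f ?_ ?_ ?_ ?_).choose⟩
  · -- covering
    intro x
    by_cases hx : ∃ i, x ∈ C i
    · exact Or.inr hx
    · exact Or.inl fun i hi => hx ⟨i, hi⟩
  · -- related tuples
    intro n P v hv
    by_cases h : ∃ i k, v k ∈ C i
    · obtain ⟨i, k, hk⟩ := h
      refine ⟨i, fun j => ?_⟩
      rcases hrel i n P v hv ⟨k, hk⟩ j with h1 | h1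
      · exact Or.inl (hDR h1)
      · exact Or.inr h1
    · exact ⟨i₀, fun k => Or.inl fun i hi => h ⟨i, k, hi⟩⟩
  · rintro i _ ⟨r, rfl⟩ ⟨e, he⟩
    cases he
  · rintro i j _ ⟨e, rfl⟩ ⟨e', he'⟩
    cases he'
    rfl
  · rintro (r | ⟨i, e⟩)
    · exact Or.inl ⟨r, rfl⟩
    · exact Or.inr ⟨i, e, rfl⟩
  · intro n P v hv
    rw [Am.relMap_iff] at hv
    by_cases h : ∃ i k, v k ∈ C' i
    · obtain ⟨i, k, e, hk⟩ := h
      refine ⟨i, fun j => ?_⟩
      have h1 := hv.2 k j
      rw [hk] at h1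
      rcases hvj : v j with r | ⟨i', e'⟩
      · exact Or.inl ⟨r, rfl⟩
      · rw [hvj] at h1
        rw [Am.ok_inr] at h1
        subst h1
        exact Or.inr ⟨e', rfl⟩
    · refine ⟨i₀, fun k => ?_⟩
      rcases hvk : v k with r | ⟨i', e'⟩
      · exact Or.inl ⟨r, rfl⟩
      · exact absurd ⟨i', k, e', hvk⟩ h
  · intro i j x hx
    rw [hfR i x hx, hfR j x hx]
  · intro i
    have hfD : ∀ x ∈ D, ∃ h, f i x = Sum.inl ⟨x, h⟩ := fun x hx => ⟨hDR hx, hfR i x (hDR hx)⟩
    have hproj : ∀ x ∈ D ∪ C i,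
        Sum.elim (fun x : R => x.1) (fun y : E => y.1) (Am.proj (f i x)) = g i x := by
      rintro x (hx | hx)
      · rw [hfR i x (hDR hx), hg1 i x hx]
        rfl
      · rw [hfC i x hx]
        rfl
    have hinjf : InjOn (f i) (R ∪ C i) := by
      rintro x (hx | hx) y (hy | hy) hxy
      · rw [hfR i x hx, hfR i y hy] at hxy
        have := Sum.inl_injective hxy
        exact congrArg Subtype.val this
      · rw [hfR i x hx, hfC i y hy] at hxy
        cases hxy
      · rw [hfC i x hx, hfR i y hy] at hxy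
        cases hxy
      · rw [hfC i x hx, hfC i y hy] at hxy
        have h1 := congrArg Prod.snd (Sum.inr_injective hxy)
        have h2 : g i x = g i y := congrArg Subtype.val h1
        exact (hg3 i).inj (Or.inr hx) (Or.inr hy) h2
    have hun : R ∪ C i = R ∪ (D ∪ C i) := by
      rw [← union_assoc, union_eq_self_of_subset_right hDR]
    rw [hun] at hinjf ⊢
    refine isoOn_union ?_ ?_ hinjf ?_ ?_
    · refine ⟨hinjf.mono subset_union_left, fun n P v hv => ?_⟩
      rw [Am.relMap_iff]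
      have h1 : ∀ k, (f i ∘ v) k = Sum.inl ⟨v k, hv k⟩ := fun k => hfR i _ (hv k)
      constructor
      · intro h
        have h2 := h.1
        change RelMap P (fun k => Sum.elim (fun x : R => x.1) (fun y : E => y.1)
          (Am.proj ((f i ∘ v) k))) at h2
        simp only [h1] at h2
        exact h2
      · intro h
        constructor
        · change RelMap P (fun k => Sum.elim (fun x : R => x.1) (fun y : E => y.1)
            (Am.proj ((f i ∘ v) k)))
          simp only [h1]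
          exact h
        · intro k m
          rw [h1]
          exact Am.ok_inl_left _ _
    · refine ⟨hinjf.mono subset_union_right, fun n P v hv => ?_⟩
      rw [Am.relMap_iff]
      have h1 : (fun k => Sum.elim (fun x : R => x.1) (fun y : E => y.1)
          (Am.proj ((f i ∘ v) k))) = g i ∘ v := funext fun k => hproj _ (hv k)
      have h2 : RelMap P (fun k => Am.proj ((f i ∘ v) k)) ↔ RelMap P (g i ∘ v) := by
        change RelMap P (fun k => Sum.elim (fun x : R => x.1) (fun y : E => y.1)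
          (Am.proj ((f i ∘ v) k))) ↔ _
        rw [h1]
      rw [h2, (hg3 i).rel n P v hv]
      refine ⟨fun h => h.1, fun h => ⟨h, fun k m => ?_⟩⟩
      rcases hv k with hk | hk
      · obtain ⟨h3, h4⟩ := hfD _ hk
        simp only [Function.comp_apply, h4]
        exact Am.ok_inl_left _ _
      · rcases hv m with hm | hm
        · obtain ⟨h3, h4⟩ := hfD _ hm
          simp only [Function.comp_apply, h4]
          exact Am.ok_inl_right _ _
        · simp only [Function.comp_apply, hfC i _ hk, hfC i _ hm]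
          exact Am.ok_inr.2 rfl
    · intro n P v hv hv2
      by_cases h : ∃ k, v k ∈ C i
      · exact Or.inr (hrel i n P v hv h)
      · left
        intro k
        rcases hv2 k with h1 | h1 | h1
        · exact h1
        · exact hDR h1
        · exact absurd ⟨k, h1⟩ h
    · intro n P v hv hv2
      choose w hw1 hw2 using hv2
      by_cases h : ∃ k, w k ∈ C i
      · right
        obtain ⟨k, hk⟩ := h
        rw [Am.relMap_iff] at hv
        have h5 := hrel i₀ n P _ hv.1 ⟨k, ?_⟩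
        · intro m
          refine ⟨w m, ?_, hw2 m⟩
          by_cases hm : w m ∈ C i
          · exact Or.inr hm
          · have hmR : w m ∈ R := by
              rcases hw1 m with h1 | h1 | h1
              · exact h1
              · exact hDR h1
              · exact absurd h1 hm
            have h6 : Sum.elim (fun x : R => x.1) (fun y : E => y.1) (Am.proj (v m)) ∈ D ∪ C i₀ :=
              h5 m
            rw [← hw2 m, hfR i _ hmR] at h6
            rcases h6 with h7 | h7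
            · exact Or.inl h7
            · exact absurd h7 (hmR i₀)
        · change Sum.elim (fun x : R => x.1) (fun y : E => y.1) (Am.proj (v k)) ∈ C i₀
          rw [← hw2 k, hfC i _ hk]
          exact hgE i _ hk
      · left
        intro k
        refine ⟨w k, ?_, hw2 k⟩
        rcases hw1 k with h1 | h1 | h1
        · exact h1
        · exact hDR h1
        · exact absurd ⟨k, h1⟩ h
  · intro i
    ext x
    constructor
    · rintro ⟨y, hy, rfl⟩
      exact ⟨⟨y, hy⟩, (hfR i y hy).symm⟩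
    · rintro ⟨r, rfl⟩
      exact ⟨r.1, r.2, hfR i _ r.2⟩
  · intro i
    ext x
    constructor
    · rintro ⟨y, hy, rfl⟩
      exact ⟨_, hfC i y hy⟩
    · rintro ⟨⟨e, he⟩, rfl⟩
      have he' : e ∈ g i '' C i := by rw [hg2]; exact he
      obtain ⟨y, hy, rfl⟩ := he'
      exact ⟨y, hy, hfC i y hy⟩

end recognize

end Vale.Agent.P307.Gr
end
end

section

section

universe u

namespace Vale.Agent.P307.Gr

open FirstOrder Language Cardinal Structure Set

variable {L L₁ : Language.{u, u}}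

/-- Order automorphisms act on Ehrenfeucht-Mostowski models. -/
theorem exists_aut {M N : Type u} [L₁.Structure M] [L₁.Structure N] {a : ∀ n : ℕ, Fin n → M}
    {I : Type u} [LinearOrder I] {c : I → N} (hc : IsEM L₁ a c)
    (htop : Substructure.closure L₁ (range c) = ⊤) (σ : I ≃o I) :
    ∃ f : N ≃[L₁] N, ∀ t : L₁.Term I, f (t.realize c) = t.realize (fun i => c (σ i)) := by
  have hat : AtEq L₁ c (fun i => c (σ i)) :=
    IsEM.pattern hc hc (fun i => i) (fun i => σ i) (fun p q => by simp)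
  have hterm : ∀ x : N, ∃ t : L₁.Term I, t.realize c = x := fun x => by
    rw [← mem_closure_range, htop]
    trivial
  have hterm' : ∀ x : N, ∃ t : L₁.Term I, t.realize (fun i => c (σ i)) = x := fun x => by
    obtain ⟨t, ht⟩ := hterm x
    refine ⟨t.relabel σ.symm, ?_⟩
    rw [Term.realize_relabel, ← ht]
    congr 1
    funext i
    simp
  obtain ⟨f, hf⟩ := hat.isPI.exists_equiv
    (fun x => by
      obtain ⟨t, ht⟩ := hterm x
      exact ⟨t.realize (fun i => c (σ i)), t, by rw [← ht]⟩)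
    (fun x => by
      obtain ⟨t, ht⟩ := hterm' x
      exact ⟨t.realize c, t, by rw [← ht]⟩)
  refine ⟨f, fun t => ?_⟩
  obtain ⟨s, hs⟩ := hf (t.realize c)
  have h1 : s.realize c = t.realize c := (Prod.ext_iff.1 hs).1
  have h2 : s.realize (fun i => c (σ i)) = f (t.realize c) := (Prod.ext_iff.1 hs).2
  rw [← h2]
  exact (hat.1 s t).1 h1

theorem conn_map {M N : Type u} [L.Structure M] [L.Structure N] (f : M ↪[L] N) {Y : Set N}
    {x y : M} (h : conn L (f ⁻¹' Y) x y) : conn L Y (f x) (f y) := by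
  induction h with
  | refl => exact Relation.ReflTransGen.refl
  | tail _ hbc ih => exact Relation.ReflTransGen.tail ih ⟨hbc.1, hbc.2.1, hbc.2.2.map f⟩

theorem Insep.map {M N : Type u} [L.Structure M] [L.Structure N] (f : M ↪[L] N)
    {l : Cardinal.{u}} {Z : Set M} (h : Insep L l Z) : Insep L l (f '' Z) := by
  rintro _ ⟨x, hx, rfl⟩ _ ⟨y, hy, rfl⟩ hxy Y hY hxY hyY
  apply conn_map
  refine h x hx y hy (fun h' => hxy (congrArg f h')) _ ?_ hxY hyY
  exact (mk_preimage_of_injective f Y f.injective).trans hY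

theorem card_le_of_insep {M N : Type u} [L.Structure M] [L.Structure N] (f : M ↪[L] N)
    {l : Cardinal.{u}} (hN : ∀ Z : Set N, Insep L l Z → #Z ≤ l) (Z : Set M)
    (hZ : Insep L l Z) : #Z ≤ l := by
  rw [← mk_image_eq (s := Z) f.injective]
  exact hN _ (hZ.map f)

/-- Ehrenfeucht-Mostowski models embed into larger ones of prescribed size. -/
theorem exists_emb_card {M N : Type u} [L₁.Structure M] [L₁.Structure N] {X : Type u}
    [LinearOrder X] {l κ : Cardinal.{u}} (hl : ℵ₀ ≤ l) (hκ : Order.succ l ≤ κ)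
    (hL₁ : L₁.card ≤ l) {x : X → M} (hx : Function.Injective x) {a : ∀ n : ℕ, Fin n → X}
    (ha : ∀ n, StrictMono (a n)) (hta : IsTemplate L₁ (fun n k => x (a n k))) [Nonempty M]
    {G : Type u} [LinearOrder G] (hG : #G ≤ κ) {c : G → N}
    (hc : IsEM L₁ (fun n k => x (a n k)) c) (htop : Substructure.closure L₁ (range c) = ⊤) :
    ∃ (P : Type u) (_ : L₁.Structure P), #P = κ ∧
      (∀ A : Finset P, Nonempty (Substructure.closure L₁ (A : Set P) ↪[L₁] M)) ∧
      Nonempty (N ↪[L₁] P) := by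
  have hsl : ℵ₀ ≤ Order.succ l := hl.trans (Order.le_succ l)
  have hκ0 : ℵ₀ ≤ κ := hsl.trans hκ
  let I : Type u := G ⊕ₗ κ.ord.ToType
  have hI : #I = κ := by
    have h1 : #I = #(G ⊕ κ.ord.ToType) := rfl
    rw [h1, mk_sum, lift_id, lift_id, mk_toType, card_ord]
    exact add_eq_right hκ0 hG
  obtain ⟨P, strP, e, he, htopP⟩ := exists_isEM hta I
  have hinj : Function.Injective e := by
    have h1 : ∀ w w' : I, w < w' → e w ≠ e w' := by
      intro w w' hw h
      have hm : StrictMono (![w, w'] : Fin 2 → I) := by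
        rw [Fin.strictMono_iff_lt_succ]
        intro i
        have : i = 0 := Subsingleton.elim _ _
        subst this
        exact hw
      have hat : AtEq L₁ (fun k => e ((![w, w'] : Fin 2 → I) k)) (fun k => x (a 2 k)) :=
        he 2 _ hm
      have h2 := (hat.1 (Term.var 0) (Term.var 1)).1 h
      exact absurd (hx h2) ((ha 2) (by decide : (0 : Fin 2) < 1)).ne
    intro w w' h
    rcases lt_trichotomy w w' with hw | hw | hw
    · exact absurd h (h1 w w' hw)
    · exact hw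
    · exact absurd h.symm (h1 w' w hw)
  have hPκ : #P = κ := by
    apply le_antisymm
    · have h1 : ∀ x : P, ∃ t : L₁.Term I, t.realize e = x := fun x => by
        rw [← mem_closure_range, htopP]
        trivial
      choose t ht using h1
      have h2 : #P ≤ #(L₁.Term I) := mk_le_of_injective (f := t) fun x y hxy => by
        rw [← ht x, ← ht y, hxy]
      exact h2.trans (mk_term_le hκ0 (hL₁.trans ((Order.le_succ l).trans hκ)) I hI.le)
    · rw [← hI]
      exact mk_le_of_injective hinj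
  refine ⟨P, strP, hPκ, isEM_local he htopP, ?_⟩
  have hat : AtEq L₁ c (fun g => e (Sum.inlₗ g)) :=
    IsEM.pattern hc he (fun g => g) (fun g => Sum.inlₗ g) (fun p q => by
      rw [Sum.Lex.inl_le_inl_iff])
  obtain ⟨E, -⟩ := exists_closure_equiv hat
  have f₁ : N ↪[L₁] (⊤ : L₁.Substructure N) := Substructure.topEquiv.symm.toEmbedding
  have f₂ : (⊤ : L₁.Substructure N) ↪[L₁] Substructure.closure L₁ (range c) :=
    Substructure.inclusion (by rw [htop])
  exact ⟨((Substructure.subtype _).comp E.toEmbedding).comp (f₂.comp f₁)⟩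

/-- The existence of a model which is an amalgam of copies of a small connected piece. -/
theorem exists_amalgam [L.IsRelational] {K : AEC L} {l κ : Cardinal.{u}} (hK : K.IsLS l)
    (hκ : Order.succ l ≤ κ)
    (hins : ∀ (P : Type u) [L.Structure P], K.mem P → #P = κ → ∀ Z : Set P, Insep L l Z → #Z ≤ l)
    (M : Type u) [L.Structure M] (hM : K.mem M) (hMcard : hanf (2 ^ l) ≤ #M)
    (hMinf : ℵ₀ ≤ #M) :
    ∃ (R E : Type u) (_ : L.Structure (R ⊕ E)), Nonempty E ∧ #R ≤ Order.succ l ∧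
      #E ≤ Order.succ l ∧ Am.Econn L R E ∧ #(Am.att L R E) ≤ l ∧
      ∀ V : Type u, l < #V → K.mem (Am R E V) := by
  classical
  have hl := hK.1
  have hsl : ℵ₀ ≤ Order.succ l := hl.trans (Order.le_succ l)
  have hMne : Nonempty M := by
    rw [← mk_ne_zero_iff]
    exact (aleph0_pos.trans_le hMinf).ne'
  obtain ⟨fn, hfn⟩ := exists_skolem hK hM (fun _ => ∅) (fun _ => by simp) (mk_out l).symm.le
  let Λ : Type u := l.out
  let L₁ : Language.{u, u} := L.sum (LX Λ PEmpty.{u + 1})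
  let φ : L →ᴸ L₁ := LHom.sumInl
  let strX : (LX Λ PEmpty.{u + 1}).Structure M := lxStr fn (fun _ h _ => h.elim)
  have hL₁ : L₁.card ≤ l := card_LX_le hl hK.2.1 (mk_out l).le (by simp)
  have hcl1 : Cl1 K φ M := by
    intro S
    obtain ⟨S', h1, h2⟩ := (hfn S fun n ξ v hv =>
      S.fun_mem (Sum.inr ξ : L₁.Functions n) v hv).1
    have h3 : φ.substructureReduct S = S' := SetLike.coe_injective h2.symm
    rw [h3]
    exact h1
  let X : Type u := (#M).ord.ToType
  have hX : #X = #M := by simp [X]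
  obtain ⟨x⟩ : Nonempty (X ≃ M) := Cardinal.eq.1 hX
  obtain ⟨a, ha1, ha2⟩ := exists_template (L := L₁) hl hL₁ x (by rw [hX]; exact hMcard)
  have hta : IsTemplate L₁ (fun n k => x (a n k)) := fun k n g hg => ha2 k n g hg
  obtain ⟨G, ordG, o, σ, hG, hσ1, hσ2, hσ3⟩ := exists_order hl
  obtain ⟨N, strN, c, hc, htop⟩ := exists_isEM hta G
  let strN' : L.Structure N := φ.reduct N
  have hloc := isEM_local hc htop
  have hNK : K.mem N ∧ Cl1 K φ N := hcl1.transfer fun A => by
    obtain ⟨ρ⟩ := hloc A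
    exact ⟨ρ, ρ.injective⟩
  -- `c` is injective
  have hpair : ∀ w w' : G, w < w' → StrictMono (![w, w'] : Fin 2 → G) := by
    intro w w' hw
    rw [Fin.strictMono_iff_lt_succ]
    intro i
    have : i = 0 := Subsingleton.elim _ _
    subst this
    exact hw
  have ha01 : a 2 0 ≠ a 2 1 := ((ha1 2) (by decide : (0 : Fin 2) < 1)).ne
  have hinsN : ∀ Z : Set N, Insep L l Z → #Z ≤ l := by
    obtain ⟨P, strP, hPκ, hPloc, ⟨j⟩⟩ := exists_emb_card hl hκ hL₁ x.injective ha1 hta
      (hG.trans hκ) hc htop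
    let strP' : L.Structure P := φ.reduct P
    have hPK : K.mem P ∧ Cl1 K φ P := hcl1.transfer fun A => by
      obtain ⟨ρ⟩ := hPloc A
      exact ⟨ρ, ρ.injective⟩
    exact card_le_of_insep (embReduct φ j) (hins P hPK.1 hPκ)
  have hcinj : Function.Injective c := by
    have h1 : ∀ w w' : G, w < w' → c w ≠ c w' := by
      intro w w' hw h
      have hat : AtEq L₁ (fun k => c ((![w, w'] : Fin 2 → G) k)) (fun k => x (a 2 k)) :=
        hc 2 _ (hpair w w' hw)
      have h2 := hat.1 (Term.var 0) (Term.var 1)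
      exact ha01 (x.injective (h2.1 h))
    intro w w' h
    rcases lt_trichotomy w w' with hw | hw | hw
    · exact absurd h (h1 w w' hw)
    · exact hw
    · exact absurd h.symm (h1 w' w hw)
  have hterm : ∀ y : N, ∃ t : L₁.Term G, t.realize c = y := fun y => by
    rw [← mem_closure_range, htop]
    trivial
  have hNcard : #N ≤ Order.succ l := by
    choose t ht using hterm
    have h2 : #N ≤ #(L₁.Term G) := mk_le_of_injective (f := t) fun x y hxy => by
      rw [← ht x, ← ht y, hxy]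
    exact h2.trans (mk_term_le hsl (hL₁.trans (Order.le_succ l)) G hG)
  -- automorphisms
  choose f₁ hf₁ using fun α => exists_aut hc htop (σ α)
  let f : SuccTy l → N ≃[L] N := fun α => equivReduct φ (f₁ α)
  have hff : ∀ α y, f α y = f₁ α y := fun α y => rfl
  have hf : ∀ α (t : L₁.Term G), f α (t.realize c) = t.realize (fun i => c (σ α i)) :=
    fun α t => hf₁ α t
  have hfc : ∀ α g, f α (c g) = c (σ α g) := fun α g => hf α (Term.var g)
  -- the submodels omitting one index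
  let Mg : G → L₁.Substructure N := fun g => Substructure.closure L₁ (c '' {h | h ≠ g})
  have hMg : ∀ α, ∀ y ∈ Mg (σ α o), ∃ z ∈ Mg o, f α z = y := by
    intro α y hy
    have h1 : Mg (σ α o) ≤ (Mg o).map (f₁ α).toHom := by
      change Substructure.closure L₁ (c '' {h | h ≠ σ α o}) ≤ _
      rw [Substructure.closure_le]
      rintro _ ⟨h, hh, rfl⟩
      refine ⟨c ((σ α).symm h), Substructure.subset_closure ⟨_, ?_, rfl⟩, ?_⟩
      · intro h2
        apply hh
        rw [← h2, OrderIso.apply_symm_apply]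
      · have h3 := hfc α ((σ α).symm h)
        rw [OrderIso.apply_symm_apply] at h3
        exact h3
    obtain ⟨z, hz, hzy⟩ := h1 hy
    exact ⟨z, hz, hzy⟩
  -- large indices
  have hub : ∀ s : Set (SuccTy l), #s ≤ l → ∃ α, ∀ β ∈ s, β < α := fun s hs =>
    exists_gt_of_small hl s hs
  have hub2 : ∀ α β : SuccTy l, ∃ γ, α ≤ γ ∧ β ≤ γ := fun α β => ⟨max α β, le_max_left _ _,
    le_max_right _ _⟩
  have hfinub : ∀ (n : ℕ) (b : Fin n → SuccTy l), ∃ γ, ∀ i, b i ≤ γ := by
    intro n b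
    obtain ⟨γ, hγ⟩ := hub (range b) (by
      have := (finite_range b).to_subtype
      exact (Cardinal.lt_aleph0_of_finite _).le.trans hl)
    exact ⟨γ, fun i => (hγ _ ⟨i, rfl⟩).le⟩
  -- elements of `M_o` are eventually fixed
  have hfix : ∀ y ∈ Mg o, ∃ α₀, ∀ α, α₀ ≤ α → f α y = y := by
    have h1 : ∀ t : L₁.Term {g : G // g ≠ o}, ∃ α₀, ∀ α, α₀ ≤ α →
        t.realize (fun g => c (σ α g.1)) = t.realize (fun g => c g.1) := by
      intro t
      induction t with
      | var g =>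
        obtain ⟨α₀, h⟩ := hσ1 g.1 g.2
        refine ⟨α₀, fun α hα => ?_⟩
        simp only [Term.realize_var]
        rw [h α hα]
      | func F ts ih =>
        choose b hb using ih
        obtain ⟨γ, hγ⟩ := hfinub _ b
        refine ⟨γ, fun α hα => ?_⟩
        simp only [Term.realize_func]
        congr 1
        funext i
        exact hb i α ((hγ i).trans hα)
    intro y hy
    have hy' : y ∈ Substructure.closure L₁ (range fun g : {g : G // g ≠ o} => c g.1) := by
      have : (range fun g : {g : G // g ≠ o} => c g.1) = c '' {h | h ≠ o} := by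
        ext z
        constructor
        · rintro ⟨g, rfl⟩
          exact ⟨g.1, g.2, rfl⟩
        · rintro ⟨g, hg, rfl⟩
          exact ⟨⟨g, hg⟩, rfl⟩
      rw [this]
      exact hy
    obtain ⟨t, rfl⟩ := mem_closure_range.1 hy'
    obtain ⟨α₀, hα₀⟩ := h1 t
    refine ⟨α₀, fun α hα => ?_⟩
    have h2 := hf α (t.relabel Subtype.val)
    rw [Term.realize_relabel, Term.realize_relabel] at h2
    exact h2.trans (hα₀ α hα)
  -- separation
  have hsep : ∀ y : N, ∃ α₀, ∀ α, α₀ ≤ α → ∀ β, α₀ ≤ β → α ≠ β → f α y ∈ Mg (σ β o) := by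
    have h1 : ∀ t : L₁.Term G, ∃ α₀, ∀ α, α₀ ≤ α → ∀ β, α₀ ≤ β → α ≠ β →
        t.realize (fun g => c (σ α g)) ∈ Mg (σ β o) := by
      intro t
      induction t with
      | var g =>
        by_cases hg : g = o
        · subst hg
          obtain ⟨α₀, -⟩ := hub ∅ (by simp)
          refine ⟨α₀, fun α _ β _ hαβ => ?_⟩
          exact Substructure.subset_closure ⟨_, fun h => hαβ (hσ3 _ _ h), rfl⟩
        · obtain ⟨α₀, h⟩ := hσ1 g hg
          refine ⟨α₀, fun α hα β hβ _ => ?_⟩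
          simp only [Term.realize_var]
          rw [h α hα]
          refine Substructure.subset_closure ⟨_, fun h2 => hg ?_, rfl⟩
          apply (σ β).injective
          rw [h β hβ, ← h2]
      | func F ts ih =>
        choose b hb using ih
        obtain ⟨γ, hγ⟩ := hfinub _ b
        refine ⟨γ, fun α hα β hβ hαβ => ?_⟩
        simp only [Term.realize_func]
        exact Substructure.fun_mem _ _ _ fun i =>
          hb i α ((hγ i).trans hα) β ((hγ i).trans hβ) hαβ
    intro y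
    obtain ⟨t, rfl⟩ := hterm y
    obtain ⟨α₀, hα₀⟩ := h1 t
    exact ⟨α₀, fun α hα β hβ hαβ => by rw [hf]; exact hα₀ α hα β hβ hαβ⟩
  let M₀ : Set N := (Mg o : Set N)
  have hcM₀ : c o ∉ M₀ := by
    intro h
    obtain ⟨α₀, hα₀⟩ := hfix _ h
    have h1 := hα₀ α₀ (le_refl _)
    rw [hfc] at h1
    exact hσ2 α₀ (hcinj h1)
  let C : Set N := comp L M₀ (c o)
  have hCM₀ : ∀ y ∈ C, y ∉ M₀ := fun y hy => comp_notMem hcM₀ hy
  let S : Set N := {y | y ∈ M₀ ∧ ∃ z ∈ C, gadj L y z}
  have hSM₀ : S ⊆ M₀ := fun y hy => hy.1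
  -- disjointness of the translates
  have hdisj : ∀ u v, u ∈ C → v ∈ C → ∃ α₀, ∀ α, α₀ ≤ α → ∀ β, α₀ ≤ β → α ≠ β →
      f α u ≠ f β v := by
    intro u v _ hv
    obtain ⟨α₀, hα₀⟩ := hsep u
    refine ⟨α₀, fun α hα β hβ hαβ h => ?_⟩
    have h1 := hα₀ α hα β hβ hαβ
    rw [h] at h1
    obtain ⟨z, hz, hzv⟩ := hMg β _ h1
    rw [(f β).injective hzv] at hz
    exact hCM₀ v hv hz
  have hSins : Insep L l S := by
    rintro y ⟨hyM, x₁, hx₁, hyx⟩ z ⟨hzM, x₂, hx₂, hzx⟩ _ Y hY hyY hzY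
    have hconn : conn L M₀ x₁ x₂ := conn.trans (conn.symm hx₁) hx₂
    obtain ⟨T, hT1, hT2, hT3, hT4, hT5⟩ := exists_finite_conn hconn
    have hTC : T ⊆ C := by
      intro w hw
      have := hT2 hw
      exact conn.trans hx₁ this
    -- a bound for `T`, `y`, `z`
    obtain ⟨αy, hαy⟩ := hfix y hyM
    obtain ⟨αz, hαz⟩ := hfix z hzM
    have hTb : ∃ α₁, ∀ u ∈ T, ∀ v ∈ T, ∀ α, α₁ ≤ α → ∀ β, α₁ ≤ β → α ≠ β → f α u ≠ f β v := by
      have h1 : ∀ p : T × T, ∃ α₁, ∀ α, α₁ ≤ α → ∀ β, α₁ ≤ β → α ≠ β → f α p.1.1 ≠ f β p.2.1 :=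
        fun p => hdisj _ _ (hTC p.1.2) (hTC p.2.2)
      choose b hb using h1
      obtain ⟨γ, hγ⟩ := hub (range b) (by
        have := hT1.to_subtype
        have := (finite_range b).to_subtype
        exact (Cardinal.lt_aleph0_of_finite _).le.trans hl)
      refine ⟨γ, fun u hu v hv α hα β hβ => ?_⟩
      have h2 := (hγ _ ⟨(⟨u, hu⟩, ⟨v, hv⟩), rfl⟩).le
      exact hb (⟨u, hu⟩, ⟨v, hv⟩) α (h2.trans hα) β (h2.trans hβ)
    obtain ⟨α₁, hα₁⟩ := hTb
    obtain ⟨α₂, hα₂, hα₂'⟩ := hub2 αy αz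
    obtain ⟨α₃, hα₃, hα₃'⟩ := hub2 α₁ α₂
    have hex : ∃ α, α₃ ≤ α ∧ ∀ u ∈ T, f α u ∉ Y := by
      by_contra hcon
      push Not at hcon
      have h1 : ∀ α : {α // α₃ ≤ α}, ∃ u ∈ T, f α.1 u ∈ Y := fun α => hcon α.1 α.2
      choose u hu huY using h1
      have h2 : ∀ α β, (⟨f α.1 (u α), huY α⟩ : Y) = ⟨f β.1 (u β), huY β⟩ → α = β := by
        intro α β h
        by_contra hne
        exact hα₁ (u α) (hu α) (u β) (hu β) α.1 (hα₃.trans α.2) β.1 (hα₃.trans β.2)
          (fun h' => hne (Subtype.ext h')) (Subtype.ext_iff.1 h)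
      have h3 : #{α // α₃ ≤ α} ≤ l := by
        refine le_trans ?_ hY
        exact mk_le_of_injective (f := fun α => (⟨f α.1 (u α), huY α⟩ : Y)) fun α β h => h2 α β h
      obtain ⟨γ, hγ⟩ := hub {α | α₃ ≤ α} h3
      obtain ⟨δ, hδ1, hδ2⟩ := hub2 γ α₃
      exact absurd (hγ δ hδ2) (not_lt.2 hδ1)
    obtain ⟨α, hα, hαY⟩ := hex
    have hyα : f α y = y := hαy α (hα₂.trans (hα₃'.trans hα))
    have hzα : f α z = z := hαz α (hα₂'.trans (hα₃'.trans hα))
    have h1 : gadj L y (f α x₁) := by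
      have := (gadj_equiv (f α)).2 hyx
      rwa [hyα] at this
    have h2 : gadj L z (f α x₂) := by
      have := (gadj_equiv (f α)).2 hzx
      rwa [hzα] at this
    have h3 : conn L (f α '' Tᶜ) (f α x₁) (f α x₂) := by
      have h4 : f α x₂ ∈ f α '' comp L Tᶜ x₁ := ⟨x₂, hT5 x₂ hT4, rfl⟩
      rw [← comp_image_equiv] at h4
      exact h4
    have h4 : Y ⊆ f α '' Tᶜ := by
      intro w hw
      refine ⟨(f α).symm w, ?_, (f α).apply_symm_apply w⟩
      intro hwT
      apply hαY _ hwT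
      rwa [(f α).apply_symm_apply]
    have h5 : conn L Y (f α x₁) (f α x₂) := h3.mono h4
    refine conn.trans (Relation.ReflTransGen.single ⟨hyY, hαY _ hT3, h1⟩)
      (h5.trans (Relation.ReflTransGen.single ⟨hαY _ hT4, hzY, h2.symm⟩))
  have hSl : #S ≤ l := hinsN S hSins
  -- `S` is eventually fixed
  have hSfix : ∃ α₁, ∀ α, α₁ ≤ α → ∀ y ∈ S, f α y = y := by
    choose b hb using fun y : S => hfix y.1 y.2.1
    obtain ⟨γ, hγ⟩ := hub (range b) (mk_range_le.trans hSl)
    exact ⟨γ, fun α hα y hy => hb ⟨y, hy⟩ α (((hγ _ ⟨⟨y, hy⟩, rfl⟩).le).trans hα)⟩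
  obtain ⟨α₁, hα₁⟩ := hSfix
  have hcS : c o ∉ S := fun h => hcM₀ h.1
  have hCS : comp L S (c o) = C := by
    apply Set.Subset.antisymm
    · apply comp_subset (mem_comp_self _ _)
      intro y hy _ z hz hyz
      by_cases hzM : z ∈ M₀
      · exact absurd ⟨hzM, y, hy, hyz.symm⟩ hz
      · exact mem_comp_of_gadj hcM₀ hy hyz hzM
    · intro y hy
      exact conn.mono hSM₀ hy
  have hfS : ∀ α, α₁ ≤ α → f α '' S = S := by
    intro α hα
    ext y
    constructor
    · rintro ⟨z, hz, rfl⟩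
      rwa [hα₁ α hα z hz]
    · intro hy
      exact ⟨y, hy, hα₁ α hα y hy⟩
  have hcomp : ∀ α, α₁ ≤ α → comp L S (c (σ α o)) = f α '' C := by
    intro α hα
    have h1 := comp_image_equiv (f α) S (c o)
    rw [hfS α hα, hfc, hCS] at h1
    exact h1
  have hnotS : ∀ α, α₁ ≤ α → c (σ α o) ∉ S := by
    intro α hα h
    have h1 : f α (c (σ α o)) = c (σ α o) := hα₁ α hα _ h
    have h2 : f α (c o) = c (σ α o) := hfc α o
    rw [← h2] at h1
    have h3 := (f α).injective h1
    rw [h2] at h3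
    exact hσ2 α (hcinj h3)
  have hTE : ∀ α, α₁ ≤ α → TE L S (comp L S (c (σ α o))) (comp L S (c o)) := by
    intro α hα
    have h1 : TI L (f α) S (comp L S (c o)) (f α '' comp L S (c o)) :=
      TI.of_isoOn (IsoOn.of_equiv _ _)
    rw [hCS, ← hcomp α hα, ← hCS] at h1
    exact TE.symm (h1.congr fun y hy => hα₁ α hα y hy)
  have hCinj : ∀ α, α₁ ≤ α → ∀ β, α₁ ≤ β →
      comp L S (c (σ α o)) = comp L S (c (σ β o)) → α = β := by
    intro α hα β hβ h
    by_contra hne
    have h1 : c (σ β o) ∈ comp L S (c (σ α o)) := by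
      rw [h]
      exact mem_comp_self _ _
    rw [hcomp α hα] at h1
    obtain ⟨u, hu, huβ⟩ := h1
    have h2 : c (σ β o) ∈ Mg (σ α o) :=
      Substructure.subset_closure ⟨_, fun h' => hne (hσ3 _ _ h').symm, rfl⟩
    obtain ⟨z, hz, hzβ⟩ := hMg α _ h2
    have h3 : u = z := (f α).injective (huβ.trans hzβ.symm)
    rw [← h3] at hz
    exact hCM₀ u hu hz
  let ι : Type u := {α : SuccTy l // α₁ ≤ α}
  have hι : l < #ι := by
    by_contra hcon
    rw [not_lt] at hcon
    obtain ⟨γ, hγ⟩ := hub {α | α₁ ≤ α} hcon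
    obtain ⟨δ, hδ1, hδ2⟩ := hub2 γ α₁
    exact absurd (hγ δ hδ2) (not_lt.2 hδ1)
  have hgood : ∀ i : ι, good L S (c (σ α₁ o)) (c (σ i.1 o)) := fun i =>
    ⟨hnotS i.1 i.2, (hTE i.1 i.2).trans (hTE α₁ (le_refl _)).symm⟩
  obtain ⟨R, E, str, ⟨e⟩, hEne, hR, hE, hEc⟩ := recognize (L := L) (D := S)
    (fun i : ι => comp L S (c (σ i.1 o))) ⟨α₁, le_refl _⟩ (hnotS α₁ (le_refl _)) rfl
    (fun i => ⟨_, hgood i, rfl⟩)
    (fun i j h => Subtype.ext (hCinj i.1 i.2 j.1 j.2 h))
  have hmem : K.mem (Am R E ι) := K.mem_iso e hNK.1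
  refine ⟨R, E, str, hEne, hR.trans hNcard, (hE.trans (mk_set_le _)).trans hNcard, hEc, ?_,
    fun V hV => Am.grow hK hmem hι hV⟩
  have h1 := card_le_of_insep e.symm.toEmbedding hinsN _ (Am.insep (V := ι) hEc hι)
  rwa [Am.mk_attV] at h1

end Vale.Agent.P307.Gr
end
end

section

section

universe u

namespace Vale.Agent.P307.Gr

open FirstOrder Language Cardinal Structure Set

variable {L : Language.{u, u}}

/-- Reflection upwards: if all models of size `κ` are nice then so are all larger ones. -/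
theorem nice_up {K : AEC L} {l κ : Cardinal.{u}} (hK : K.IsLS l) (hκ : Order.succ l < κ)
    (hnice : ∀ (P : Type u) [L.Structure P], K.mem P → #P = κ → ∃ D x₀, Nice L (M := P) l D x₀)
    (M : Type u) [L.Structure M] (hM : K.mem M) (hMκ : κ ≤ #M) :
    ∃ (D : Set M) (x₀ : M), Nice L l D x₀ ∧ ∃ (P : Type u) (_ : L.Structure P) (D' : Set P)
      (x₀' : P), K.mem P ∧ #P = κ ∧ Nice L l D' x₀' ∧ Core L D x₀ D' x₀' := by
  classical
  have hl := hK.1
  have hsl : ℵ₀ ≤ Order.succ l := hl.trans (Order.le_succ l)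
  have hκ0 : ℵ₀ ≤ κ := hsl.trans hκ.le
  have hKκ : K.IsLS κ := hK.mono ((Order.le_succ l).trans hκ.le)
  -- chosen neighbours
  have hB : ∀ x : M, ∃ B : Set M, B ⊆ {z | gadj L x z} ∧ #B ≤ κ ∧
      (#({z | gadj L x z} : Set M) ≤ Order.succ l → B = {z | gadj L x z}) ∧
      (Order.succ l < #({z | gadj L x z} : Set M) → Order.succ l < #B) := by
    intro x
    by_cases hx : #({z | gadj L x z} : Set M) ≤ Order.succ l
    · exact ⟨_, Subset.rfl, hx.trans hκ.le, fun _ => rfl, fun h => h⟩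
    · rw [not_le] at hx
      obtain ⟨B, hB1, hB2⟩ := Cardinal.le_mk_iff_exists_subset.1 (Order.succ_le_of_lt hx)
      refine ⟨B, hB1, ?_, fun h => absurd h (not_le.2 hx), fun _ => ?_⟩
      · rw [hB2]
        exact Order.succ_le_of_lt hκ
      · rw [hB2]
        exact Order.lt_succ _
  choose B hB1 hB2 hB3 hB4 using hB
  -- witnesses for adjacency
  have hW : ∀ x y : M, ∃ W : Set M, W.Finite ∧ (gadj L x y → ∀ S : L.Substructure M,
      ∀ hx : x ∈ S, ∀ hy : y ∈ S, W ⊆ S → gadj L (⟨x, hx⟩ : S) ⟨y, hy⟩) := by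
    intro x y
    by_cases h : gadj L x y
    · obtain ⟨n, R, v, hv, ⟨i, hi⟩, ⟨j, hj⟩⟩ := h
      refine ⟨range v, finite_range v, fun _ S hx hy hS => ?_⟩
      refine ⟨n, R, fun k => ⟨v k, hS ⟨k, rfl⟩⟩, hv, ⟨i, Subtype.ext hi⟩, ⟨j, Subtype.ext hj⟩⟩
    · exact ⟨∅, finite_empty, fun h' => absurd h' h⟩
  choose W hW1 hW2 using hW
  let c : Finset M → Set M := fun F => ⋃ x : F, (B x.1 ∪ ⋃ y : F, W x.1 y.1)
  have hc : ∀ F, #(c F) ≤ κ := by
    intro F
    have hF : #F ≤ κ := (Cardinal.lt_aleph0_of_finite _).le.trans hκ0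
    refine (mk_iUnion_le _).trans ((mul_le_mul' hF (ciSup_le' (a := κ) fun x => ?_)).trans
      (mul_eq_self hκ0).le)
    refine (mk_union_le _ _).trans (add_le_of_le hκ0 (hB2 _) ?_)
    refine (mk_iUnion_le _).trans ((mul_le_mul' hF (ciSup_le' (a := κ) fun y => ?_)).trans
      (mul_eq_self hκ0).le)
    have := (hW1 x.1 y.1).to_subtype
    exact (Cardinal.lt_aleph0_of_finite _).le.trans hκ0
  -- the closed substructures
  let Cl : L.Substructure M → Prop := fun S => K.le S ∧ #S = κ ∧ (∀ x ∈ S, B x ⊆ S) ∧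
    ∀ x y : S, gadj L (x : M) y → gadj L x y
  have hcl : ∀ A : Set M, #A ≤ κ → ∃ S : L.Substructure M, A ⊆ S ∧ Cl S := by
    intro A hA
    obtain ⟨A', -, hA'⟩ := Cardinal.le_mk_iff_exists_subset.1
      (show κ ≤ #(univ : Set M) by rwa [mk_univ])
    obtain ⟨S, h1, h2, h3, h4⟩ := AEC.exists_closed_le hKκ hM c hc (A ∪ A')
      ((mk_union_le _ _).trans (add_le_of_le hκ0 hA hA'.le))
    refine ⟨S, subset_union_left.trans h2, h1, ?_, ?_, ?_⟩
    · apply le_antisymm h3
      rw [← hA']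
      exact mk_le_mk_of_subset (subset_union_right.trans h2)
    · intro x hx
      have h5 := h4 {x} (by simpa using hx)
      refine Subset.trans ?_ h5
      intro y hy
      exact mem_iUnion.2 ⟨⟨x, Finset.mem_singleton_self x⟩, Or.inl hy⟩
    · intro x y hxy
      have h5 := h4 {x.1, y.1} (by
        intro z hz
        simp only [Finset.coe_insert, Finset.coe_singleton, mem_insert_iff,
          mem_singleton_iff] at hz
        rcases hz with rfl | rfl
        · exact x.2
        · exact y.2)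
      refine hW2 x.1 y.1 hxy S x.2 y.2 (Subset.trans ?_ h5)
      intro z hz
      refine mem_iUnion.2 ⟨⟨x.1, by simp⟩, Or.inr (mem_iUnion.2 ⟨⟨y.1, by simp⟩, hz⟩)⟩
  let D : Set M := {x | Order.succ l < #({z | gadj L x z} : Set M)}
  let DS : ∀ S : L.Substructure M, Set S := fun S => {x | x.1 ∈ D}
  have hfc : ∀ S, Cl S → FC L S.subtype (DS S) := by
    rintro S ⟨-, -, h3, h4⟩
    refine ⟨fun x y h => h4 x y h, fun x hx z hz => ?_⟩
    have h5 : B x.1 = {z | gadj L x.1 z} := hB3 _ (not_lt.1 hx)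
    have h6 : z ∈ B x.1 := by rw [h5]; exact hz
    exact ⟨⟨z, h3 _ x.2 h6⟩, rfl⟩
  have hkey : ∀ S, Cl S → ∃ x₀ : S, Nice L l (DS S) x₀ := by
    intro S hS
    obtain ⟨h1, h2, h3, h4⟩ := hS
    obtain ⟨D', x₀, hD'⟩ := hnice S (K.mem_of_le _ h1).1 h2
    have hDD : D' = DS S := by
      ext x
      rw [hD'.mem_iff hl (by rw [h2]; exact hκ)]
      change _ ↔ Order.succ l < #({z | gadj L x.1 z} : Set M)
      constructor
      · intro h
        refine h.trans_le ?_
        rw [← mk_image_eq (s := {z : S | gadj L x z}) Subtype.val_injective]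
        refine mk_le_mk_of_subset ?_
        rintro _ ⟨z, hz, rfl⟩
        exact gadj.map S.subtype hz
      · intro h
        refine (hB4 _ h).trans_le ?_
        rw [← mk_image_eq (s := {z : S | gadj L x z}) Subtype.val_injective]
        refine mk_le_mk_of_subset ?_
        intro z hz
        exact ⟨⟨z, h3 _ x.2 hz⟩, h4 _ _ (hB1 _ hz), rfl⟩
    rw [← hDD]
    exact ⟨x₀, hD'⟩
  have hDl : #D ≤ l := by
    by_contra hcon
    rw [not_le] at hcon
    obtain ⟨A, hA1, hA2⟩ := Cardinal.le_mk_iff_exists_subset.1 (Order.succ_le_of_lt hcon)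
    obtain ⟨S, hS1, hS2⟩ := hcl A (hA2.le.trans hκ.le)
    obtain ⟨x₀, hx₀⟩ := hkey S hS2
    have h1 : A ⊆ Subtype.val '' (DS S) := fun x hx => ⟨⟨x, hS1 hx⟩, hA1 hx, rfl⟩
    have h2 := (mk_le_mk_of_subset h1).trans mk_image_le
    rw [hA2] at h2
    exact absurd (h2.trans hx₀.card_D) (not_le.2 (Order.lt_succ l))
  have himg : ∀ S : L.Substructure M, D ⊆ S → S.subtype '' (DS S) = D := by
    intro S hS
    ext x
    constructor
    · rintro ⟨y, hy, rfl⟩
      exact hy
    · intro hx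
      exact ⟨⟨x, hS hx⟩, hx, rfl⟩
  obtain ⟨S₀, hDS₀, hS₀⟩ := hcl D (hDl.trans ((Order.le_succ l).trans hκ.le))
  obtain ⟨x₁, hx₁⟩ := hkey S₀ hS₀
  have hx₁D : x₁.1 ∉ D := hx₁.notMem
  have hdeg : ∀ y ∉ D, #({z | gadj L y z} : Set M) ≤ Order.succ l := fun y hy => not_lt.1 hy
  have hrp : #(rp L D x₁.1) ≤ Order.succ l := by
    by_contra hcon
    rw [not_le] at hcon
    obtain ⟨A, hA1, hA2⟩ := Cardinal.le_mk_iff_exists_subset.1 (Order.succ_le_of_lt hcon)
    have hS₀κ : #(S₀ : Set M) = κ := hS₀.2.1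
    obtain ⟨S, hS1, hS2⟩ := hcl ((S₀ : Set M) ∪ A) ((mk_union_le _ _).trans
      (add_le_of_le hκ0 hS₀κ.le (hA2.le.trans (Order.succ_le_of_lt hκ))))
    obtain ⟨y₁, hy₁⟩ := hkey S hS2
    have hDS : D ⊆ S := hDS₀.trans (subset_union_left.trans hS1)
    have hfc0 := hfc S₀ hS₀
    have hfc1 := hfc S hS2
    have hi0 := himg S₀ hDS₀
    have hi1 := himg S hDS
    -- a point good for both
    have hex : ∃ z : M, good L D x₁.1 z ∧ good L D y₁.1 z := by
      by_contra hno
      push Not at hno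
      have h1 : (S₀ : Set M) ⊆ S₀.subtype '' (rp L (DS S₀) x₁) ∪ S.subtype '' (rp L (DS S) y₁) := by
        intro z hz
        by_cases hg : good L (DS S₀) x₁ ⟨z, hz⟩
        · right
          have h2 := (hfc0.good_iff hx₁.notMem).2 hg
          rw [hi0] at h2
          refine ⟨⟨z, hS1 (Or.inl hz)⟩, ?_, rfl⟩
          intro hg2
          have h3 := (hfc1.good_iff hy₁.notMem).2 hg2
          rw [hi1] at h3
          exact hno z h2 h3
        · left
          exact ⟨⟨z, hz⟩, hg, rfl⟩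
      have h2 : κ ≤ Order.succ l := by
        rw [← hS₀κ]
        refine (mk_le_mk_of_subset h1).trans ((mk_union_le _ _).trans ?_)
        exact add_le_of_le hsl (mk_image_le.trans hx₁.rp_le) (mk_image_le.trans hy₁.rp_le)
      exact absurd h2 (not_le.2 hκ)
    obtain ⟨z, hz1, hz2⟩ := hex
    have hTE : TE L D (comp L D x₁.1) (comp L D y₁.1) := hz1.2.symm.trans hz2.2
    have h3 : A ⊆ S.subtype '' (rp L (DS S) y₁) := by
      intro x hx
      refine ⟨⟨x, hS1 (Or.inr hx)⟩, ?_, rfl⟩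
      intro hg
      have h4 := (hfc1.good_iff hy₁.notMem).2 hg
      rw [hi1] at h4
      exact hA1 hx ⟨h4.1, h4.2.trans hTE.symm⟩
    have h4 := (mk_le_mk_of_subset h3).trans mk_image_le
    rw [hA2] at h4
    exact absurd (h4.trans hy₁.rp_le) (not_le.2 (Order.lt_succ _))
  have hniceM : Nice L l D x₁.1 := by
    refine ⟨hDl, hx₁D, ?_, fun x _ => mk_comp_le hsl hdeg x, hrp⟩
    intro d hd
    obtain ⟨y, hy, hdy⟩ := hx₁.nbr ⟨d, hDS₀ hd⟩ hd
    have h1 := (hfc S₀ hS₀).comp_eq hx₁.notMem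
    rw [himg S₀ hDS₀] at h1
    refine ⟨y.1, ?_, gadj.map S₀.subtype hdy⟩
    have : y.1 ∈ S₀.subtype '' comp L (DS S₀) x₁ := ⟨y, hy, rfl⟩
    rwa [← h1] at this
  refine ⟨D, x₁.1, hniceM, ?_⟩
  obtain ⟨S, hS1, hS2⟩ := hcl (rp L D x₁.1 ∪ {x₁.1}) ((mk_union_le _ _).trans
    (add_le_of_le hκ0 (hrp.trans hκ.le) (by
      rw [mk_singleton]
      exact one_le_aleph0.trans hκ0)))
  have hDS : D ⊆ S := (subset_rp D x₁.1).trans (subset_union_left.trans hS1)
  have hxS : x₁.1 ∈ S := hS1 (Or.inr rfl)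
  have hi := himg S hDS
  have hfcS := hfc S hS2
  have hN : Nice L l (S.subtype '' (DS S)) (S.subtype ⟨x₁.1, hxS⟩) := by
    rw [hi]
    exact hniceM
  refine ⟨S, inferInstance, DS S, ⟨x₁.1, hxS⟩, (K.mem_of_le _ hS2.1).1, hS2.2.1,
    hfcS.nice_of hN, ?_⟩
  have hcore := hfcS.core (x₀ := ⟨x₁.1, hxS⟩) hx₁D (by
    rw [hi]
    intro y hy
    exact ⟨⟨y, hS1 (Or.inl hy)⟩, rfl⟩)
  rw [hi] at hcore
  exact hcore.symm

end Vale.Agent.P307.Gr
end
end

section

section

universe u

namespace Vale.Agent.P307.Gr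

open FirstOrder Language Cardinal Structure Set

variable {L : Language.{u, u}} {M : Type u} [L.Structure M]

/-- the components of `M ∖ Z` -/
def AC (L : Language.{u, u}) {M : Type u} [L.Structure M] (Z : Set M) : Type u :=
  {C : Set M // ∃ x, x ∉ Z ∧ C = comp L Z x}

theorem lt_card_AC {Z : Set M} {θ ρ : Cardinal.{u}} (hθ : ℵ₀ ≤ θ) (hθρ : θ ≤ ρ)
    (hZ : #Z ≤ θ) (hcomp : ∀ x ∉ Z, #(comp L Z x) ≤ θ) (hM : ρ < #M) : ρ < #(AC L Z) := by
  have hρ : ℵ₀ ≤ ρ := hθ.trans hθρ
  have h1 : (univ : Set M) ⊆ Z ∪ ⋃ C : AC L Z, C.1 := by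
    intro x _
    by_cases hx : x ∈ Z
    · exact Or.inl hx
    · exact Or.inr (mem_iUnion.2 ⟨⟨comp L Z x, x, hx, rfl⟩, mem_comp_self _ _⟩)
  have h2 : #M ≤ θ + #(AC L Z) * θ := by
    rw [← mk_univ]
    refine (mk_le_mk_of_subset h1).trans ((mk_union_le _ _).trans (add_le_add hZ ?_))
    refine (mk_iUnion_le _).trans (mul_le_mul' (_root_.le_refl _) (ciSup_le' fun C => ?_))
    obtain ⟨C, y, hy, rfl⟩ := C
    exact hcomp y hy
  by_contra hcon
  rw [not_lt] at hcon
  have h4 : θ + #(AC L Z) * θ ≤ ρ :=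
    add_le_of_le hρ hθρ ((mul_le_mul' hcon hθρ).trans (mul_eq_self hρ).le)
  exact absurd (h2.trans h4) (not_le.2 hM)

/-- codes of components -/
abbrev CCode (L : Language.{u, u}) (Z Q : Type u) : Type u :=
  Set (Q × Q) × Set (Σ n : ℕ, L.Relations n × (Fin n → Z ⊕ Q))

theorem mk_code_le {θ : Cardinal.{u}} (hθ : ℵ₀ ≤ θ) (hL : L.card ≤ θ) {Z Q : Type u}
    (hZ : #Z ≤ θ) (hQ : #Q ≤ θ) : #(CCode L Z Q) ≤ 2 ^ θ := by
  have h2θ : ℵ₀ ≤ (2 : Cardinal.{u}) ^ θ := hθ.trans (cantor θ).le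
  have hQQ : #(Q × Q) ≤ θ := by
    rw [mk_prod, lift_id]
    exact (mul_le_mul' hQ hQ).trans (mul_eq_self hθ).le
  have hZQ : #(Z ⊕ Q) ≤ θ := by
    rw [mk_sum, lift_id, lift_id]
    exact add_le_of_le hθ hZ hQ
  have hrel : #(Σ i, L.Relations i) ≤ θ :=
    (mk_le_of_injective (f := (Sum.inr : (Σ i, L.Relations i) → L.Symbols))
      Sum.inr_injective).trans hL
  have h1 : #(Σ n : ℕ, L.Relations n × (Fin n → Z ⊕ Q)) ≤ θ := by
    rw [mk_sigma]
    refine (sum_le_lift_mk_mul_iSup _).trans ?_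
    have h1 : ∀ m : ℕ, #(L.Relations m × (Fin m → Z ⊕ Q)) ≤ θ := by
      intro m
      rw [mk_prod, lift_id, lift_id]
      refine (mul_le_mul' ?_ ?_).trans (mul_eq_self hθ).le
      · exact (mk_le_of_injective (f := fun r : L.Relations m => (⟨m, r⟩ : Σ i, L.Relations i))
          (fun a b h => by simpa using h)).trans hrel
      · have h3 : #(Fin m → Z ⊕ Q) = #(Z ⊕ Q) ^ m := by simp
        rw [h3]
        refine le_trans ?_ (power_nat_le (n := m) hθ)
        exact_mod_cast power_le_power_right (c := (m : Cardinal.{u})) hZQ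
    refine (mul_le_mul' (b := θ) (d := θ) ?_ (ciSup_le' h1)).trans (mul_eq_self hθ).le
    simpa using hθ
  rw [mk_prod, lift_id, lift_id, mk_set, mk_set]
  exact (mul_le_mul' (power_le_power_left two_ne_zero hQQ)
    (power_le_power_left two_ne_zero h1)).trans (mul_eq_self h2θ).le

/-- the coding -/
def code (Z : Set M) {Q : Type u} (s : Q → M) : CCode L Z Q :=
  ({p | s p.1 = s p.2},
    {w | RelMap w.2.1 (fun k => Sum.elim (fun z : Z => z.1) s (w.2.2 k))})

theorem TE_of_code {Z : Set M} {Q : Type u} {s s' : Q → M} (hs : ∀ q, s q ∉ Z)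
    (hs' : ∀ q, s' q ∉ Z) (h : code (L := L) Z s = code Z s') :
    TE L Z (range s) (range s') := by
  classical
  have h1 : ∀ p q, s p = s q ↔ s' p = s' q := fun p q =>
    Set.ext_iff.1 (Prod.ext_iff.1 h).1 (p, q)
  have h2 : ∀ (n : ℕ) (P : L.Relations n) (w : Fin n → Z ⊕ Q),
      RelMap P (fun k => Sum.elim (fun z : Z => z.1) s (w k)) ↔
      RelMap P (fun k => Sum.elim (fun z : Z => z.1) s' (w k)) := fun n P w =>
    Set.ext_iff.1 (Prod.ext_iff.1 h).2 ⟨n, P, w⟩
  let g : M → M := fun x => if h : ∃ q, s q = x then s' h.choose else x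
  have hg1 : ∀ q, g (s q) = s' q := by
    intro q
    have h3 : ∃ q', s q' = s q := ⟨q, rfl⟩
    simp only [g, dif_pos h3]
    exact (h1 _ _).1 h3.choose_spec
  have hg2 : ∀ x ∈ Z, g x = x := by
    intro x hx
    have h3 : ¬ ∃ q, s q = x := by
      rintro ⟨q, rfl⟩
      exact hs q hx
    simp only [g, dif_neg h3]
  refine ⟨g, hg2, ?_, ?_, ?_⟩
  · ext x
    constructor
    · rintro ⟨_, ⟨q, rfl⟩, rfl⟩
      exact ⟨q, (hg1 q).symm⟩
    · rintro ⟨q, rfl⟩
      exact ⟨s q, ⟨q, rfl⟩, hg1 q⟩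
  · rintro x (hx | ⟨p, rfl⟩) y (hy | ⟨q, rfl⟩) hxy
    · rwa [hg2 x hx, hg2 y hy] at hxy
    · rw [hg2 x hx, hg1 q] at hxy
      exact absurd (hxy ▸ hx) (hs' q)
    · rw [hg1 p, hg2 y hy] at hxy
      exact absurd (hxy ▸ hy) (hs' p)
    · rw [hg1, hg1] at hxy
      exact (h1 p q).2 hxy
  · intro n P v hv
    have h3 : ∀ k, ∃ w : Z ⊕ Q, Sum.elim (fun z : Z => z.1) s w = v k ∧
        Sum.elim (fun z : Z => z.1) s' w = g (v k) := by
      intro k
      rcases hv k with hk | ⟨q, hq⟩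
      · exact ⟨Sum.inl ⟨v k, hk⟩, rfl, (hg2 _ hk).symm⟩
      · exact ⟨Sum.inr q, hq, by rw [← hq, hg1]; rfl⟩
    choose w hw1 hw2 using h3
    have h4 := h2 n P w
    simp only [hw1, hw2] at h4
    exact h4.symm

/-- Many components of the same type. -/
theorem exists_many_iso {θ : Cardinal.{u}} (hθ : ℵ₀ ≤ θ) (hL : L.card ≤ θ) {Z : Set M}
    (hZ : #Z ≤ θ) (hcomp : ∀ x ∉ Z, #(comp L Z x) ≤ θ) (hM : 2 ^ θ < #M) :
    ∃ x₀, x₀ ∉ Z ∧ (2 : Cardinal.{u}) ^ θ < #(GC L Z x₀) := by
  classical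
  have h2θ : ℵ₀ ≤ (2 : Cardinal.{u}) ^ θ := hθ.trans (cantor θ).le
  have h1 := lt_card_AC (L := L) hθ (cantor θ).le hZ hcomp hM
  have h2 : ∀ C : AC L Z, ∃ s : θ.out → M, range s = C.1 := by
    rintro ⟨C, x, hx, rfl⟩
    have h3 : #(comp L Z x) ≤ #(θ.out) := by
      rw [mk_out]
      exact hcomp x hx
    obtain ⟨f⟩ := (Cardinal.le_def _ _).1 h3
    have hne : Nonempty (comp L Z x) := ⟨⟨x, mem_comp_self _ _⟩⟩
    refine ⟨fun q => (Function.invFun f q : comp L Z x).1, ?_⟩
    ext y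
    constructor
    · rintro ⟨q, rfl⟩
      exact (Function.invFun f q).2
    · intro hy
      refine ⟨f ⟨y, hy⟩, ?_⟩
      simp only [Function.leftInverse_invFun f.injective ⟨y, hy⟩]
  choose s hs using h2
  have hsZ : ∀ C q, s C q ∉ Z := by
    intro C q
    have h3 : s C q ∈ C.1 := by
      rw [← hs]
      exact ⟨q, rfl⟩
    obtain ⟨C, x, hx, rfl⟩ := C
    exact comp_notMem hx h3
  let cd : AC L Z → CCode L Z θ.out := fun C => code Z (s C)
  have hcard : #(CCode L Z θ.out) ≤ 2 ^ θ := mk_code_le hθ hL hZ (mk_out θ).le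
  obtain ⟨c, hc⟩ : ∃ c, (2 : Cardinal.{u}) ^ θ < #(cd ⁻¹' {c}) := by
    by_contra hcon
    push Not at hcon
    have h3 : (univ : Set (AC L Z)) ⊆ ⋃ c, cd ⁻¹' {c} := fun C _ => mem_iUnion.2 ⟨cd C, rfl⟩
    have h4 : #(AC L Z) ≤ 2 ^ θ := by
      rw [← mk_univ]
      refine (mk_le_mk_of_subset h3).trans ((mk_iUnion_le _).trans ?_)
      exact (mul_le_mul' hcard (ciSup_le' hcon)).trans (mul_eq_self h2θ).le
    exact absurd h4 (not_le.2 h1)
  obtain ⟨C₀⟩ : Nonempty (cd ⁻¹' {c}) := by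
    rw [← mk_ne_zero_iff]
    exact (lt_of_le_of_lt zero_le hc).ne'
  obtain ⟨x₀, hx₀, hC₀⟩ := C₀.1.2
  refine ⟨x₀, hx₀, hc.trans_le ?_⟩
  have hTE : ∀ C : cd ⁻¹' {c}, TE L Z C.1.1 (comp L Z x₀) := by
    intro C
    have h3 : code (L := L) Z (s C.1) = code Z (s C₀.1) := by
      have h4 : cd C.1 = c := C.2
      have h5 : cd C₀.1 = c := C₀.2
      exact h4.trans h5.symm
    have h4 := TE_of_code (hsZ C.1) (hsZ C₀.1) h3
    rwa [hs, hs, hC₀] at h4
  have hF : ∀ C : cd ⁻¹' {c}, ∃ x, good L Z x₀ x ∧ C.1.1 = comp L Z x := by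
    intro C
    obtain ⟨x, hx, hCx⟩ := C.1.2
    refine ⟨x, ⟨hx, ?_⟩, hCx⟩
    rw [← hCx]
    exact hTE C
  refine mk_le_of_injective (f := fun C : cd ⁻¹' {c} => (⟨C.1.1, hF C⟩ : GC L Z x₀)) ?_
  intro C C' h
  have h5 : C.1.1 = C'.1.1 := congrArg (fun D : GC L Z x₀ => D.1) h
  exact Subtype.ext (Subtype.ext h5)

end Vale.Agent.P307.Gr
end
end

section

section

universe u

namespace Vale.Agent.P307.Gr

open FirstOrder Language Cardinal Structure Set

variable {L : Language.{u, u}}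

theorem Nice.change {M : Type u} [L.Structure M] {l : Cardinal.{u}} {D : Set M} {x₀ x₁ : M}
    (h : Nice L l D x₀) (h1 : good L D x₀ x₁) : Nice L l D x₁ := by
  refine ⟨h.card_D, h1.1, ?_, h.comp_le, ?_⟩
  · intro d hd
    exact TE.exists_gadj h.notMem h1.2 hd (h.nbr d hd)
  · refine (mk_le_mk_of_subset ?_).trans h.rp_le
    intro x hx hg
    exact hx ⟨hg.1, hg.2.trans h1.2.symm⟩

theorem Nice.of_equiv {M N : Type u} [L.Structure M] [L.Structure N] (e : M ≃[L] N)
    {l : Cardinal.{u}} {D : Set N} {x₀ : N} (h : Nice L l D x₀) :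
    ∃ D' x₀', Nice L (M := M) l D' x₀' := by
  have hfc : FC L e.toEmbedding (e.symm '' D) := by
    refine ⟨fun x y hxy => (gadj_equiv e).1 hxy, fun x _ z _ => ⟨e.symm z, ?_⟩⟩
    exact e.apply_symm_apply z
  refine ⟨e.symm '' D, e.symm x₀, hfc.nice_of ?_⟩
  have h1 : e.toEmbedding '' (e.symm '' D) = D := by
    ext x
    constructor
    · rintro ⟨_, ⟨y, hy, rfl⟩, rfl⟩
      have : e.toEmbedding (e.symm y) = y := e.apply_symm_apply y
      rwa [this]
    · intro hx
      exact ⟨e.symm x, ⟨x, hx, rfl⟩, e.apply_symm_apply x⟩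
  have h2 : e.toEmbedding (e.symm x₀) = x₀ := e.apply_symm_apply x₀
  rw [h1, h2]
  exact h

namespace Am

variable {R E V W : Type u}

theorem mk_am : #(Am R E V) = #R + #V * #E := by
  have : #(Am R E V) = #(R ⊕ (V × E)) := rfl
  rw [this]
  simp

theorem mk_am_of_le {κ : Cardinal.{u}} (hκ : ℵ₀ ≤ κ) (hR : #R ≤ κ) (hE : #E ≤ κ) (hV : #V = κ)
    [Nonempty E] : #(Am R E V) = κ := by
  rw [mk_am, hV]
  have h1 : κ * #E = κ := by
    apply le_antisymm
    · exact (mul_le_mul' (_root_.le_refl _) hE).trans (mul_eq_self hκ).le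
    · exact le_mul_of_one_le_right' (Cardinal.one_le_iff_ne_zero.2 (mk_ne_zero E))
  rw [h1, add_eq_right hκ hR]

variable [L.IsRelational] [L.Structure (R ⊕ E)]

/-- Determination of the decomposition of a nice amalgam. -/
theorem nice_unique [Nonempty E] {l : Cardinal.{u}} (hl : ℵ₀ ≤ l) (hE : Econn L R E)
    (hV : Order.succ l < #V) {D : Set (Am R E V)} {x₀ : Am R E V} (h : Nice L l D x₀) :
    D = attV V (att L R E) ∧ ∀ (i : V) (e : E), good L D x₀ (Sum.inr (i, e)) := by
  classical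
  have hlV : l < #V := (Order.lt_succ l).trans hV
  have hne : Nonempty V := by
    by_contra h
    rw [not_nonempty_iff] at h
    simp at hV
  have hMV : #V ≤ #(Am R E V) := by
    refine mk_le_of_injective (f := fun i : V => copy i (Classical.arbitrary E)) ?_
    intro i j hij
    exact congrArg Prod.fst (Sum.inr_injective hij)
  have hM : Order.succ l < #(Am R E V) := hV.trans_le hMV
  -- `D` is contained in the base
  have h1 : ∀ i e, (copy i e : Am R E V) ∉ D := by
    intro i e hi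
    have h2 : ∀ j : V, (copy j e : Am R E V) ∈ D := by
      intro j
      refine (h.mem_iff hl hM).2 (((h.mem_iff hl hM).1 hi).trans_le ?_)
      rw [← mk_image_eq (s := {z | gadj L (copy i e : Am R E V) z})
        (mapEquiv L R E (Equiv.swap i j)).injective]
      refine mk_le_mk_of_subset ?_
      rintro _ ⟨z, hz, rfl⟩
      have h3 := (gadj_equiv (mapEquiv L R E (Equiv.swap i j))).2 hz
      have h4 : mapEquiv L R E (Equiv.swap i j) (copy i e) = copy j e := by
        change copy (Equiv.swap i j i) e = copy j e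
        rw [Equiv.swap_apply_left]
      rw [h4] at h3
      exact h3
    have h3 : #V ≤ #D := by
      refine mk_le_of_injective (f := fun j : V => (⟨_, h2 j⟩ : D)) ?_
      intro j k hjk
      exact congrArg Prod.fst (Sum.inr_injective (Subtype.ext_iff.1 hjk))
    exact absurd (h3.trans h.card_D) (not_le.2 hlV)
  have h2 : attV V (att L R E) ⊆ D := by
    rintro _ ⟨r, ⟨b, hb⟩, rfl⟩
    have hadj : ∀ j : V, gadj L (base r : Am R E V) (copy j b) := fun j =>
      gadj_iff.2 ⟨hb, ok_inl_left _ _⟩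
    refine (h.mem_iff hl hM).2 (hV.trans_le ?_)
    refine mk_le_of_injective (f := fun j : V =>
      (⟨copy j b, hadj j⟩ : {z | gadj L (base r : Am R E V) z})) ?_
    intro j k hjk
    exact congrArg Prod.fst (Sum.inr_injective (Subtype.ext_iff.1 hjk))
  have h3 : ∀ i e, comp L D (Sum.inr (i, e) : Am R E V) = {x | ∃ b, x = Sum.inr (i, b)} := by
    intro i e
    apply Set.Subset.antisymm
    · rw [← comp_copy hE i e]
      intro y hy
      exact conn.mono h2 hy
    · rintro _ ⟨b, rfl⟩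
      exact conn_copy hE i e b fun e' => h1 i e'
  have hex : ∃ i, ∃ e, good L D x₀ (Sum.inr (i, e) : Am R E V) := by
    by_contra hcon
    push Not at hcon
    have h4 : #V ≤ #(rp L D x₀) := by
      refine mk_le_of_injective (f := fun j : V =>
        (⟨_, hcon j (Classical.arbitrary E)⟩ : rp L D x₀)) ?_
      intro j k hjk
      exact congrArg Prod.fst (Sum.inr_injective (Subtype.ext_iff.1 hjk))
    exact absurd (h4.trans h.rp_le) (not_le.2 hV)
  obtain ⟨i₀, e₀, hg₀⟩ := hex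
  have h4 : D = attV V (att L R E) := by
    apply Set.Subset.antisymm _ h2
    intro d hd
    obtain ⟨y, hy, hdy⟩ := TE.exists_gadj h.notMem hg₀.2 hd (h.nbr d hd)
    rw [h3] at hy
    obtain ⟨b, rfl⟩ := hy
    rcases d with r | ⟨i, e⟩
    · exact ⟨r, ⟨b, (gadj_iff.1 hdy).1⟩, rfl⟩
    · exact absurd hd (h1 i e)
  refine ⟨h4, fun i e => ⟨h1 i e, ?_⟩⟩
  refine TE.trans ?_ hg₀.2
  rw [h4]
  exact TE_copy hE i i₀ e e₀

end Am

/-- Downward transfer of niceness. -/
theorem nice_down [L.IsRelational] {K : AEC L} {l κ θ : Cardinal.{u}} (hK : K.IsLS l)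
    (hκ : Order.succ l < κ)
    (hnice : ∀ (P : Type u) [L.Structure P], K.mem P → #P = κ → ∃ D x₀, Nice L (M := P) l D x₀)
    (M : Type u) [L.Structure M] (hM : K.mem M) (hMκ : #M ≤ κ) (hθ : Order.succ l ≤ θ)
    (hMθ : 2 ^ θ < #M)
    (hno : ∀ F : Set (Set M), F.PairwiseDisjoint id → (∀ X ∈ F, #X = θ ∧ Connd L X) → #F ≤ l) :
    ∃ (D : Set M) (x₀ : M), Nice L l D x₀ ∧ ∃ (P : Type u) (_ : L.Structure P) (D' : Set P)
      (x₀' : P), K.mem P ∧ #P = κ ∧ Nice L l D' x₀' ∧ Core L D x₀ D' x₀' := by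
  have hl := hK.1
  have hlθ : l ≤ θ := (Order.le_succ l).trans hθ
  have hθ0 : ℵ₀ ≤ θ := hl.trans hlθ
  have hκ0 : ℵ₀ ≤ κ := (hl.trans (Order.le_succ l)).trans hκ.le
  have hθκ : θ ≤ κ := (cantor θ).le.trans (hMθ.le.trans hMκ)
  obtain ⟨Z, hZ1, hZ2⟩ := exists_small_separator hl hlθ hno
  obtain ⟨x₀, hx₀, hx₀U⟩ := exists_many_iso hθ0 (hK.2.1.trans hlθ) hZ1 hZ2 hMθ
  have hlU : l < #(GC L Z x₀) := hlθ.trans_lt ((cantor θ).trans hx₀U)
  have hslU : Order.succ l < #(GC L Z x₀) := hθ.trans_lt ((cantor θ).trans hx₀U)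
  have hg₀ : good L Z x₀ x₀ := ⟨hx₀, TE.refl⟩
  obtain ⟨R, E, str, ⟨e⟩, hEne, hR, hE, hEc⟩ := recognize (L := L) (D := Z)
    (ι := GC L Z x₀) (fun C => C.1) ⟨comp L Z x₀, x₀, hg₀, rfl⟩ hx₀ rfl (fun C => C.2)
    (fun C C' h => Subtype.ext h)
  have hUM : #(GC L Z x₀) ≤ κ := by
    refine le_trans ?_ hMκ
    choose p hp using fun C : GC L Z x₀ => C.nonempty
    refine mk_le_of_injective (f := p) fun C C' hCC' => Subtype.ext ?_
    rw [C.eq_comp (hp C), C'.eq_comp (hp C'), hCC']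
  have hmemU : K.mem (Am R E (GC L Z x₀)) := K.mem_iso e hM
  let V : Type u := κ.out
  have hV : #V = κ := mk_out κ
  have hmemV : K.mem (Am R E V) := Am.grow hK hmemU hlU (by
    rw [hV]
    exact (Order.lt_succ l).trans hκ)
  have hcardV : #(Am R E V) = κ := Am.mk_am_of_le hκ0 (hR.trans hMκ)
    (hE.trans ((hZ2 x₀ hx₀).trans hθκ)) hV
  obtain ⟨D, x₁, hD⟩ := hnice _ hmemV hcardV
  obtain ⟨hD1, hD2⟩ := Am.nice_unique hl hEc (by rw [hV]; exact hκ) hD
  obtain ⟨φ⟩ := (Cardinal.le_def _ _).1 (hUM.trans hV.symm.le)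
  have hUne : Nonempty (GC L Z x₀) := ⟨⟨comp L Z x₀, x₀, hg₀, rfl⟩⟩
  have hVne : Nonempty V := by
    rw [← mk_ne_zero_iff, hV]
    exact (aleph0_pos.trans_le hκ0).ne'
  obtain ⟨e₀⟩ := hEne
  let i₀ : GC L Z x₀ := Classical.arbitrary _
  have hfc := Am.fc (L := L) (R := R) (E := E) φ φ.injective
  have himg := Am.image_attV (L := L) (R := R) (E := E) φ φ.injective (Am.att L R E)
  have hniceV : Nice L l (Am.attV V (Am.att L R E)) (Sum.inr (φ i₀, e₀) : Am R E V) := by
    have h1 := hD.change (hD2 (φ i₀) e₀)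
    rwa [hD1] at h1
  have hniceU : Nice L l (Am.attV (GC L Z x₀) (Am.att L R E))
      (Sum.inr (i₀, e₀) : Am R E (GC L Z x₀)) := by
    refine hfc.nice_of ?_
    rw [himg]
    exact hniceV
  have hcoreUV : Core L (Am.attV (GC L Z x₀) (Am.att L R E))
      (Sum.inr (i₀, e₀) : Am R E (GC L Z x₀)) (Am.attV V (Am.att L R E))
      (Sum.inr (φ i₀, e₀) : Am R E V) := by
    have h1 := hfc.core hniceU.notMem (by
      rw [himg]
      intro x hx
      rcases x with r | ⟨j, b⟩
      · exact ⟨Sum.inl r, rfl⟩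
      · refine absurd ?_ hx
        refine ⟨?_, Am.TE_copy hEc j (φ i₀) b e₀⟩
        rintro ⟨r, _, hr⟩
        cases hr)
    rw [himg] at h1
    exact h1
  obtain ⟨D', x₀', hD'⟩ := hniceU.of_equiv e
  have hcore : Core L D' x₀' (Am.attV (GC L Z x₀) (Am.att L R E))
      (Sum.inr (i₀, e₀) : Am R E (GC L Z x₀)) := by
    refine core_of_equiv hl hD' hniceU ?_ e
    exact hθ.trans_lt ((cantor θ).trans hMθ)
  exact ⟨D', x₀', hD', Am R E V, inferInstance, _, _, hmemV, hcardV, hniceV,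
    hcore.trans hcoreUV⟩

end Vale.Agent.P307.Gr
end
end

section

section

universe u

namespace Vale.Agent.P307.Gr

open FirstOrder Language Cardinal Structure Set

variable {L : Language.{u, u}}

theorem exists_witness {M : Type u} [L.Structure M] (x y : M) : ∃ W : Set M, W.Finite ∧
    (gadj L x y → ∃ (n : ℕ) (R : L.Relations n) (v : Fin n → M), RelMap R v ∧ x ∈ range v ∧
      y ∈ range v ∧ range v ⊆ W) := by
  by_cases h : gadj L x y
  · obtain ⟨n, R, v, hv, hx, hy⟩ := h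
    exact ⟨range v, finite_range v, fun _ => ⟨n, R, v, hv, hx, hy, Subset.rfl⟩⟩
  · exact ⟨∅, finite_empty, fun h' => absurd h' h⟩

/-- If all models of size `κ` are nice, there are few disjoint connected sets of large size. -/
theorem no_big {K : AEC L} {l κ θ : Cardinal.{u}} (hK : K.IsLS l)
    (hκ : Order.succ l < κ)
    (hnice : ∀ (P : Type u) [L.Structure P], K.mem P → #P = κ → ∃ D x₀, Nice L (M := P) l D x₀)
    (hθ : hanf (2 ^ Order.succ l) ≤ θ) (hθ' : Order.succ l ≤ θ)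
    (M : Type u) [L.Structure M] (hM : K.mem M) (F : Set (Set M)) (hF : F.PairwiseDisjoint id)
    (hF' : ∀ X ∈ F, #X = θ ∧ Connd L X) : #F ≤ l := by
  classical
  by_contra hcon
  rw [not_le] at hcon
  have hl := hK.1
  have hsl : ℵ₀ ≤ Order.succ l := hl.trans (Order.le_succ l)
  have hκ0 : ℵ₀ ≤ κ := hsl.trans hκ.le
  have hθ0 : ℵ₀ ≤ θ := hsl.trans hθ'
  have hK' : K.IsLS (Order.succ l) := hK.mono (Order.le_succ l)
  -- the family
  let Λ : Type u := (Order.succ l).out
  have hΛ : #Λ = Order.succ l := mk_out _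
  obtain ⟨j⟩ := (Cardinal.le_def _ _).1 (hΛ.le.trans (Order.succ_le_of_lt hcon))
  let C : Λ → Set M := fun i => (j i).1
  have hCθ : ∀ i, #(C i) = θ := fun i => (hF' _ (j i).2).1
  have hCc : ∀ i, Connd L (C i) := fun i => (hF' _ (j i).2).2
  have hCd : ∀ i i' x, x ∈ C i → x ∈ C i' → i = i' := by
    intro i i' x hi hi'
    by_contra hne
    have h1 : (j i).1 ≠ (j i').1 := fun h => hne (j.injective (Subtype.ext h))
    have h2 := hF (j i).2 (j i').2 h1
    exact Set.disjoint_left.1 h2 hi hi'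
  let X : Type u := θ.ord.ToType
  have hX : #X = θ := by simp [X]
  have hXne : Nonempty X := by
    rw [← mk_ne_zero_iff, hX]
    exact (aleph0_pos.trans_le hθ0).ne'
  have hc : ∀ i, ∃ f : X → M, Function.Injective f ∧ ∀ w, f w ∈ C i := by
    intro i
    obtain ⟨e⟩ : Nonempty (X ≃ C i) := by rw [← Cardinal.eq, hX, hCθ]
    exact ⟨fun w => (e w).1, fun a b h => e.injective (Subtype.ext h), fun w => (e w).2⟩
  choose cc hcc1 hcc2 using hc
  have hΛne : Nonempty Λ := by
    rw [← mk_ne_zero_iff, hΛ]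
    exact (aleph0_pos.trans_le hsl).ne'
  let i₀ : Λ := Classical.arbitrary Λ
  have hMne : Nonempty M := ⟨cc i₀ (Classical.arbitrary X)⟩
  -- path closure
  have hT : ∀ i y z, ∃ T : Set M, T.Finite ∧ (y ∈ C i → z ∈ C i → T ⊆ C i ∧ y ∈ T ∧ z ∈ T ∧
      conn L Tᶜ y z) := by
    intro i y z
    by_cases h : y ∈ C i ∧ z ∈ C i
    · obtain ⟨T, h1, h2, h3, h4, h5⟩ := exists_finite_conn (hCc i y h.1 z h.2)
      refine ⟨T, h1, fun _ _ => ⟨?_, h3, h4, h5 z h4⟩⟩
      intro w hw
      have h6 := comp_notMem (D := (C i)ᶜ) (x := y) (not_not.2 h.1) (h2 hw)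
      exact not_not.1 h6
    · exact ⟨∅, finite_empty, fun h1 h2 => absurd ⟨h1, h2⟩ h⟩
  choose T hT1 hT2 using hT
  choose W hW1 hW2 using fun x y : M => exists_witness (L := L) x y
  let c : Finset M → Set M := fun A =>
    ⋃ p : A × A × Λ, (T p.2.2 p.1 p.2.1 ∪ ⋃ q : (T p.2.2 p.1 p.2.1) × (T p.2.2 p.1 p.2.1),
      W q.1 q.2)
  have hfin : ∀ s : Set M, s.Finite → #s ≤ Order.succ l := fun s hs => by
    have := hs.to_subtype
    exact (Cardinal.lt_aleph0_of_finite _).le.trans hsl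
  have hcl : ∀ A, #(c A) ≤ Order.succ l := by
    intro A
    refine (mk_iUnion_le _).trans ?_
    refine (mul_le_mul' (b := Order.succ l) (d := Order.succ l) ?_ (ciSup_le' fun p => ?_)).trans
      (mul_eq_self hsl).le
    · simp only [mk_prod, lift_id, hΛ]
      have hA : #A ≤ Order.succ l := (Cardinal.lt_aleph0_of_finite _).le.trans hsl
      refine (mul_le_mul' hA (mul_le_mul' hA (_root_.le_refl _))).trans ?_
      rw [mul_eq_self hsl, mul_eq_self hsl]
    · have := (hT1 p.2.2 p.1 p.2.1).to_subtype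
      refine (mk_union_le _ _).trans (add_le_of_le hsl (hfin _ (hT1 _ _ _)) ?_)
      refine (mk_iUnion_le _).trans ?_
      refine (mul_le_mul' (b := Order.succ l) (d := Order.succ l) ?_ (ciSup_le' fun q => ?_)).trans
        (mul_eq_self hsl).le
      · exact (Cardinal.lt_aleph0_of_finite _).le.trans hsl
      · exact hfin _ (hW1 _ _)
  obtain ⟨fn, hfn⟩ := exists_skolem hK' hM c hcl hΛ.symm.le
  -- the expansion
  let g : Λ → M → M := fun i y => cc i (Function.invFun (cc i₀) y)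
  have hg1 : ∀ i y, g i y ∈ C i := fun i y => hcc2 i _
  have hg2 : ∀ i w, g i (cc i₀ w) = cc i w := fun i w => by
    simp only [g, Function.leftInverse_invFun (hcc1 i₀) w]
  let fn' : ∀ n : ℕ, (Λ ⊕ Λ) → (Fin n → M) → M := fun n G v =>
    Sum.elim (fun ξ => fn n ξ v) (fun i => if h : 0 < n then g i (v ⟨0, h⟩) else
      Classical.arbitrary M) G
  let rl : ∀ n : ℕ, Λ → (Fin n → M) → Prop := fun n i v => ∃ h : 0 < n, v ⟨0, h⟩ ∈ C i
  let L₁ : Language.{u, u} := L.sum (LX (Λ ⊕ Λ) Λ)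
  let φ : L →ᴸ L₁ := LHom.sumInl
  let strX : (LX (Λ ⊕ Λ) Λ).Structure M := lxStr fn' rl
  have hL₁ : L₁.card ≤ Order.succ l := card_LX_le hsl hK'.2.1 (by
    simp only [mk_sum, lift_id, hΛ, add_eq_self hsl, _root_.le_refl]) hΛ.le
  let Ci : Λ → L₁.Relations 1 := fun i => Sum.inr i
  let Gi : Λ → L₁.Functions 1 := fun i => Sum.inr (Sum.inr i)
  have hCi : ∀ i (v : Fin 1 → M), RelMap (Ci i) v ↔ v 0 ∈ C i := by
    intro i v
    constructor
    · rintro ⟨_, h⟩
      exact h
    · intro h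
      exact ⟨Nat.one_pos, h⟩
  have hGi : ∀ i (v : Fin 1 → M), funMap (Gi i) v = g i (v 0) := fun i v => rfl
  -- closure of substructures
  have hS : ∀ S : L₁.Substructure M, (∃ S' : L.Substructure M, K.le S' ∧ (S' : Set M) = S) ∧
      ∀ A : Finset M, (A : Set M) ⊆ S → c A ⊆ S := by
    intro S
    refine hfn S fun n ξ v hv => ?_
    exact S.fun_mem (Sum.inr (Sum.inl ξ) : L₁.Functions n) v hv
  have hcl1 : Cl1 K φ M := by
    intro S
    obtain ⟨S', h1, h2⟩ := (hS S).1
    have h3 : φ.substructureReduct S = S' := SetLike.coe_injective h2.symm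
    rw [h3]
    exact h1
  obtain ⟨a, ha1, ha2⟩ := exists_template (L := L₁) hsl hL₁ (cc i₀) (by rw [hX]; exact hθ)
  have hta : IsTemplate L₁ (fun n k => cc i₀ (a n k)) := fun k n g hg => ha2 k n g hg
  let I : Type u := κ.ord.ToType
  have hI : #I = κ := by simp [I]
  obtain ⟨N, strN, e, he, htop⟩ := exists_isEM hta I
  let strN' : L.Structure N := φ.reduct N
  have hloc := isEM_local he htop
  have hNK : K.mem N ∧ Cl1 K φ N := hcl1.transfer fun A => by
    obtain ⟨ρ⟩ := hloc A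
    exact ⟨ρ, ρ.injective⟩
  -- facts on pairs
  have hpair : ∀ w w' : I, w < w' → StrictMono (![w, w'] : Fin 2 → I) := by
    intro w w' hw
    rw [Fin.strictMono_iff_lt_succ]
    intro i
    have : i = 0 := Subsingleton.elim _ _
    subst this
    exact hw
  have hat : ∀ w w' : I, w < w' → AtEq L₁ (fun k => e ((![w, w'] : Fin 2 → I) k))
      (fun k => cc i₀ (a 2 k)) := fun w w' hw => he 2 _ (hpair w w' hw)
  have ha01 : a 2 0 ≠ a 2 1 := ((ha1 2) (by decide : (0 : Fin 2) < 1)).ne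
  have heinj : Function.Injective e := by
    have h1 : ∀ w w' : I, w < w' → e w ≠ e w' := by
      intro w w' hw h
      have h2 := (hat w w' hw).1 (Term.var 0) (Term.var 1)
      exact ha01 (hcc1 i₀ (h2.1 h))
    intro w w' h
    rcases lt_trichotomy w w' with hw | hw | hw
    · exact absurd h (h1 w w' hw)
    · exact hw
    · exact absurd h.symm (h1 w' w hw)
  have hNκ : #N = κ := by
    apply le_antisymm
    · have h1 : ∀ x : N, ∃ t : L₁.Term I, t.realize e = x := fun x => by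
        rw [← mem_closure_range, htop]
        trivial
      choose t ht using h1
      have h2 : #N ≤ #(L₁.Term I) := mk_le_of_injective (f := t) fun x y hxy => by
        rw [← ht x, ← ht y, hxy]
      exact h2.trans (mk_term_le hκ0 (hL₁.trans hκ.le) I hI.le)
    · rw [← hI]
      exact mk_le_of_injective heinj
  obtain ⟨D, x₀, hD⟩ := hnice N hNK.1 hNκ
  -- the sets in `N`
  let CN : Λ → Set N := fun i => {y | RelMap (Ci i) (fun _ : Fin 1 => y)}
  have htr : ∀ (A : Finset N) (ρ : Substructure.closure L₁ (A : Set N) ↪[L₁] M) (i : Λ)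
      (y : Substructure.closure L₁ (A : Set N)), y.1 ∈ CN i ↔ ρ y ∈ C i := by
    intro A ρ i y
    have h1 := ρ.map_rel (Ci i) (fun _ => y)
    have h2 := hCi i (ρ ∘ fun _ => y)
    exact (h2.symm.trans h1).symm
  have hCNd : ∀ i i' y, y ∈ CN i → y ∈ CN i' → i = i' := by
    intro i i' y hi hi'
    obtain ⟨ρ⟩ := hloc {y}
    have hy : y ∈ Substructure.closure L₁ (({y} : Finset N) : Set N) :=
      Substructure.subset_closure (by simp)
    exact hCd i i' _ ((htr _ ρ i ⟨y, hy⟩).1 hi) ((htr _ ρ i' ⟨y, hy⟩).1 hi')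
  have hCNκ : ∀ i, κ ≤ #(CN i) := by
    intro i
    have h1 : ∀ w : I, funMap (Gi i) (fun _ : Fin 1 => e w) ∈ CN i := by
      intro w
      obtain ⟨ρ⟩ := hloc {e w}
      have hy : e w ∈ Substructure.closure L₁ (({e w} : Finset N) : Set N) :=
        Substructure.subset_closure (by simp)
      let y : Substructure.closure L₁ (({e w} : Finset N) : Set N) := ⟨e w, hy⟩
      have h2 : funMap (Gi i) (fun _ : Fin 1 => e w) = (funMap (Gi i) (fun _ : Fin 1 => y) :
        Substructure.closure L₁ (({e w} : Finset N) : Set N)) := rfl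
      rw [h2]
      refine (htr _ ρ i _).2 ?_
      rw [ρ.map_fun, hGi]
      exact hg1 i _
    have h2 : Function.Injective (fun w : I => funMap (Gi i) (fun _ : Fin 1 => e w)) := by
      have h3 : ∀ w w' : I, w < w' → funMap (Gi i) (fun _ : Fin 1 => e w) ≠
          funMap (Gi i) (fun _ : Fin 1 => e w') := by
        intro w w' hw h
        have h4 := (hat w w' hw).1 (Term.func (Gi i) (fun _ => Term.var 0))
          (Term.func (Gi i) (fun _ => Term.var 1))
        have h5 := h4.1 h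
        change funMap (Gi i) (fun _ : Fin 1 => cc i₀ (a 2 0)) =
          funMap (Gi i) (fun _ : Fin 1 => cc i₀ (a 2 1)) at h5
        rw [hGi, hGi, hg2, hg2] at h5
        exact ha01 (hcc1 i h5)
      intro w w' h
      rcases lt_trichotomy w w' with hw | hw | hw
      · exact absurd h (h3 w w' hw)
      · exact hw
      · exact absurd h.symm (h3 w' w hw)
    rw [← hI]
    exact mk_le_of_injective (f := fun w : I => (⟨_, h1 w⟩ : CN i))
      fun w w' h => h2 (Subtype.ext_iff.1 h)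
  have hCNc : ∀ i, Connd L (CN i) := by
    intro i y hy z hz
    obtain ⟨ρ⟩ := hloc {y, z}
    have hyS : y ∈ Substructure.closure L₁ (({y, z} : Finset N) : Set N) :=
      Substructure.subset_closure (by simp)
    have hzS : z ∈ Substructure.closure L₁ (({y, z} : Finset N) : Set N) :=
      Substructure.subset_closure (by simp)
    have hyC := (htr _ ρ i ⟨y, hyS⟩).1 hy
    have hzC := (htr _ ρ i ⟨z, hzS⟩).1 hz
    set y' := ρ ⟨y, hyS⟩ with hy'
    set z' := ρ ⟨z, hzS⟩ with hz'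
    obtain ⟨hTC, hyT, hzT, hconn⟩ := hT2 i y' z' hyC hzC
    have hcS := (hS ρ.toHom.range).2 {y', z'} (by
      intro w hw
      simp only [Finset.coe_insert, Finset.coe_singleton, mem_insert_iff,
        mem_singleton_iff] at hw
      rcases hw with rfl | rfl
      · exact ⟨⟨y, hyS⟩, rfl⟩
      · exact ⟨⟨z, hzS⟩, rfl⟩)
    let p : ({y', z'} : Finset M) × ({y', z'} : Finset M) × Λ :=
      (⟨y', by simp⟩, ⟨z', by simp⟩, i)
    have hTS : T i y' z' ⊆ ρ.toHom.range := fun w hw =>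
      hcS (mem_iUnion.2 ⟨p, Or.inl hw⟩)
    have hWS : ∀ u ∈ T i y' z', ∀ w ∈ T i y' z', W u w ⊆ ρ.toHom.range := fun u hu w hw q hq =>
      hcS (mem_iUnion.2 ⟨p, Or.inr (mem_iUnion.2 ⟨(⟨u, hu⟩, ⟨w, hw⟩), hq⟩)⟩)
    have key : ∀ u, conn L (T i y' z')ᶜ y' u → ∃ u' : Substructure.closure L₁
        (({y, z} : Finset N) : Set N), ρ u' = u ∧ conn L (CN i)ᶜ y u'.1 := by
      intro u hu
      induction hu with
      | refl => exact ⟨⟨y, hyS⟩, rfl, Relation.ReflTransGen.refl⟩
      | @tail b d _ hbd ih =>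
        obtain ⟨b', hb', hconn'⟩ := ih
        have hbT : b ∈ T i y' z' := not_not.1 hbd.1
        have hdT : d ∈ T i y' z' := not_not.1 hbd.2.1
        obtain ⟨n, R, v, hv, ⟨k, hk⟩, ⟨m, hm⟩, hvW⟩ := hW2 b d hbd.2.2
        have h1 : ∀ q, ∃ q', ρ q' = v q := fun q => by
          obtain ⟨q', hq'⟩ := hWS b hbT d hdT (hvW ⟨q, rfl⟩)
          exact ⟨q', hq'⟩
        choose v' hv' using h1
        have h2 : RelMap (φ.onRelation R) (fun q => ρ (v' q)) := by
          simp only [hv']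
          exact hv
        have h3 : RelMap (φ.onRelation R) v' := (ρ.map_rel _ _).1 h2
        have h4 : RelMap R (fun q => (v' q).1) := h3
        have hbk : b' = v' k := ρ.injective (by rw [hb', hv', hk])
        refine ⟨v' m, by rw [hv', hm], Relation.ReflTransGen.tail hconn' ⟨?_, ?_, ?_⟩⟩
        · refine not_not.2 ((htr _ ρ i b').2 ?_)
          rw [hb']
          exact hTC hbT
        · refine not_not.2 ((htr _ ρ i (v' m)).2 ?_)
          rw [hv', hm]
          exact hTC hdT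
        · exact ⟨n, R, fun q => (v' q).1, h4, ⟨k, by rw [hbk]⟩, ⟨m, rfl⟩⟩
    obtain ⟨u', hu1, hu2⟩ := key z' hconn
    have : u' = ⟨z, hzS⟩ := ρ.injective hu1
    rw [this] at hu2
    exact hu2
  -- the final contradiction
  have hmeet : ∀ i, ∃ d ∈ D, d ∈ CN i := by
    intro i
    by_contra hno
    push Not at hno
    have hne : (CN i).Nonempty := by
      rw [← Set.nonempty_coe_sort, ← mk_ne_zero_iff]
      exact (aleph0_pos.trans_le (hκ0.trans (hCNκ i))).ne'
    obtain ⟨y, hy⟩ := hne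
    have h1 : CN i ⊆ comp L D y := by
      intro z hz
      exact conn.mono (fun d hd h => hno d hd h) (hCNc i y hy z hz)
    have hyD : y ∉ D := fun h => hno y h hy
    exact absurd ((hCNκ i).trans ((mk_le_mk_of_subset h1).trans (hD.comp_le y hyD)))
      (not_le.2 hκ)
  choose d hd1 hd2 using hmeet
  have h1 : #Λ ≤ #D := mk_le_of_injective (f := fun i => (⟨d i, hd1 i⟩ : D)) fun i i' h =>
    hCNd i i' (d i) (hd2 i) (by
      have : d i = d i' := Subtype.ext_iff.1 h
      rw [this]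
      exact hd2 i')
  rw [hΛ] at h1
  exact absurd (h1.trans hD.card_D) (not_le.2 (Order.lt_succ l))

end Vale.Agent.P307.Gr
end
end

section

section

universe u

namespace Vale.Agent.P307.Gr

open FirstOrder Language Cardinal Structure Set

variable {L : Language.{u, u}}

/-- the exponent of the threshold -/
noncomputable def thetaG (l : Cardinal.{u}) : Cardinal.{u} :=
  max (hanf (2 ^ l)) (max (hanf (2 ^ Order.succ l)) (Order.succ l))

/-- the threshold -/
noncomputable def muG (l : Cardinal.{u}) : Cardinal.{u} := Order.succ (2 ^ thetaG l)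

theorem categorical_transfer [L.IsRelational] {K : AEC L} {l : Cardinal.{u}} (hK : K.IsLS l)
    {κ κ' : Cardinal.{u}} (hins : ∀ (N : Type u) [L.Structure N], K.mem N → #N = κ →
      ∀ Z : Set N, Insep L l Z → #Z ≤ l) (hκ : muG l ≤ κ) (hcat : K.CategoricalIn κ) (hκ' : muG l ≤ κ') :
    K.CategoricalIn κ' := by
  have hl := hK.1
  have hsl : ℵ₀ ≤ Order.succ l := hl.trans (Order.le_succ l)
  have h2θ : ∀ {ρ : Cardinal.{u}}, muG l ≤ ρ → 2 ^ thetaG l < ρ := fun h =>
    (Order.lt_succ _).trans_le h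
  have hθ : ∀ {ρ : Cardinal.{u}}, muG l ≤ ρ → thetaG l < ρ := fun h =>
    (cantor _).trans (h2θ h)
  have hslθ : Order.succ l ≤ thetaG l := (le_max_right _ _).trans (le_max_right _ _)
  have hs : ∀ {ρ : Cardinal.{u}}, muG l ≤ ρ → Order.succ l < ρ := fun h => hslθ.trans_lt (hθ h)
  have hκ0 : ℵ₀ ≤ κ := hsl.trans (hs hκ).le
  obtain ⟨⟨M₀, strM₀, hM₀, hM₀κ⟩, huniq⟩ := hcat
  obtain ⟨R, E, str, hEne, hR, hE, hEc, hatt, hmem⟩ := exists_amalgam hK (hs hκ).le hins M₀ hM₀
    (by rw [hM₀κ]; exact (le_max_left _ _).trans (hθ hκ).le) (by rw [hM₀κ]; exact hκ0)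
  have hlt : ∀ {ρ : Cardinal.{u}}, muG l ≤ ρ → l < #(ρ.out) := fun {ρ} h => by
    rw [mk_out]
    exact (Order.lt_succ l).trans (hs h)
  have hcard : ∀ {ρ : Cardinal.{u}}, muG l ≤ ρ → #(Am R E ρ.out) = ρ := fun {ρ} h =>
    Am.mk_am_of_le (hsl.trans (hs h).le) (hR.trans (hs h).le) (hE.trans (hs h).le) (mk_out ρ)
  have hnice : ∀ (P : Type u) [L.Structure P], K.mem P → #P = κ →
      ∃ D x₀, Nice L (M := P) l D x₀ := by
    intro P _ hP hPκ
    obtain ⟨e⟩ := huniq P (Am R E κ.out) hP (hmem _ (hlt hκ)) hPκ (hcard hκ)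
    have hne : Nonempty κ.out := by
      rw [← mk_ne_zero_iff, mk_out]
      exact (aleph0_pos.trans_le hκ0).ne'
    obtain ⟨i⟩ := hne
    obtain ⟨b⟩ := hEne
    exact (Am.nice (L := L) hEc hR hE hatt i b).of_equiv e
  refine ⟨⟨Am R E κ'.out, inferInstance, hmem _ (hlt hκ'), hcard hκ'⟩, ?_⟩
  have key : ∀ (M : Type u) [L.Structure M], K.mem M → #M = κ' →
      ∃ (D : Set M) (x₀ : M), Nice L l D x₀ ∧ ∃ (P : Type u) (_ : L.Structure P) (D' : Set P)
        (x₀' : P), K.mem P ∧ #P = κ ∧ Nice L l D' x₀' ∧ Core L D x₀ D' x₀' := by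
    intro M _ hM hMκ'
    rcases le_total κ κ' with h | h
    · exact nice_up hK (hs hκ) hnice M hM (by rw [hMκ']; exact h)
    · refine nice_down (θ := thetaG l) hK (hs hκ) hnice M hM (by rw [hMκ']; exact h) hslθ
        (by rw [hMκ']; exact h2θ hκ') ?_
      intro F hF1 hF2
      exact no_big hK (hs hκ) hnice ((le_max_left _ _).trans (le_max_right _ _)) hslθ M hM F hF1 hF2
  intro M₁ M₂ _ _ hM₁ hM₂ hc₁ hc₂
  obtain ⟨D₁, x₁, hn₁, P₁, _, D₁', x₁', hP₁, hP₁κ, hn₁', hcore₁⟩ := key M₁ hM₁ hc₁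
  obtain ⟨D₂, x₂, hn₂, P₂, _, D₂', x₂', hP₂, hP₂κ, hn₂', hcore₂⟩ := key M₂ hM₂ hc₂
  obtain ⟨e⟩ := huniq P₁ P₂ hP₁ hP₂ hP₁κ hP₂κ
  have hcore : Core L D₁' x₁' D₂' x₂' := core_of_equiv hl hn₁' hn₂' (by rw [hP₁κ]; exact hs hκ) e
  exact equiv_of_core hl hn₁ hn₂ (by rw [hc₁]; exact hs hκ') (hc₁.trans hc₂.symm)
    ((hcore₁.trans hcore).trans hcore₂.symm)

end Vale.Agent.P307.Gr
end
end

section

section

universe u

namespace Vale.Agent.P307.Gr

open FirstOrder Language Cardinal Structure Set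

variable {L : Language.{u, u}} {M : Type u} [L.Structure M]

variable (L) in
/-- A subdivision of the complete graph on `T` in the Gaifman graph of `M`: branch vertices `b t`
and, for `s < t`, a finite connected set `Q s t` joining `b s` and `b t`. -/
structure SubDiv {T : Type u} [LinearOrder T] (b : T → M) (Q : T → T → Set M) : Prop where
  inj : Function.Injective b
  fin : ∀ s t, s < t → (Q s t).Finite
  left : ∀ s t, s < t → b s ∈ Q s t
  right : ∀ s t, s < t → b t ∈ Q s t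
  conn : ∀ s t, s < t → conn L (Q s t)ᶜ (b s) (b t)
  avoid : ∀ s t, s < t → ∀ r, b r ∈ Q s t → r = s ∨ r = t
  disj : ∀ s t s' t', s < t → s' < t' → (s ≠ s' ∨ t ≠ t') → ∀ x ∈ Q s t, x ∈ Q s' t' →
    x ∈ range b

theorem exists_lex_rec {α : Type u} [LinearOrder α] [WellFoundedLT α] {γ : Type u}
    (F : ∀ w : α ×ₗ α, (∀ w' : α ×ₗ α, w' < w → γ) → γ) :
    ∃ H : α ×ₗ α → γ, ∀ w, H w = F w (fun w' _ => H w') :=
  ⟨WellFounded.fix (wellFounded_lt (α := α ×ₗ α)) F, fun _ => WellFounded.fix_eq _ _ _⟩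

/-- A large inseparable set yields a subdivision of a complete graph. -/
theorem exists_subDiv {l : Cardinal.{u}} (hl : ℵ₀ ≤ l) {Z : Set M} (hZ : Insep L l Z)
    (hZl : l < #Z) : ∃ (b : SuccTy l → M) (Q : SuccTy l → SuccTy l → Set M), SubDiv L b Q := by
  classical
  -- picking new elements of `Z`
  have hpick : ∀ U : Set M, ∃ z, #U ≤ l → z ∈ Z ∧ z ∉ U := by
    intro U
    by_cases hU : #U ≤ l
    · by_contra hcon
      push Not at hcon
      have h1 : Z ⊆ U := fun z hz => by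
        obtain ⟨_, h2⟩ := hcon z
        exact h2 hz
      exact absurd ((mk_le_mk_of_subset h1).trans hU) (not_le.2 hZl)
    · have hne : Z.Nonempty := by
        rw [← Set.nonempty_coe_sort, ← mk_ne_zero_iff]
        exact (lt_of_le_of_lt zero_le hZl).ne'
      exact ⟨hne.some, fun h => absurd h hU⟩
  choose pick hpick using hpick
  -- choosing paths
  have hpath : ∀ (U : Set M) (x y : M), ∃ T : Set M, T.Finite ∧ (#U ≤ l → x ∈ Z → y ∈ Z → x ≠ y →
      x ∈ T ∧ y ∈ T ∧ conn L Tᶜ x y ∧ ∀ z ∈ T, z ∈ U → z = x ∨ z = y) := by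
    intro U x y
    by_cases h : #U ≤ l ∧ x ∈ Z ∧ y ∈ Z ∧ x ≠ y
    · obtain ⟨h1, h2, h3, h4⟩ := h
      have h5 : #((U \ {x, y} : Set M)) ≤ l := (mk_le_mk_of_subset sdiff_subset).trans h1
      have hx : x ∉ U \ {x, y} := fun h => h.2 (Or.inl rfl)
      have hy : y ∉ U \ {x, y} := fun h => h.2 (Or.inr rfl)
      obtain ⟨T, hT1, hT2, hT3, hT4, hT5⟩ := exists_finite_conn (hZ x h2 y h3 h4 _ h5 hx hy)
      refine ⟨T, hT1, fun _ _ _ _ => ⟨hT3, hT4, hT5 y hT4, fun z hz hzU => ?_⟩⟩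
      have h6 := comp_notMem hx (hT2 hz)
      by_contra hcon
      push Not at hcon
      refine h6 ⟨hzU, ?_⟩
      rintro (h7 | h7)
      · exact hcon.1 h7
      · exact hcon.2 h7
    · exact ⟨∅, finite_empty, fun h1 h2 h3 h4 => absurd ⟨h1, h2, h3, h4⟩ h⟩
  choose path hpath1 hpath2 using hpath
  -- recursion
  obtain ⟨H, hH⟩ := exists_lex_rec (α := SuccTy l) (γ := Set M) (fun w prev =>
    let bb : SuccTy l → M := fun γ =>
      pick (⋃ w' : {w' : SuccTy l ×ₗ SuccTy l // w' < w ∧ (ofLex w').1 < γ}, prev w'.1 w'.2.1)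
    if (ofLex w).2 < (ofLex w).1 then
      path (⋃ w' : {w' : SuccTy l ×ₗ SuccTy l // w' < w}, prev w'.1 w'.2) (bb (ofLex w).2)
        (bb (ofLex w).1)
    else if (ofLex w).2 = (ofLex w).1 then {bb (ofLex w).1} else ∅)
  let b : SuccTy l → M := fun γ =>
    pick (⋃ w' : {w' : SuccTy l ×ₗ SuccTy l // (ofLex w').1 < γ}, H w'.1)
  let Uw : SuccTy l ×ₗ SuccTy l → Set M := fun w =>
    ⋃ w' : {w' : SuccTy l ×ₗ SuccTy l // w' < w}, H w'.1
  have hb : ∀ (w : SuccTy l ×ₗ SuccTy l) (γ : SuccTy l), γ ≤ (ofLex w).1 →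
      pick (⋃ w' : {w' : SuccTy l ×ₗ SuccTy l // w' < w ∧ (ofLex w').1 < γ}, H w'.1) = b γ := by
    intro w γ hγ
    have : (⋃ w' : {w' : SuccTy l ×ₗ SuccTy l // w' < w ∧ (ofLex w').1 < γ}, H w'.1) =
        ⋃ w' : {w' : SuccTy l ×ₗ SuccTy l // (ofLex w').1 < γ}, H w'.1 := by
      ext x
      simp only [mem_iUnion]
      constructor
      · rintro ⟨w', hx⟩
        exact ⟨⟨w'.1, w'.2.2⟩, hx⟩
      · rintro ⟨w', hx⟩
        exact ⟨⟨w'.1, Prod.Lex.lt_iff.2 (Or.inl (w'.2.trans_le hγ)), w'.2⟩, hx⟩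
    rw [this]
  have hH1 : ∀ α β : SuccTy l, β < α → H (toLex (α, β)) = path (Uw (toLex (α, β))) (b β) (b α) := by
    intro α β hβα
    refine (hH (toLex (α, β))).trans ((if_pos hβα).trans ?_)
    exact congrArg₂ (path _) (hb (toLex (α, β)) β hβα.le) (hb (toLex (α, β)) α (le_refl _))
  have hH2 : ∀ α : SuccTy l, H (toLex (α, α)) = {b α} := by
    intro α
    refine (hH (toLex (α, α))).trans ((if_neg (lt_irrefl α)).trans ((if_pos rfl).trans ?_))
    exact congrArg (fun z : M => ({z} : Set M)) (hb (toLex (α, α)) α (le_refl _))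
  have hH3 : ∀ α β : SuccTy l, α < β → H (toLex (α, β)) = ∅ := by
    intro α β h
    exact (hH (toLex (α, β))).trans ((if_neg (not_lt.2 h.le)).trans (if_neg h.ne'))
  have hHfin : ∀ w, (H w).Finite := by
    intro w
    obtain ⟨α, β⟩ := w
    change (H (toLex (α, β))).Finite
    rcases lt_trichotomy β α with h | h | h
    · rw [hH1 α β h]
      exact hpath1 _ _ _
    · subst h
      rw [hH2]
      exact finite_singleton _
    · rw [hH3 α β h]
      exact finite_empty
  -- size of unions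
  have hsize : ∀ α : SuccTy l, ∀ P : SuccTy l ×ₗ SuccTy l → Prop,
      (∀ w, P w → (ofLex w).1 ≤ α) → #(⋃ w : {w // P w}, H w.1 : Set M) ≤ l := by
    intro α P hP
    have h1 : (⋃ w : {w // P w}, H w.1 : Set M) ⊆
        ⋃ p : Set.Iic α × Set.Iic α, H (toLex (p.1.1, p.2.1)) := by
      intro x hx
      obtain ⟨w, hw⟩ := mem_iUnion.1 hx
      obtain ⟨⟨γ, δ⟩, hPw⟩ := w
      have h2 : γ ≤ α := hP _ hPw
      have h3 : δ ≤ γ := by
        by_contra hcon
        have h4 := hH3 γ δ (not_le.1 hcon)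
        have h5 : x ∈ H (toLex (γ, δ)) := hw
        rw [h4] at h5
        exact h5
      exact mem_iUnion.2 ⟨(⟨γ, h2⟩, ⟨δ, h3.trans h2⟩), hw⟩
    have hIic : #(Set.Iic α) ≤ l := by
      rw [← Set.Iio_union_right (a := α)]
      refine (mk_union_le _ _).trans (add_le_of_le hl (mk_Iio_succTy α) ?_)
      rw [mk_singleton]
      exact one_le_aleph0.trans hl
    refine (mk_le_mk_of_subset h1).trans ((mk_iUnion_le _).trans ?_)
    refine (mul_le_mul' (b := l) (d := l) ?_ (ciSup_le' fun p => ?_)).trans (mul_eq_self hl).le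
    · rw [mk_prod, lift_id]
      exact (mul_le_mul' hIic hIic).trans (mul_eq_self hl).le
    · have := (hHfin (toLex (p.1.1, p.2.1))).to_subtype
      exact (Cardinal.lt_aleph0_of_finite _).le.trans hl
  have hbZ : ∀ γ, b γ ∈ Z ∧ b γ ∉ (⋃ w' : {w' : SuccTy l ×ₗ SuccTy l // (ofLex w').1 < γ},
      H w'.1) := by
    intro γ
    exact hpick _ (hsize γ (fun w' => (ofLex w').1 < γ) fun w hw => le_of_lt hw)
  have hbnew : ∀ γ α β, α < γ → b γ ∉ H (toLex (α, β)) := by
    intro γ α β hα h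
    exact (hbZ γ).2 (mem_iUnion.2 ⟨⟨toLex (α, β), hα⟩, h⟩)
  have hblt : ∀ α β, β < α → b β ≠ b α := by
    intro α β h he
    refine hbnew α β β h ?_
    rw [hH2, he]
    rfl
  have hbinj : Function.Injective b := by
    intro α β h
    rcases lt_trichotomy α β with h1 | h1 | h1
    · exact absurd h (hblt β α h1)
    · exact h1
    · exact absurd h.symm (hblt α β h1)
  have hQ : ∀ α β, β < α → b β ∈ H (toLex (α, β)) ∧ b α ∈ H (toLex (α, β)) ∧
      conn L (H (toLex (α, β)))ᶜ (b β) (b α) ∧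
      ∀ z ∈ H (toLex (α, β)), z ∈ Uw (toLex (α, β)) → z = b β ∨ z = b α := by
    intro α β h
    have h1 : #(Uw (toLex (α, β))) ≤ l := by
      refine hsize α (fun w => w < toLex (α, β)) fun w hw => ?_
      rcases Prod.Lex.lt_iff.1 hw with h2 | h2
      · exact h2.le
      · exact h2.1.le
    have h2 := hpath2 (Uw (toLex (α, β))) (b β) (b α) h1 (hbZ β).1 (hbZ α).1 (hblt α β h)
    rw [← hH1 α β h] at h2
    exact h2
  have hdisj : ∀ α β α' β', β < α → toLex (α', β') < toLex (α, β) →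
      ∀ x ∈ H (toLex (α, β)), x ∈ H (toLex (α', β')) → x = b β ∨ x = b α := by
    intro α β α' β' h hlt x hx hx'
    exact (hQ α β h).2.2.2 x hx (mem_iUnion.2 ⟨⟨toLex (α', β'), hlt⟩, hx'⟩)
  refine ⟨b, fun s t => H (toLex (t, s)), hbinj, fun s t _ => hHfin _, fun s t h => (hQ t s h).1,
    fun s t h => (hQ t s h).2.1, fun s t h => (hQ t s h).2.2.1, ?_, ?_⟩
  · intro s t h r hr
    rcases lt_trichotomy r t with h1 | h1 | h1
    · have h2 := hdisj t s r r h (Prod.Lex.lt_iff.2 (Or.inl h1)) (b r) hr (by rw [hH2]; rfl)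
      rcases h2 with h2 | h2
      · exact Or.inl (hbinj h2)
      · exact Or.inr (hbinj h2)
    · exact Or.inr h1
    · exact absurd hr (hbnew r t s h1)
  · intro s t s' t' h h' hne x hx hx'
    rcases lt_trichotomy (toLex (t, s)) (toLex (t', s')) with h1 | h1 | h1
    · rcases hdisj t' s' t s h' h1 x hx' hx with h2 | h2
      · exact ⟨s', h2.symm⟩
      · exact ⟨t', h2.symm⟩
    · exfalso
      have h2 : (t, s) = (t', s') := toLex.injective h1
      rcases hne with h3 | h3
      · exact h3 (Prod.ext_iff.1 h2).2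
      · exact h3 (Prod.ext_iff.1 h2).1
    · rcases hdisj t s t' s' h h1 x hx hx' with h2 | h2
      · exact ⟨s, h2.symm⟩
      · exact ⟨t, h2.symm⟩

end Vale.Agent.P307.Gr
end
end

section

section

universe u

namespace Vale.Agent.P307.Gr

open FirstOrder Language Cardinal Structure Set

variable {L L₁ : Language.{u, u}}

/-- Every finite tuple of indices looks like one in the original sequence. -/
theorem isEM_tuple {M N X : Type u} [L₁.Structure M] [L₁.Structure N] [LinearOrder X]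
    {x : X → M} {a : ∀ n : ℕ, Fin n → X} (ha : ∀ n, StrictMono (a n))
    {I : Type u} [LinearOrder I] {c : I → N} (hc : IsEM L₁ (fun n k => x (a n k)) c)
    {m : ℕ} (q : Fin m → I) : ∃ w : Fin m → X, (∀ p p', q p < q p' ↔ w p < w p') ∧
      AtEq L₁ (fun p => c (q p)) (fun p => x (w p)) := by
  classical
  let F : Finset I := Finset.univ.image q
  let e : Fin F.card ↪o I := F.orderEmbOfFin rfl
  have hq : ∀ p, ∃ k, e k = q p := by
    intro p
    have h5 : q p ∈ (F : Set I) := Finset.mem_coe.2 (Finset.mem_image_of_mem q (Finset.mem_univ p))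
    rw [← F.range_orderEmbOfFin rfl] at h5
    exact h5
  choose g hg using hq
  refine ⟨fun p => a F.card (g p), fun p p' => ?_, ?_⟩
  · rw [← hg p, ← hg p', e.lt_iff_lt, (ha F.card).lt_iff_lt]
  · have h1 : AtEq L₁ (fun k => c (e k)) (fun k => x (a F.card k)) := hc _ e e.strictMono
    have h2 := h1.comp g
    have h3 : (fun k => c (e k)) ∘ g = fun p => c (q p) := by
      funext p
      simp only [Function.comp, hg]
    rw [h3] at h2
    exact h2

theorem exists_big_subDiv {K : AEC L} {l κ : Cardinal.{u}} (hK : K.IsLS l) (hκ : l ≤ κ)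
    (M : Type u) [L.Structure M] (hM : K.mem M) {X : Type u} [LinearOrder X] [WellFoundedLT X]
    (hX : hanf (2 ^ l) ≤ #X) (hXne : Nonempty X) {b : X → M} {Q : X → X → Set M}
    (hs : SubDiv L b Q) :
    ∃ (N : Type u) (_ : L.Structure N), K.mem N ∧ #N = κ ∧
      ∃ (T : Type u) (_ : LinearOrder T) (b' : T → N) (Q' : T → T → Set N), #T = κ ∧
        SubDiv L b' Q' := by
  classical
  have hl := hK.1
  have hκ0 : ℵ₀ ≤ κ := hl.trans hκ
  have hMne : Nonempty M := ⟨b (Classical.arbitrary X)⟩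
  -- witnesses
  choose W hW1 hW2 using fun x y : M => exists_witness (L := L) x y
  let c : Finset M → Set M := fun A => ⋃ p : A × A, W p.1 p.2
  have hcl : ∀ A, #(c A) ≤ l := by
    intro A
    refine (mk_iUnion_le _).trans ?_
    refine (mul_le_mul' (b := l) (d := l) ?_ (ciSup_le' fun p => ?_)).trans (mul_eq_self hl).le
    · exact (Cardinal.lt_aleph0_of_finite _).le.trans hl
    · have := (hW1 p.1 p.2).to_subtype
      exact (Cardinal.lt_aleph0_of_finite _).le.trans hl
  let Λ : Type u := l.out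
  have hΛ : #Λ = l := mk_out l
  obtain ⟨fn, hfn⟩ := exists_skolem hK hM c hcl hΛ.symm.le
  -- enumerations of the paths
  have henum : ∀ y z : M, ∃ P : ℕ → M, ∀ s t, s < t → b s = y → b t = z → range P = Q s t := by
    intro y z
    by_cases h : ∃ s t, s < t ∧ b s = y ∧ b t = z
    · obtain ⟨s, t, hst, hsy, htz⟩ := h
      have := (hs.fin s t hst).to_subtype
      have hne : Nonempty (Q s t) := ⟨⟨b s, hs.left s t hst⟩⟩
      obtain ⟨f, hf⟩ := exists_surjective_nat (Q s t)
      refine ⟨fun k => (f k).1, fun s' t' _ hsy' htz' => ?_⟩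
      have h1 : s' = s := hs.inj (hsy'.trans hsy.symm)
      have h2 : t' = t := hs.inj (htz'.trans htz.symm)
      subst h1 h2
      ext w
      constructor
      · rintro ⟨k, rfl⟩
        exact (f k).2
      · intro hw
        obtain ⟨k, hk⟩ := hf ⟨w, hw⟩
        exact ⟨k, congrArg Subtype.val hk⟩
    · exact ⟨fun _ => y, fun s t hst h1 h2 => absurd ⟨s, t, hst, h1, h2⟩ h⟩
  choose P hP using henum
  have hP' : ∀ s t, s < t → range (P (b s) (b t)) = Q s t := fun s t h => hP _ _ s t h rfl rfl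
  -- the expansion
  let fn' : ∀ n : ℕ, (Λ ⊕ ULift.{u} ℕ) → (Fin n → M) → M := fun n G v =>
    Sum.elim (fun ξ => fn n ξ v) (fun k => if h : 1 < n then
      P (v ⟨0, zero_lt_one.trans h⟩) (v ⟨1, h⟩) k.down else Classical.arbitrary M) G
  let L₁ : Language.{u, u} := L.sum (LX (Λ ⊕ ULift.{u} ℕ) PEmpty.{u + 1})
  let φ : L →ᴸ L₁ := LHom.sumInl
  let strX : (LX (Λ ⊕ ULift.{u} ℕ) PEmpty.{u + 1}).Structure M :=
    lxStr fn' (fun _ h _ => h.elim)
  have hL₁ : L₁.card ≤ l := card_LX_le hl hK.2.1 (by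
    simp only [mk_sum, lift_id, hΛ]
    refine add_le_of_le hl (_root_.le_refl _) ?_
    simpa using hl) (by simp)
  let Pi : ℕ → L₁.Functions 2 := fun k => Sum.inr (Sum.inr ⟨k⟩)
  have hPi : ∀ k (v : Fin 2 → M), funMap (Pi k) v = P (v 0) (v 1) k := by
    intro k v
    change (if h : 1 < 2 then P (v ⟨0, zero_lt_one.trans h⟩) (v ⟨1, h⟩) k else
      Classical.arbitrary M) = _
    rw [dif_pos (by decide)]
    rfl
  have hS : ∀ S : L₁.Substructure M, (∃ S' : L.Substructure M, K.le S' ∧ (S' : Set M) = S) ∧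
      ∀ A : Finset M, (A : Set M) ⊆ S → c A ⊆ S := by
    intro S
    refine hfn S fun n ξ v hv => ?_
    exact S.fun_mem (Sum.inr (Sum.inl ξ) : L₁.Functions n) v hv
  have hcl1 : Cl1 K φ M := by
    intro S
    obtain ⟨S', h1, h2⟩ := (hS S).1
    have h3 : φ.substructureReduct S = S' := SetLike.coe_injective h2.symm
    rw [h3]
    exact h1
  obtain ⟨a, ha1, ha2⟩ := exists_template (L := L₁) hl hL₁ b hX
  have hta : IsTemplate L₁ (fun n k => b (a n k)) := fun k n g hg => ha2 k n g hg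
  let I : Type u := κ.ord.ToType
  have hI : #I = κ := by simp [I]
  obtain ⟨N, strN, e, he, htop⟩ := exists_isEM hta I
  let strN' : L.Structure N := φ.reduct N
  have hloc := isEM_local he htop
  have hNK : K.mem N ∧ Cl1 K φ N := hcl1.transfer fun A => by
    obtain ⟨ρ⟩ := hloc A
    exact ⟨ρ, ρ.injective⟩
  have htup : ∀ {m : ℕ} (q : Fin m → I), ∃ w : Fin m → X, (∀ p p', q p < q p' ↔ w p < w p') ∧
      AtEq L₁ (fun p => e (q p)) (fun p => b (w p)) := fun q => isEM_tuple ha1 he q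
  -- terms
  let tP : ∀ {m : ℕ}, ℕ → Fin m → Fin m → L₁.Term (Fin m) := fun k p p' =>
    Term.func (Pi k) ![Term.var p, Term.var p']
  have htP : ∀ {m : ℕ} (k : ℕ) (p p' : Fin m) (v : Fin m → M),
      (tP k p p').realize v = P (v p) (v p') k := by
    intro m k p p' v
    change funMap (Pi k) (fun i => ((![Term.var p, Term.var p'] : Fin 2 → L₁.Term (Fin m)) i).realize v)
      = _
    rw [hPi]
    rfl
  let PN : ℕ → N → N → N := fun k y z => funMap (Pi k) ![y, z]
  have htPN : ∀ {m : ℕ} (k : ℕ) (p p' : Fin m) (v : Fin m → N),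
      (tP k p p').realize v = PN k (v p) (v p') := by
    intro m k p p' v
    change funMap (Pi k) (fun i => ((![Term.var p, Term.var p'] : Fin 2 → L₁.Term (Fin m)) i).realize v)
      = funMap (Pi k) ![v p, v p']
    congr 1
    funext i
    refine Fin.cases rfl (fun i => ?_) i
    refine Fin.cases rfl (fun i => i.elim0) i
  -- `e` is injective
  have heinj : Function.Injective e := by
    intro i j hij
    obtain ⟨w, hw1, hw2⟩ := htup ![i, j]
    have h1 : b (w 0) = b (w 1) := (hw2.1 (Term.var 0) (Term.var 1)).1 hij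
    have h2 := hs.inj h1
    rcases lt_trichotomy i j with h | h | h
    · have h3 : w 0 < w 1 := (hw1 0 1).1 h
      exact absurd h2 h3.ne
    · exact h
    · have h3 : w 1 < w 0 := (hw1 1 0).1 h
      exact absurd h2 h3.ne'
  have hNκ : #N = κ := by
    apply le_antisymm
    · have h1 : ∀ x : N, ∃ t : L₁.Term I, t.realize e = x := fun x => by
        rw [← mem_closure_range, htop]
        trivial
      choose t ht using h1
      have h2 : #N ≤ #(L₁.Term I) := mk_le_of_injective (f := t) fun x y hxy => by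
        rw [← ht x, ← ht y, hxy]
      exact h2.trans (mk_term_le hκ0 (hL₁.trans hκ) I hI.le)
    · rw [← hI]
      exact mk_le_of_injective heinj
  let QN : I → I → Set N := fun i j => range fun k => PN k (e i) (e j)
  refine ⟨N, strN', hNK.1, hNκ, I, inferInstance, e, QN, hI, heinj, ?_, ?_, ?_, ?_, ?_, ?_⟩
  · -- finiteness
    intro i j hij
    obtain ⟨w, hw1, hw2⟩ := htup ![i, j]
    have hlt : w 0 < w 1 := (hw1 0 1).1 hij
    have hfin : (range (P (b (w 0)) (b (w 1)))).Finite := by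
      rw [hP' _ _ hlt]
      exact hs.fin _ _ hlt
    have h1 : ∀ k m, P (b (w 0)) (b (w 1)) k = P (b (w 0)) (b (w 1)) m →
        PN k (e i) (e j) = PN m (e i) (e j) := by
      intro k m hkm
      have h2 := hw2.1 (tP k 0 1) (tP m 0 1)
      rw [htP, htP, htPN, htPN] at h2
      exact h2.2 hkm
    have hrep : ∀ y : range (P (b (w 0)) (b (w 1))), ∃ k, P (b (w 0)) (b (w 1)) k = y.1 :=
      fun y => y.2
    choose r hr using hrep
    have := hfin.to_subtype
    refine (finite_range fun y => PN (r y) (e i) (e j)).subset ?_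
    rintro _ ⟨k, rfl⟩
    exact ⟨⟨_, ⟨k, rfl⟩⟩, h1 _ _ (hr ⟨_, ⟨k, rfl⟩⟩)⟩
  · intro i j hij
    obtain ⟨w, hw1, hw2⟩ := htup ![i, j]
    have hlt : w 0 < w 1 := (hw1 0 1).1 hij
    have h1 : b (w 0) ∈ range (P (b (w 0)) (b (w 1))) := by
      rw [hP' _ _ hlt]
      exact hs.left _ _ hlt
    obtain ⟨k, hk⟩ := h1
    refine ⟨k, ?_⟩
    have h2 := hw2.1 (tP k 0 1) (Term.var 0)
    rw [htP, htPN] at h2
    exact h2.2 hk
  · intro i j hij
    obtain ⟨w, hw1, hw2⟩ := htup ![i, j]
    have hlt : w 0 < w 1 := (hw1 0 1).1 hij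
    have h1 : b (w 1) ∈ range (P (b (w 0)) (b (w 1))) := by
      rw [hP' _ _ hlt]
      exact hs.right _ _ hlt
    obtain ⟨k, hk⟩ := h1
    refine ⟨k, ?_⟩
    have h2 := hw2.1 (tP k 0 1) (Term.var 1)
    rw [htP, htPN] at h2
    exact h2.2 hk
  · -- connectedness
    intro i j hij
    obtain ⟨w, hw1, hw2⟩ := htup ![i, j]
    have hlt : w 0 < w 1 := (hw1 0 1).1 hij
    have hw2' : AtEq L₁ (fun p : ULift.{u} (Fin 2) => e (![i, j] p.down))
        (fun p : ULift.{u} (Fin 2) => b (w p.down)) := hw2.comp ULift.down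
    obtain ⟨E, hE⟩ := exists_closure_equiv hw2'
    have hQr := hP' _ _ hlt
    -- the points of the path in `M` lie in the closure
    have hmemM : ∀ k, P (b (w 0)) (b (w 1)) k ∈ Substructure.closure L₁
        (range fun p : ULift.{u} (Fin 2) => b (w p.down)) := by
      intro k
      refine mem_closure_range.2 ⟨(tP k 0 1).relabel ULift.up, ?_⟩
      rw [Term.realize_relabel]
      exact htP k 0 1 (fun p => b (w p))
    have hmemN : ∀ k, PN k (e i) (e j) ∈ Substructure.closure L₁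
        (range fun p : ULift.{u} (Fin 2) => e (![i, j] p.down)) := by
      intro k
      refine mem_closure_range.2 ⟨(tP k 0 1).relabel ULift.up, ?_⟩
      rw [Term.realize_relabel]
      exact htPN k 0 1 (fun p => e (![i, j] p))
    have hEk : ∀ k, (E ⟨PN k (e i) (e j), hmemN k⟩ : M) = P (b (w 0)) (b (w 1)) k := by
      intro k
      have h1 : ((tP k 0 1).relabel ULift.up : L₁.Term (ULift.{u} (Fin 2))).realize
          (fun p : ULift.{u} (Fin 2) => e (![i, j] p.down)) = PN k (e i) (e j) := by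
        rw [Term.realize_relabel]
        exact htPN k 0 1 (fun p => e (![i, j] p))
      have h2 : ((tP k 0 1).relabel ULift.up : L₁.Term (ULift.{u} (Fin 2))).realize
          (fun p : ULift.{u} (Fin 2) => b (w p.down)) = P (b (w 0)) (b (w 1)) k := by
        rw [Term.realize_relabel]
        exact htP k 0 1 (fun p => b (w p))
      have h3 := hE ((tP k 0 1).relabel ULift.up) (by rw [h1]; exact hmemN k)
      rw [h2] at h3
      rw [← h3]
      congr 2
      exact Subtype.ext h1.symm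
    -- adjacency transfer
    have hadj : ∀ k m, gadj L (P (b (w 0)) (b (w 1)) k) (P (b (w 0)) (b (w 1)) m) →
        gadj L (PN k (e i) (e j)) (PN m (e i) (e j)) := by
      intro k m hkm
      obtain ⟨n, R, v, hv, ⟨p, hp⟩, ⟨p', hp'⟩, hvW⟩ := hW2 _ _ hkm
      let S := Substructure.closure L₁ (range fun p : ULift.{u} (Fin 2) => b (w p.down))
      have hcS := (hS S).2 {P (b (w 0)) (b (w 1)) k, P (b (w 0)) (b (w 1)) m} (by
        intro z hz
        simp only [Finset.coe_insert, Finset.coe_singleton, mem_insert_iff,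
          mem_singleton_iff] at hz
        rcases hz with rfl | rfl
        · exact hmemM k
        · exact hmemM m)
      have hvS : ∀ q, v q ∈ S := fun q => by
        apply hcS
        exact mem_iUnion.2 ⟨(⟨_, Finset.mem_insert_self _ _⟩,
          ⟨_, Finset.mem_insert_of_mem (Finset.mem_singleton_self _)⟩), hvW ⟨q, rfl⟩⟩
      let v' : Fin n → Substructure.closure L₁
          (range fun p : ULift.{u} (Fin 2) => e (![i, j] p.down)) :=
        fun q => E.symm ⟨v q, hvS q⟩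
      have hv' : ∀ q, E (v' q) = ⟨v q, hvS q⟩ := fun q => E.apply_symm_apply _
      have h1 : RelMap (φ.onRelation R) (fun q => (⟨v q, hvS q⟩ : S)) := hv
      have h2 : RelMap (φ.onRelation R) v' := by
        rw [← E.map_rel]
        have : (E ∘ v') = fun q => (⟨v q, hvS q⟩ : S) := funext hv'
        rw [this]
        exact h1
      have h3 : RelMap R (fun q => (v' q).1) := h2
      have hval : ∀ q r, v q = P (b (w 0)) (b (w 1)) r → (v' q).1 = PN r (e i) (e j) := by
        intro q r hq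
        have h4 : v' q = ⟨PN r (e i) (e j), hmemN r⟩ := by
          apply E.injective
          rw [hv']
          apply Subtype.ext
          rw [hEk]
          exact hq
        rw [h4]
      exact ⟨n, R, fun q => (v' q).1, h3, ⟨p, hval p k hp⟩, ⟨p', hval p' m hp'⟩⟩
    have heq : ∀ k m, P (b (w 0)) (b (w 1)) k = P (b (w 0)) (b (w 1)) m →
        PN k (e i) (e j) = PN m (e i) (e j) := by
      intro k m hkm
      have h2 := hw2.1 (tP k 0 1) (tP m 0 1)
      rw [htP, htP, htPN, htPN] at h2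
      exact h2.2 hkm
    have h0 : ∃ k, P (b (w 0)) (b (w 1)) k = b (w 0) ∧ PN k (e i) (e j) = e i := by
      have h1 : b (w 0) ∈ range (P (b (w 0)) (b (w 1))) := by
        rw [hQr]
        exact hs.left _ _ hlt
      obtain ⟨k, hk⟩ := h1
      have h2 := hw2.1 (tP k 0 1) (Term.var 0)
      rw [htP, htPN] at h2
      exact ⟨k, hk, h2.2 hk⟩
    have h1 : ∃ k, P (b (w 0)) (b (w 1)) k = b (w 1) ∧ PN k (e i) (e j) = e j := by
      have h1 : b (w 1) ∈ range (P (b (w 0)) (b (w 1))) := by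
        rw [hQr]
        exact hs.right _ _ hlt
      obtain ⟨k, hk⟩ := h1
      have h2 := hw2.1 (tP k 0 1) (Term.var 1)
      rw [htP, htPN] at h2
      exact ⟨k, hk, h2.2 hk⟩
    obtain ⟨k₀, hk₀, hk₀'⟩ := h0
    obtain ⟨k₁, hk₁, hk₁'⟩ := h1
    have key : ∀ y, conn L (Q (w 0) (w 1))ᶜ (b (w 0)) y → ∃ k, P (b (w 0)) (b (w 1)) k = y ∧
        conn L (QN i j)ᶜ (e i) (PN k (e i) (e j)) := by
      intro y hy
      induction hy with
      | refl => exact ⟨k₀, hk₀, by rw [hk₀']; exact Relation.ReflTransGen.refl⟩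
      | @tail y z _ hyz ih =>
        obtain ⟨k, hk, hconn⟩ := ih
        have hz : z ∈ Q (w 0) (w 1) := not_not.1 hyz.2.1
        rw [← hQr] at hz
        obtain ⟨m, hm⟩ := hz
        refine ⟨m, hm, Relation.ReflTransGen.tail hconn ⟨?_, ?_, ?_⟩⟩
        · exact not_not.2 ⟨k, rfl⟩
        · exact not_not.2 ⟨m, rfl⟩
        · apply hadj
          rw [hk, hm]
          exact hyz.2.2
    obtain ⟨k, hk, hconn⟩ := key _ (hs.conn _ _ hlt)
    rw [← hk₁'] 
    rw [heq k k₁ (hk.trans hk₁.symm)] at hconn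
    exact hconn
  · -- branch vertices
    rintro i j hij g ⟨k, hk⟩
    obtain ⟨w, hw1, hw2⟩ := htup ![i, j, g]
    have hlt : w 0 < w 1 := (hw1 0 1).1 hij
    have h2 := hw2.1 (tP k 0 1) (Term.var 2)
    rw [htP, htPN] at h2
    have h3 : P (b (w 0)) (b (w 1)) k = b (w 2) := h2.1 hk
    have h4 : b (w 2) ∈ Q (w 0) (w 1) := by
      rw [← hP' _ _ hlt]
      exact ⟨k, h3⟩
    rcases hs.avoid _ _ hlt _ h4 with h5 | h5
    · left
      apply heinj
      exact (hw2.1 (Term.var 2) (Term.var 0)).2 (congrArg b h5)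
    · right
      apply heinj
      exact (hw2.1 (Term.var 2) (Term.var 1)).2 (congrArg b h5)
  · -- disjointness
    rintro i j i' j' hij hij' hne x ⟨k, hk⟩ ⟨m, hm⟩
    obtain ⟨w, hw1, hw2⟩ := htup ![i, j, i', j']
    have hlt : w 0 < w 1 := (hw1 0 1).1 hij
    have hlt' : w 2 < w 3 := (hw1 2 3).1 hij'
    have hne' : w 0 ≠ w 2 ∨ w 1 ≠ w 3 := by
      rcases hne with h | h
      · left
        intro h'
        rcases lt_trichotomy i i' with h1 | h1 | h1
        · exact absurd h' ((hw1 0 2).1 h1).ne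
        · exact h h1
        · exact absurd h' ((hw1 2 0).1 h1).ne'
      · right
        intro h'
        rcases lt_trichotomy j j' with h1 | h1 | h1
        · exact absurd h' ((hw1 1 3).1 h1).ne
        · exact h h1
        · exact absurd h' ((hw1 3 1).1 h1).ne'
    have h2 := hw2.1 (tP k 0 1) (tP m 2 3)
    rw [htP, htP, htPN, htPN] at h2
    have h3 : P (b (w 0)) (b (w 1)) k = P (b (w 2)) (b (w 3)) m := h2.1 (hk.trans hm.symm)
    have h4 : P (b (w 0)) (b (w 1)) k ∈ Q (w 0) (w 1) := by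
      rw [← hP' _ _ hlt]
      exact ⟨k, rfl⟩
    have h5 : P (b (w 0)) (b (w 1)) k ∈ Q (w 2) (w 3) := by
      rw [h3, ← hP' _ _ hlt']
      exact ⟨m, rfl⟩
    obtain ⟨r, hr⟩ := hs.disj _ _ _ _ hlt hlt' hne' _ h4 h5
    have h6 : b r ∈ Q (w 0) (w 1) := by
      rw [hr]
      exact h4
    rcases hs.avoid _ _ hlt _ h6 with h7 | h7
    · refine ⟨i, ?_⟩
      have h8 := hw2.1 (tP k 0 1) (Term.var 0)
      rw [htP, htPN] at h8
      have h9 : PN k (e i) (e j) = e i := h8.2 (by rw [← hr, h7]; rfl)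
      rw [← h9]
      exact hk
    · refine ⟨j, ?_⟩
      have h8 := hw2.1 (tP k 0 1) (Term.var 1)
      rw [htP, htPN] at h8
      have h9 : PN k (e i) (e j) = e j := h8.2 (by rw [← hr, h7]; rfl)
      rw [← h9]
      exact hk

end Vale.Agent.P307.Gr
end
end

section

section

universe u

namespace Vale.Agent.P307.Gr

open FirstOrder Language Cardinal Structure Set

variable {L : Language.{u, u}} {M : Type u} [L.Structure M]

theorem exists_walk {Q : Set M} {x y : M} (hx : x ∈ Q) (h : conn L Qᶜ x y) :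
    ∃ p : (gaifman L M).Walk x y, p.IsPath ∧ ∀ z ∈ p.support, z ∈ Q := by
  classical
  have key : ∃ p : (gaifman L M).Walk x y, ∀ z ∈ p.support, z ∈ Q := by
    induction h with
    | refl =>
      refine ⟨SimpleGraph.Walk.nil, fun z hz => ?_⟩
      rw [SimpleGraph.Walk.support_nil, List.mem_singleton] at hz
      rwa [hz]
    | @tail b c _ hbc ih =>
      obtain ⟨p, hp⟩ := ih
      by_cases hbc' : b = c
      · subst hbc'
        exact ⟨p, hp⟩
      · have hadj : (gaifman L M).Adj b c := ⟨hbc', hbc.2.2⟩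
        refine ⟨p.concat hadj, fun z hz => ?_⟩
        rw [SimpleGraph.Walk.support_concat, List.mem_append, List.mem_singleton] at hz
        rcases hz with hz | hz
        · exact hp z hz
        · rw [hz]
          exact not_not.1 hbc.2.1
  obtain ⟨p, hp⟩ := key
  exact ⟨p.bypass, p.bypass_isPath, fun z hz => hp z (p.support_bypass_subset_support hz)⟩

theorem SubDiv.hasCompleteSubdivision {T : Type u} [LinearOrder T] {b : T → M}
    {Q : T → T → Set M} (h : SubDiv L b Q) : HasCompleteSubdivision (gaifman L M) #T := by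
  classical
  have h1 : ∀ a a' : range b, ∃ p : (gaifman L M).Walk a.1 a'.1,
      (a ≠ a' → p.IsPath) ∧ (∀ s t, s < t → b s = a.1 → b t = a'.1 → ∀ z ∈ p.support, z ∈ Q s t) ∧
      (∀ s t, t < s → b s = a.1 → b t = a'.1 → ∀ z ∈ p.support, z ∈ Q t s) := by
    rintro ⟨_, ⟨s, rfl⟩⟩ ⟨_, ⟨t, rfl⟩⟩
    rcases lt_trichotomy s t with hst | hst | hst
    · obtain ⟨p, hp1, hp2⟩ := exists_walk (h.left s t hst) (h.conn s t hst)
      refine ⟨p, fun _ => hp1, fun s' t' _ hs' ht' z hz => ?_, fun s' t' h' hs' ht' => ?_⟩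
      · rw [h.inj hs', h.inj ht']
        exact hp2 z hz
      · rw [h.inj hs', h.inj ht'] at h'
        exact absurd h' (not_lt.2 hst.le)
    · subst hst
      refine ⟨SimpleGraph.Walk.nil, fun hne => absurd rfl hne, fun s' t' h' hs' ht' => ?_,
        fun s' t' h' hs' ht' => ?_⟩
      · rw [h.inj hs', h.inj ht'] at h'
        exact absurd h' (lt_irrefl _)
      · rw [h.inj hs', h.inj ht'] at h'
        exact absurd h' (lt_irrefl _)
    · obtain ⟨p, hp1, hp2⟩ := exists_walk (h.left t s hst) (h.conn t s hst)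
      refine ⟨p.reverse, fun _ => hp1.reverse, fun s' t' h' hs' ht' => ?_,
        fun s' t' _ hs' ht' z hz => ?_⟩
      · rw [h.inj hs', h.inj ht'] at h'
        exact absurd h' (not_lt.2 hst.le)
      · rw [h.inj hs', h.inj ht']
        rw [SimpleGraph.Walk.support_reverse, List.mem_reverse] at hz
        exact hp2 z hz
  choose p hp1 hp2 hp3 using h1
  -- the support of a path lies in the corresponding set
  have h2 : ∀ a a' : range b, a ≠ a' → ∃ s t, s < t ∧ (∀ z ∈ (p a a').support, z ∈ Q s t) ∧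
      ((b s = a.1 ∧ b t = a'.1) ∨ (b s = a'.1 ∧ b t = a.1)) := by
    rintro ⟨_, ⟨s, rfl⟩⟩ ⟨_, ⟨t, rfl⟩⟩ hne
    rcases lt_trichotomy s t with hst | hst | hst
    · exact ⟨s, t, hst, hp2 _ _ s t hst rfl rfl, Or.inl ⟨rfl, rfl⟩⟩
    · subst hst
      exact absurd rfl hne
    · exact ⟨t, s, hst, hp3 _ _ s t hst rfl rfl, Or.inr ⟨rfl, rfl⟩⟩
  refine ⟨range b, p, mk_range_eq b h.inj, fun a a' hne => ⟨hp1 a a' hne, ?_⟩, ?_⟩
  · intro x hx hxB
    obtain ⟨s, t, hst, hsup, hcase⟩ := h2 a a' hne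
    obtain ⟨r, rfl⟩ := hxB
    rcases h.avoid s t hst r (hsup _ hx) with h3 | h3
    · subst h3
      rcases hcase with h4 | h4
      · exact Or.inl h4.1
      · exact Or.inr h4.1
    · subst h3
      rcases hcase with h4 | h4
      · exact Or.inr h4.2
      · exact Or.inl h4.2
  · intro a a' c c' hne hne' hs x hx hx'
    obtain ⟨s, t, hst, hsup, hcase⟩ := h2 a a' hne
    obtain ⟨s', t', hst', hsup', hcase'⟩ := h2 c c' hne'
    refine h.disj s t s' t' hst hst' ?_ x (hsup x hx) (hsup' x hx')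
    by_contra hcon
    push Not at hcon
    obtain ⟨h3, h4⟩ := hcon
    subst h3 h4
    apply hs
    rcases hcase with ⟨h5, h6⟩ | ⟨h5, h6⟩ <;> rcases hcase' with ⟨h7, h8⟩ | ⟨h7, h8⟩
    · have h9 : a = c := Subtype.ext (h5.symm.trans h7)
      have h10 : a' = c' := Subtype.ext (h6.symm.trans h8)
      rw [h9, h10]
    · have h9 : a = c' := Subtype.ext (h5.symm.trans h7)
      have h10 : a' = c := Subtype.ext (h6.symm.trans h8)
      rw [h9, h10]
      exact Sym2.eq_swap
    · have h9 : a' = c := Subtype.ext (h5.symm.trans h7)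
      have h10 : a = c' := Subtype.ext (h6.symm.trans h8)
      rw [h9, h10]
      exact Sym2.eq_swap
    · have h9 : a' = c' := Subtype.ext (h5.symm.trans h7)
      have h10 : a = c := Subtype.ext (h6.symm.trans h8)
      rw [h9, h10]

/-- Transfer of categoricity, internal form with subdivisions. -/
theorem categorical_transfer' [L.IsRelational] {K : AEC L} {l : Cardinal.{u}} (hK : K.IsLS l)
    {κ κ' : Cardinal.{u}}
    (hno : ∀ (N : Type u) [L.Structure N], K.mem N → #N = κ →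
      ¬ HasCompleteSubdivision (gaifman L N) κ)
    (hκ : muG (max l (hanf (2 ^ l))) ≤ κ) (hcat : K.CategoricalIn κ)
    (hκ' : muG (max l (hanf (2 ^ l))) ≤ κ') : K.CategoricalIn κ' := by
  set l' := max l (hanf (2 ^ l)) with hl'
  have hl := hK.1
  have hll' : l ≤ l' := le_max_left _ _
  have hK' : K.IsLS l' := hK.mono hll'
  have hl'κ : l' ≤ κ := by
    have h1 : Order.succ l' ≤ thetaG l' := (le_max_right _ _).trans (le_max_right _ _)
    exact (Order.le_succ l').trans (h1.trans ((cantor _).le.trans ((Order.le_succ _).trans hκ)))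
  refine categorical_transfer hK' ?_ hκ hcat hκ'
  intro N _ hN hNκ Z hZ
  by_contra hcon
  rw [not_le] at hcon
  obtain ⟨b, Q, hs⟩ := exists_subDiv (hl.trans hll') hZ hcon
  have hcard : #(SuccTy l') = Order.succ l' := by simp [SuccTy]
  have hne : Nonempty (SuccTy l') := by
    rw [← mk_ne_zero_iff, hcard]
    exact (aleph0_pos.trans_le (hl.trans (hll'.trans (Order.le_succ _)))).ne'
  obtain ⟨N', strN', hN', hN'κ, T, ordT, b', Q', hT, hs'⟩ := exists_big_subDiv hK
    (hll'.trans hl'κ) N hN (X := SuccTy l') (by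
      rw [hcard]
      exact (le_max_right l _).trans (Order.le_succ _)) hne hs
  have h1 := hs'.hasCompleteSubdivision
  rw [hT] at h1
  exact hno N' hN' hN'κ h1

end Vale.Agent.P307.Gr
end
end
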